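import Vale.Agent.Lib.P012.BlocksT

namespace Vale.Agent.Lib.P012

open Finset

/-- `u` divides a sum of five distinct odd divisors of `V`. -/
def Atom (V u : ℕ) : Prop :=
  ∃ d : Fin 5 → ℕ, Function.Injective d ∧ (∀ h, d h ∣ V) ∧ (∀ h, Odd (d h)) ∧ u ∣ ∑ h, d h

/-- Blocks of transversal products, with the extra information that a product of an element of
one block with an element of its partner block is a product of a set of at most `2 k` elements
of `G`. -/
theorem exists_blocksP {G : Finset ℕ} (hG : ∀ p ∈ G, p.Prime) {pb : ℕ} (hGb : ∀ p ∈ G, p ≤ 2 ^ pb)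
    {k q : ℕ} (hk : 0 < k) (hcard : 10 * (k * q) ≤ G.card) :
    ∃ (X : Fin 5 × Bool → Finset ℕ) (P : Fin 5 × Bool → ℕ),
      (∀ j, (X j).card = q ^ k) ∧
      (∀ j, ∀ x ∈ X j, x ∣ P j ∧ 2 ≤ x ∧ x ≤ 2 ^ (pb * k)) ∧
      (∀ i i' : Fin 5, i ≠ i' →
        Nat.Coprime (P (i, false) * P (i, true)) (P (i', false) * P (i', true))) ∧
      (∏ i, (P (i, false) * P (i, true)) ∣ ∏ p ∈ G, p) ∧
      (∀ i, ∀ x ∈ X (i, false), ∀ y ∈ X (i, true),
        ∃ I ⊆ G, I.card ≤ 2 * k ∧ x * y = ∏ p ∈ I, p) := by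
  classical
  have hcard' : Fintype.card ((Fin 5 × Bool) × (Fin k × Fin q)) ≤ Fintype.card G := by
    simp only [Fintype.card_prod, Fintype.card_fin, Fintype.card_bool, Fintype.card_coe]
    omega
  obtain ⟨φ⟩ := Function.Embedding.nonempty_of_card_le hcard'
  set f : (Fin 5 × Bool) × (Fin k × Fin q) → ℕ := fun z => (φ z : ℕ) with hf
  have hfinj : Function.Injective f := fun a b h => φ.injective (Subtype.ext h)
  have hfprime : ∀ z, (f z).Prime := fun z => hG _ (φ z).2
  have hfG : ∀ z, f z ∈ G := fun z => (φ z).2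
  have hfb : ∀ z, f z ≤ 2 ^ pb := fun z => hGb _ (φ z).2
  have hinj : ∀ j, Function.Injective (fun τ : Fin k → Fin q => ∏ i, f (j, (i, τ i))) := by
    intro j τ τ' hττ'
    funext i
    simp only at hττ'
    have h1 : f (j, (i, τ i)) ∣ ∏ i, f (j, (i, τ' i)) := by
      rw [← hττ']
      exact Finset.dvd_prod_of_mem (fun i => f (j, (i, τ i))) (Finset.mem_univ i)
    obtain ⟨i', _, h2⟩ := (Prime.dvd_finsetProd_iff (hfprime _).prime _).1 h1
    have h3 := (Nat.prime_dvd_prime_iff_eq (hfprime _) (hfprime _)).1 h2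
    have h4 := hfinj h3
    simp only [Prod.mk.injEq, true_and] at h4
    obtain ⟨rfl, h5⟩ := h4
    exact h5
  refine ⟨fun j => (Finset.univ : Finset (Fin k → Fin q)).image
      (fun τ => ∏ i, f (j, (i, τ i))), fun j => ∏ z, f (j, z), ?_, ?_, ?_, ?_, ?_⟩
  · intro j
    simp only
    rw [Finset.card_image_of_injective _ (hinj j), Finset.card_univ, Fintype.card_fun,
      Fintype.card_fin, Fintype.card_fin]
  · intro j x hx
    obtain ⟨τ, _, rfl⟩ := Finset.mem_image.1 hx
    refine ⟨?_, ?_, ?_⟩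
    · have h1 : ∏ i, f (j, (i, τ i)) = ∏ z ∈ Finset.univ.image (fun i => (i, τ i)), f (j, z) := by
        rw [Finset.prod_image]
        intro a _ b _ h
        exact (Prod.mk.inj h).1
      simp only
      rw [h1]
      exact Finset.prod_dvd_prod_of_subset _ _ _ (Finset.subset_univ _)
    · have i₀ : Fin k := ⟨0, hk⟩
      have h1 : f (j, (i₀, τ i₀)) ∣ ∏ i, f (j, (i, τ i)) :=
        Finset.dvd_prod_of_mem (fun i => f (j, (i, τ i))) (Finset.mem_univ i₀)
      have h2 : 0 < ∏ i, f (j, (i, τ i)) := Finset.prod_pos (fun i _ => (hfprime _).pos)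
      exact (hfprime _).two_le.trans (Nat.le_of_dvd h2 h1)
    · have := Finset.prod_le_pow_card (Finset.univ : Finset (Fin k)) (fun i => f (j, (i, τ i)))
        (2 ^ pb) (fun i _ => hfb _)
      simp only [Finset.card_univ, Fintype.card_fin] at this
      rw [pow_mul]
      exact this
  · intro i i' hne
    have key : ∀ b b' : Bool, Nat.Coprime (∏ z, f ((i, b), z)) (∏ z, f ((i', b'), z)) := by
      intro b b'
      apply Nat.Coprime.prod_left
      intro z _
      apply Nat.Coprime.prod_right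
      intro z' _
      rw [Nat.coprime_primes (hfprime _) (hfprime _)]
      intro h
      have h1 := hfinj h
      simp only [Prod.mk.injEq] at h1
      exact hne h1.1.1
    exact Nat.Coprime.mul_left (Nat.Coprime.mul_right (key _ _) (key _ _))
      (Nat.Coprime.mul_right (key _ _) (key _ _))
  · have h1 : ∏ i, ((∏ z, f ((i, false), z)) * (∏ z, f ((i, true), z))) = ∏ z, f z := by
      rw [Fintype.prod_prod_type (f := f), Fintype.prod_prod_type]
      apply Finset.prod_congr rfl
      intro i _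
      rw [Fintype.prod_bool, mul_comm]
    have h2 : ∏ z, f z = ∏ p ∈ Finset.univ.image f, p := by
      rw [Finset.prod_image (fun a _ b _ h => hfinj h)]
    simp only
    rw [h1, h2]
    apply Finset.prod_dvd_prod_of_subset
    intro p hp
    obtain ⟨z, _, rfl⟩ := Finset.mem_image.1 hp
    exact hfG z
  · intro i x hx y hy
    obtain ⟨τ, _, rfl⟩ := Finset.mem_image.1 hx
    obtain ⟨τ', _, rfl⟩ := Finset.mem_image.1 hy
    have hinj1 : Function.Injective (fun l : Fin k => f ((i, false), (l, τ l))) := by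
      intro a b h
      have := hfinj h
      simp only [Prod.mk.injEq, true_and] at this
      exact this.1
    have hinj2 : Function.Injective (fun l : Fin k => f ((i, true), (l, τ' l))) := by
      intro a b h
      have := hfinj h
      simp only [Prod.mk.injEq, true_and] at this
      exact this.1
    have hdisj : Disjoint (Finset.univ.image (fun l : Fin k => f ((i, false), (l, τ l))))
        (Finset.univ.image (fun l : Fin k => f ((i, true), (l, τ' l)))) := by
      rw [Finset.disjoint_left]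
      intro p hp hp'
      obtain ⟨a, _, rfl⟩ := Finset.mem_image.1 hp
      obtain ⟨b, _, hb⟩ := Finset.mem_image.1 hp'
      have := hfinj hb
      simp at this
    refine ⟨Finset.univ.image (fun l : Fin k => f ((i, false), (l, τ l))) ∪
      Finset.univ.image (fun l : Fin k => f ((i, true), (l, τ' l))), ?_, ?_, ?_⟩
    · intro p hp
      rcases Finset.mem_union.1 hp with h | h
      · obtain ⟨a, _, rfl⟩ := Finset.mem_image.1 h
        exact hfG _
      · obtain ⟨a, _, rfl⟩ := Finset.mem_image.1 h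
        exact hfG _
    · refine (Finset.card_union_le _ _).trans ?_
      have h1 := Finset.card_image_le (s := (Finset.univ : Finset (Fin k)))
        (f := fun l : Fin k => f ((i, false), (l, τ l)))
      have h2 := Finset.card_image_le (s := (Finset.univ : Finset (Fin k)))
        (f := fun l : Fin k => f ((i, true), (l, τ' l)))
      simp only [Finset.card_univ, Fintype.card_fin] at h1 h2
      omega
    · rw [Finset.prod_union hdisj, Finset.prod_image (fun a _ b _ h => hinj1 h),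
        Finset.prod_image (fun a _ b _ h => hinj2 h)]

/-- Tier one: for suitable blocks, a large set `L` of primes such that all products of at most
`t` primes of `L` are atoms. -/
theorem exists_atoms {V n vx r t cp : ℕ} (hV : 0 < V)
    (X : Fin 5 × Bool → Finset ℕ) (P : Fin 5 × Bool → ℕ)
    (hXn : ∀ j, (X j).card = n) (hn : 0 < n)
    (hXP : ∀ j, ∀ x ∈ X j, x ∣ P j ∧ 2 ≤ x ∧ x ≤ 2 ^ vx)
    (hXodd : ∀ j, ∀ x ∈ X j, Odd x)
    (hPco : ∀ i i' : Fin 5, i ≠ i' →
      Nat.Coprime (P (i, false) * P (i, true)) (P (i', false) * P (i', true)))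
    (hPV : ∏ i, (P (i, false) * P (i, true)) ∣ V)
    (hvx : 0 < vx) (hcp : 0 < cp)
    (hnΓ : (2 ^ (3 * r)) ^ t ≤ n) (hr : 2 * t * 21 ^ 5 < 2 ^ r)
    (hπ : 2 * cp * 2 ^ (3 * r) * vx + cp ≤ (Nat.primesLE (2 ^ (4 * r))).card) :
    ∃ L : Finset ℕ, L.card = cp ∧ (∀ ℓ ∈ L, ℓ.Prime ∧ ℓ ≤ 2 ^ (4 * r)) ∧
      ∀ I ⊆ L, I.card ≤ t → Atom V (∏ p ∈ I, p) := by
  classical
  have hAprime : ∀ p ∈ Nat.primesLE (2 ^ (4 * r)), p.Prime :=
    fun p hp => Nat.prime_of_mem_primesLE hp
  have hXv : ∀ j, ∀ x ∈ X j, x ≤ 2 ^ vx := fun j x hx => (hXP j x hx).2.2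
  obtain ⟨L, hLA, hLc, hLcoll⟩ := greedy_select hAprime X hXv hXn (by positivity) hvx hcp hπ
  have hcard10 : Fintype.card (Fin 5 × Bool) = 10 := by simp
  rw [hcard10] at hLcoll
  have hLprops : ∀ ℓ ∈ L, ℓ.Prime ∧ ℓ ≤ 2 ^ (4 * r) := fun ℓ hℓ =>
    ⟨hAprime ℓ (hLA hℓ), Nat.le_of_mem_primesLE (hLA hℓ)⟩
  refine ⟨L, hLc, hLprops, ?_⟩
  intro I hI hIt
  set w := ∏ p ∈ I, p with hw
  have hw0 : 0 < w := Finset.prod_pos (fun ℓ hℓ => (hLprops ℓ (hI hℓ)).1.pos)
  have : NeZero w := ⟨hw0.ne'⟩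
  obtain ⟨p, hp1, hp2⟩ := fourier_cover (w := w) (L := I) (fun ℓ hℓ => (hLprops ℓ (hI hℓ)).1) hw
    (fun ℓ hℓ => (hLprops ℓ (hI hℓ)).2) hIt X hXn hn hnΓ
    (fun I' hI' j => hLcoll I' (hI'.trans hI) j) hr (0 : ZMod w)
  set d : Fin 5 → ℕ := fun i => (p i).1 * (p i).2 with hd
  have hd1 : ∀ i, d i ∣ P (i, false) * P (i, true) := fun i =>
    Nat.mul_dvd_mul (hXP _ _ (hp1 i).1).1 (hXP _ _ (hp1 i).2).1
  have hd2 : ∀ i, 2 ≤ d i := fun i => by
    have h1 := (hXP _ _ (hp1 i).1).2.1
    have h2 := (hXP _ _ (hp1 i).2).2.1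
    calc 2 ≤ (p i).1 := h1
      _ ≤ (p i).1 * (p i).2 := Nat.le_mul_of_pos_right _ (by omega)
  have hdinj : Function.Injective d := by
    intro i i' hii'
    by_contra hne
    have h1 := hPco i i' hne
    have h2 : d i ∣ P (i', false) * P (i', true) := hii' ▸ hd1 i'
    have h3 : d i ∣ 1 := by
      have := Nat.dvd_gcd (hd1 i) h2
      rwa [h1] at this
    have h4 := Nat.le_of_dvd (by norm_num) h3
    have h5 := hd2 i
    omega
  refine ⟨d, hdinj, ?_, ?_, ?_⟩
  · intro i
    exact (hd1 i).trans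
      ((Finset.dvd_prod_of_mem (fun i => P (i, false) * P (i, true)) (Finset.mem_univ i)).trans hPV)
  · intro i
    exact (hXodd _ _ (hp1 i).1).mul (hXodd _ _ (hp1 i).2)
  · have h1 : ((∑ i, d i : ℕ) : ZMod w) = 0 := by
      rw [← hp2]
      simp only [hd, Nat.cast_sum, Nat.cast_mul]
    exact (ZMod.natCast_eq_zero_iff _ _).1 h1

end Vale.Agent.Lib.P012
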