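import Mathlib

namespace Vale.Agent.Lib.P012

open Finset

/-- Every `m < M` is a sum of at most `T` distinct divisors of `M`. -/
def Rep (M T : ℕ) : Prop :=
  ∀ m < M, ∃ S : Finset ℕ, (∀ d ∈ S, d ∣ M) ∧ S.card ≤ T ∧ ∑ d ∈ S, d = m

theorem Rep.mono {M T T' : ℕ} (h : Rep M T) (hT : T ≤ T') : Rep M T' := by
  intro m hm
  obtain ⟨S, h1, h2, h3⟩ := h m hm
  exact ⟨S, h1, h2.trans hT, h3⟩

/-- Passing from divisor sums to unit fractions. -/
theorem egyptian_of_rep {M T a b : ℕ} (hM : 0 < M) (h3 : ¬ 3 ∣ M) (hb : 3 * b ≤ M)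
    (hR : Rep M T) (ha : 0 < a) (hab : a < b) :
    ∃ S : Finset ℕ, (∀ n ∈ S, 2 ≤ n) ∧ ∑ n ∈ S, (1 / (n : ℚ)) = (a : ℚ) / b ∧ S.card ≤ 2 * T := by
  have hb0 : 0 < b := by omega
  set m₁ := a * M / b with hm₁
  set r := a * M % b with hr
  have hdiv : b * m₁ + r = a * M := Nat.div_add_mod _ _
  have hrb : r < b := Nat.mod_lt _ hb0
  have hm₁M : m₁ < M := by
    rw [hm₁]
    apply Nat.div_lt_of_lt_mul
    nlinarith
  have h3r : 3 * r < M := by omega
  obtain ⟨S₁, hS₁d, hS₁c, hS₁s⟩ := hR m₁ hm₁M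
  obtain ⟨S₂, hS₂d, hS₂c, hS₂s⟩ := hR (3 * r) h3r
  have hinj₁ : Set.InjOn (fun d => M / d) (S₁ : Set ℕ) := by
    intro d hd d' hd' hh
    have hd1 := hS₁d d hd
    have hd2 := hS₁d d' hd'
    simp only at hh
    have e1 := Nat.div_mul_cancel hd1
    have e2 := Nat.div_mul_cancel hd2
    rw [hh] at e1
    have hpos : 0 < M / d' := Nat.div_pos (Nat.le_of_dvd hM hd2) (Nat.pos_of_dvd_of_pos hd2 hM)
    exact Nat.eq_of_mul_eq_mul_left hpos (e1.trans e2.symm)
  have hinj₂ : Set.InjOn (fun d => 3 * b * (M / d)) (S₂ : Set ℕ) := by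
    intro d hd d' hd' hh
    have hd1 := hS₂d d hd
    have hd2 := hS₂d d' hd'
    simp only at hh
    have hh' : M / d = M / d' := Nat.eq_of_mul_eq_mul_left (by omega) hh
    have e1 := Nat.div_mul_cancel hd1
    have e2 := Nat.div_mul_cancel hd2
    rw [hh'] at e1
    have hpos : 0 < M / d' := Nat.div_pos (Nat.le_of_dvd hM hd2) (Nat.pos_of_dvd_of_pos hd2 hM)
    exact Nat.eq_of_mul_eq_mul_left hpos (e1.trans e2.symm)
  have hdisj : Disjoint (S₁.image (fun d => M / d)) (S₂.image (fun d => 3 * b * (M / d))) := by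
    rw [Finset.disjoint_left]
    intro x hx hx'
    obtain ⟨d, hd, rfl⟩ := Finset.mem_image.1 hx
    obtain ⟨d', hd', hdd'⟩ := Finset.mem_image.1 hx'
    apply h3
    have h1 : 3 ∣ M / d := by
      rw [← hdd', mul_assoc]
      exact Dvd.intro _ rfl
    exact h1.trans (Nat.div_dvd_of_dvd (hS₁d d hd))
  refine ⟨S₁.image (fun d => M / d) ∪ S₂.image (fun d => 3 * b * (M / d)), ?_, ?_, ?_⟩
  · intro n hn
    rcases Finset.mem_union.1 hn with hn | hn
    · obtain ⟨d, hd, rfl⟩ := Finset.mem_image.1 hn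
      have hd1 := hS₁d d hd
      have hdle : d ≤ m₁ := by
        rw [← hS₁s]
        exact Finset.single_le_sum (f := fun x => x) (fun _ _ => Nat.zero_le _) hd
      have hdM : d < M := lt_of_le_of_lt hdle hm₁M
      have hdpos : 0 < d := Nat.pos_of_dvd_of_pos hd1 hM
      have e1 := Nat.div_mul_cancel hd1
      by_contra hcon
      have hq : M / d < 2 := not_le.1 hcon
      interval_cases hq' : M / d <;> omega
    · obtain ⟨d, hd, rfl⟩ := Finset.mem_image.1 hn
      have hd1 := hS₂d d hd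
      have hpos : 0 < M / d := Nat.div_pos (Nat.le_of_dvd hM hd1) (Nat.pos_of_dvd_of_pos hd1 hM)
      have : 1 ≤ b * (M / d) := Nat.mul_pos hb0 hpos
      calc 2 ≤ 3 * (b * (M / d)) := by omega
        _ = 3 * b * (M / d) := by ring
  · rw [Finset.sum_union hdisj, Finset.sum_image hinj₁, Finset.sum_image hinj₂]
    have hMQ : (M : ℚ) ≠ 0 := by positivity
    have hbQ : (b : ℚ) ≠ 0 := by positivity
    have e₁ : ∀ d ∈ S₁, (1 / (((M / d : ℕ)) : ℚ)) = (d : ℚ) / M := by
      intro d hd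
      have hd1 := hS₁d d hd
      have hdpos : 0 < d := Nat.pos_of_dvd_of_pos hd1 hM
      have : ((M / d : ℕ) : ℚ) = (M : ℚ) / d := Nat.cast_div hd1 (by positivity)
      rw [this]
      field_simp
    have e₂ : ∀ d ∈ S₂, (1 / (((3 * b * (M / d) : ℕ)) : ℚ)) = (d : ℚ) / (3 * b * M) := by
      intro d hd
      have hd1 := hS₂d d hd
      have hdpos : 0 < d := Nat.pos_of_dvd_of_pos hd1 hM
      have : ((M / d : ℕ) : ℚ) = (M : ℚ) / d := Nat.cast_div hd1 (by positivity)
      push_cast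
      rw [this]
      field_simp
    rw [Finset.sum_congr rfl e₁, Finset.sum_congr rfl e₂, ← Finset.sum_div, ← Finset.sum_div]
    have s₁ : (∑ d ∈ S₁, (d : ℚ)) = m₁ := by rw [← hS₁s]; push_cast; rfl
    have s₂ : (∑ d ∈ S₂, (d : ℚ)) = 3 * r := by
      have : ((∑ d ∈ S₂, d : ℕ) : ℚ) = ((3 * r : ℕ) : ℚ) := by rw [hS₂s]
      push_cast at this
      exact this
    rw [s₁, s₂]
    have hdivQ : (b : ℚ) * m₁ + r = a * M := by exact_mod_cast hdiv
    field_simp
    linarith
  · calc _ ≤ (S₁.image (fun d => M / d)).card + (S₂.image (fun d => 3 * b * (M / d))).card :=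
          Finset.card_union_le _ _
      _ ≤ S₁.card + S₂.card := add_le_add Finset.card_image_le Finset.card_image_le
      _ ≤ 2 * T := by omega

/-- One level: if sums of at most `t` divisors of `V` with total at most `V` cover all residues
modulo `w` (coprime to `V`), then representability lifts from `V` to `w * V`. -/
theorem Rep.level {V w T t : ℕ} (hV : 0 < V) (hw : 2 ≤ w) (hco : Nat.Coprime w V)
    (H : ∀ r < w, ∃ D : Finset ℕ, (∀ d ∈ D, d ∣ V) ∧ D.card ≤ t ∧ ∑ d ∈ D, d ≤ V ∧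
        (∑ d ∈ D, d) % w = r)
    (hR : Rep V T) : Rep (w * V) (T + t) := by
  intro m hm
  by_cases hmV : m < V
  · obtain ⟨S, h1, h2, h3⟩ := hR m hmV
    exact ⟨S, fun d hd => (h1 d hd).trans (Dvd.intro_left _ rfl), by omega, h3⟩
  · replace hmV := not_lt.1 hmV
    obtain ⟨D, hD1, hD2, hD3, hD4⟩ := H (m % w) (Nat.mod_lt _ (by omega))
    have hsum : ∑ d ∈ D, d ≤ m := hD3.trans hmV
    have hmod : w ∣ m - ∑ d ∈ D, d := by
      apply (Nat.modEq_iff_dvd' hsum).1
      exact hD4
    obtain ⟨m', hm'⟩ := hmod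
    have hm'V : m' < V := by
      by_contra hcon
      replace hcon := not_lt.1 hcon
      have : w * V ≤ w * m' := Nat.mul_le_mul_left _ hcon
      omega
    obtain ⟨S, h1, h2, h3⟩ := hR m' hm'V
    have hinj : Set.InjOn (fun d => w * d) (S : Set ℕ) := by
      intro d _ d' _ hh
      exact Nat.eq_of_mul_eq_mul_left (by omega) hh
    have hdisj : Disjoint D (S.image (fun d => w * d)) := by
      rw [Finset.disjoint_left]
      intro x hx hx'
      obtain ⟨d, _, rfl⟩ := Finset.mem_image.1 hx'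
      have h1 : w ∣ V := (Dvd.intro _ rfl).trans (hD1 _ hx)
      have : w = 1 := Nat.Coprime.eq_one_of_dvd hco h1
      omega
    refine ⟨D ∪ S.image (fun d => w * d), ?_, ?_, ?_⟩
    · intro d hd
      rcases Finset.mem_union.1 hd with hd | hd
      · exact (hD1 d hd).trans (Dvd.intro_left _ rfl)
      · obtain ⟨x, hx, rfl⟩ := Finset.mem_image.1 hd
        exact Nat.mul_dvd_mul_left _ (h1 x hx)
    · calc _ ≤ D.card + (S.image (fun d => w * d)).card := Finset.card_union_le _ _
        _ ≤ D.card + S.card := Nat.add_le_add_left Finset.card_image_le _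
        _ ≤ T + t := by omega
    · rw [Finset.sum_union hdisj, Finset.sum_image hinj, ← Finset.mul_sum, h3, ← hm']
      omega

theorem rep_two_pow (e : ℕ) : Rep (2 ^ e) e := by
  induction e with
  | zero =>
    intro m hm
    have : m = 0 := by simpa using hm
    subst this
    exact ⟨∅, by simp, by simp, by simp⟩
  | succ e ih =>
    intro m hm
    by_cases h : m < 2 ^ e
    · obtain ⟨S, h1, h2, h3⟩ := ih m h
      refine ⟨S, fun d hd => (h1 d hd).trans (pow_dvd_pow 2 (Nat.le_succ e)), by omega, h3⟩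
    · replace h := not_lt.1 h
      have h' : m - 2 ^ e < 2 ^ e := by
        have : 2 ^ (e + 1) = 2 * 2 ^ e := by ring
        omega
      obtain ⟨S, h1, h2, h3⟩ := ih (m - 2 ^ e) h'
      have hn : 2 ^ e ∉ S := by
        intro hmem
        have : 2 ^ e ≤ ∑ d ∈ S, d :=
          Finset.single_le_sum (f := fun x => x) (fun _ _ => Nat.zero_le _) hmem
        omega
      refine ⟨insert (2 ^ e) S, ?_, ?_, ?_⟩
      · intro d hd
        rcases Finset.mem_insert.1 hd with rfl | hd
        · exact pow_dvd_pow 2 (Nat.le_succ e)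
        · exact (h1 d hd).trans (pow_dvd_pow 2 (Nat.le_succ e))
      · rw [Finset.card_insert_of_notMem hn]
        omega
      · rw [Finset.sum_insert hn, h3]
        omega

/-- Base case: adjoining primes below `2 ^ e`. -/
theorem rep_base (e : ℕ) (P : Finset ℕ) (hP : ∀ p ∈ P, p.Prime ∧ p ≠ 2 ∧ p < 2 ^ e) :
    Rep ((∏ p ∈ P, p) * 2 ^ e) (e * (P.card + 1)) := by
  induction P using Finset.induction_on with
  | empty =>
    simpa using rep_two_pow e
  | insert p P hp ih =>
    have hih := ih (fun q hq => hP q (Finset.mem_insert_of_mem hq))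
    obtain ⟨hpp, hp2, hplt⟩ := hP p (Finset.mem_insert_self _ _)
    have hPprime : ∀ q ∈ P, q.Prime := fun q hq => (hP q (Finset.mem_insert_of_mem hq)).1
    have hprodpos : 0 < ∏ q ∈ P, q := Finset.prod_pos (fun q hq => (hPprime q hq).pos)
    have hVpos : 0 < (∏ q ∈ P, q) * 2 ^ e := by positivity
    have hco : Nat.Coprime p ((∏ q ∈ P, q) * 2 ^ e) := by
      apply Nat.Coprime.mul_right
      · apply Nat.Coprime.prod_right
        intro q hq
        rw [Nat.coprime_primes hpp (hPprime q hq)]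
        rintro rfl
        exact hp hq
      · apply Nat.Coprime.pow_right
        rw [Nat.coprime_primes hpp Nat.prime_two]
        exact hp2
    have H : ∀ r < p, ∃ D : Finset ℕ, (∀ d ∈ D, d ∣ (∏ q ∈ P, q) * 2 ^ e) ∧ D.card ≤ e ∧
        ∑ d ∈ D, d ≤ (∏ q ∈ P, q) * 2 ^ e ∧ (∑ d ∈ D, d) % p = r := by
      intro r hr
      obtain ⟨S, h1, h2, h3⟩ := rep_two_pow e r (hr.trans hplt)
      refine ⟨S, fun d hd => (h1 d hd).trans (Dvd.intro_left _ rfl), h2, ?_, ?_⟩
      · rw [h3]
        calc r ≤ 2 ^ e := (hr.trans hplt).le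
          _ ≤ (∏ q ∈ P, q) * 2 ^ e := Nat.le_mul_of_pos_left _ hprodpos
      · rw [h3]
        exact Nat.mod_eq_of_lt hr
    have := Rep.level hVpos hpp.two_le hco H hih
    rw [Finset.prod_insert hp, mul_assoc, Finset.card_insert_of_notMem hp]
    refine this.mono ?_
    nlinarith

end Vale.Agent.Lib.P012
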