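import Vale.Agent.Lib.P012.Level

namespace Vale.Agent.Lib.P012

open Finset

/-- Construction of the ten blocks of products of primes. -/
theorem exists_blocks {G : Finset ℕ} (hG : ∀ p ∈ G, p.Prime) {K : ℕ} (hcard : 10 * K ≤ G.card) :
    ∃ (X : Fin 5 × Bool → Finset ℕ) (P : Fin 5 × Bool → ℕ),
      (∀ j, (X j).card = 2 ^ K - 1) ∧
      (∀ j, ∀ x ∈ X j, x ∣ P j ∧ 2 ≤ x) ∧
      (∀ i i' : Fin 5, i ≠ i' →
        Nat.Coprime (P (i, false) * P (i, true)) (P (i', false) * P (i', true))) ∧
      (∏ i, (P (i, false) * P (i, true)) ∣ ∏ p ∈ G, p) := by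
  classical
  have hcard' : Fintype.card ((Fin 5 × Bool) × Fin K) ≤ Fintype.card G := by
    simp only [Fintype.card_prod, Fintype.card_fin, Fintype.card_bool, Fintype.card_coe]
    omega
  obtain ⟨φ⟩ := Function.Embedding.nonempty_of_card_le hcard'
  set f : (Fin 5 × Bool) × Fin K → ℕ := fun z => (φ z : ℕ) with hf
  have hfinj : Function.Injective f := fun a b h => φ.injective (Subtype.ext h)
  have hfprime : ∀ z, (f z).Prime := fun z => hG _ (φ z).2
  have hfG : ∀ z, f z ∈ G := fun z => (φ z).2
  -- sub-products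
  have hsubinj : ∀ j, Set.InjOn (fun s : Finset (Fin K) => ∏ k ∈ s, f (j, k))
      ((Finset.univ.erase ∅ : Finset (Finset (Fin K))) : Set (Finset (Fin K))) := by
    intro j s _ s' _ hss'
    simp only at hss'
    have key : ∀ s s' : Finset (Fin K), (∏ k ∈ s, f (j, k)) = (∏ k ∈ s', f (j, k)) → s ⊆ s' := by
      intro s s' h k hk
      have h1 : f (j, k) ∣ ∏ k ∈ s', f (j, k) := by
        rw [← h]
        exact Finset.dvd_prod_of_mem (fun k => f (j, k)) hk
      obtain ⟨k', hk', h2⟩ := (Prime.dvd_finsetProd_iff (hfprime (j, k)).prime _).1 h1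
      have h3 := (Nat.prime_dvd_prime_iff_eq (hfprime (j, k)) (hfprime (j, k'))).1 h2
      have h4 := hfinj h3
      simp only [Prod.mk.injEq, true_and] at h4
      rwa [h4]
    exact Finset.Subset.antisymm (key s s' hss') (key s' s hss'.symm)
  refine ⟨fun j => (Finset.univ.erase ∅ : Finset (Finset (Fin K))).image
      (fun s => ∏ k ∈ s, f (j, k)), fun j => ∏ k, f (j, k), ?_, ?_, ?_, ?_⟩
  · intro j
    simp only
    rw [Finset.card_image_of_injOn (hsubinj j), Finset.card_erase_of_mem (Finset.mem_univ _),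
      Finset.card_univ, Fintype.card_finset, Fintype.card_fin]
  · intro j x hx
    obtain ⟨s, hs, rfl⟩ := Finset.mem_image.1 hx
    constructor
    · exact Finset.prod_dvd_prod_of_subset _ _ _ (Finset.subset_univ s)
    · obtain ⟨k, hk⟩ := Finset.nonempty_iff_ne_empty.2 (Finset.mem_erase.1 hs).1
      have h1 : f (j, k) ∣ ∏ k ∈ s, f (j, k) := Finset.dvd_prod_of_mem (fun k => f (j, k)) hk
      have h2 : 0 < ∏ k ∈ s, f (j, k) := Finset.prod_pos (fun k _ => (hfprime (j, k)).pos)
      exact (hfprime (j, k)).two_le.trans (Nat.le_of_dvd h2 h1)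
  · intro i i' hne
    have key : ∀ b b' : Bool, Nat.Coprime (∏ k, f ((i, b), k)) (∏ k, f ((i', b'), k)) := by
      intro b b'
      apply Nat.Coprime.prod_left
      intro k _
      apply Nat.Coprime.prod_right
      intro k' _
      rw [Nat.coprime_primes (hfprime _) (hfprime _)]
      intro h
      have h1 := hfinj h
      simp only [Prod.mk.injEq] at h1
      exact hne h1.1.1
    exact Nat.Coprime.mul_left (Nat.Coprime.mul_right (key _ _) (key _ _))
      (Nat.Coprime.mul_right (key _ _) (key _ _))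
  · have h1 : ∏ i, ((∏ k, f ((i, false), k)) * (∏ k, f ((i, true), k))) = ∏ z, f z := by
      rw [Fintype.prod_prod_type, Fintype.prod_prod_type]
      apply Finset.prod_congr rfl
      intro i _
      rw [Fintype.prod_bool, mul_comm]
    have h2 : ∏ z, f z = ∏ p ∈ Finset.univ.image f, p := by
      rw [Finset.prod_image (fun a _ b _ h => hfinj h)]
    simp only
    rw [h1, h2]
    apply Finset.prod_dvd_prod_of_subset
    intro p hp
    obtain ⟨z, _, rfl⟩ := Finset.mem_image.1 hp
    exact hfG z

end Vale.Agent.Lib.P012
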