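import Vale.Agent.Lib.P012.RepB

namespace Vale.Agent.Lib.P012

open Finset

/-- Construction of the ten blocks of transversal products of primes: each block is the set of
products of `k` primes, one out of each of `k` disjoint groups of `q` primes. -/
theorem exists_blocksT {G : Finset ℕ} (hG : ∀ p ∈ G, p.Prime) {pb : ℕ} (hGb : ∀ p ∈ G, p ≤ 2 ^ pb)
    {k q : ℕ} (hk : 0 < k) (hcard : 10 * (k * q) ≤ G.card) :
    ∃ (X : Fin 5 × Bool → Finset ℕ) (P : Fin 5 × Bool → ℕ),
      (∀ j, (X j).card = q ^ k) ∧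
      (∀ j, ∀ x ∈ X j, x ∣ P j ∧ 2 ≤ x ∧ x ≤ 2 ^ (pb * k)) ∧
      (∀ i i' : Fin 5, i ≠ i' →
        Nat.Coprime (P (i, false) * P (i, true)) (P (i', false) * P (i', true))) ∧
      (∏ i, (P (i, false) * P (i, true)) ∣ ∏ p ∈ G, p) := by
  classical
  have hcard' : Fintype.card ((Fin 5 × Bool) × (Fin k × Fin q)) ≤ Fintype.card G := by
    simp only [Fintype.card_prod, Fintype.card_fin, Fintype.card_bool, Fintype.card_coe]
    omega
  obtain ⟨φ⟩ := Function.Embedding.nonempty_of_card_le hcard'
  set f : (Fin 5 × Bool) × (Fin k × Fin q) → ℕ := fun z => (φ z : ℕ) with hf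
  have hfinj : Function.Injective f := fun a b h => φ.injective (Subtype.ext h)
  have hfprime : ∀ z, (f z).Prime := fun z => hG _ (φ z).2
  have hfG : ∀ z, f z ∈ G := fun z => (φ z).2
  have hfb : ∀ z, f z ≤ 2 ^ pb := fun z => hGb _ (φ z).2
  have hinj : ∀ j, Function.Injective (fun τ : Fin k → Fin q => ∏ i, f (j, (i, τ i))) := by
    intro j τ τ' hττ'
    funext i
    simp only at hττ'
    have h1 : f (j, (i, τ i)) ∣ ∏ i, f (j, (i, τ' i)) := by
      rw [← hττ']
      exact Finset.dvd_prod_of_mem (fun i => f (j, (i, τ i))) (Finset.mem_univ i)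
    obtain ⟨i', _, h2⟩ := (Prime.dvd_finsetProd_iff (hfprime _).prime _).1 h1
    have h3 := (Nat.prime_dvd_prime_iff_eq (hfprime _) (hfprime _)).1 h2
    have h4 := hfinj h3
    simp only [Prod.mk.injEq, true_and] at h4
    obtain ⟨rfl, h5⟩ := h4
    exact h5
  refine ⟨fun j => (Finset.univ : Finset (Fin k → Fin q)).image
      (fun τ => ∏ i, f (j, (i, τ i))), fun j => ∏ z, f (j, z), ?_, ?_, ?_, ?_⟩
  · intro j
    simp only
    rw [Finset.card_image_of_injective _ (hinj j), Finset.card_univ, Fintype.card_fun,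
      Fintype.card_fin, Fintype.card_fin]
  · intro j x hx
    obtain ⟨τ, _, rfl⟩ := Finset.mem_image.1 hx
    refine ⟨?_, ?_, ?_⟩
    · have h1 : ∏ i, f (j, (i, τ i)) = ∏ z ∈ Finset.univ.image (fun i => (i, τ i)), f (j, z) := by
        rw [Finset.prod_image]
        intro a _ b _ h
        exact (Prod.mk.inj h).1
      simp only
      rw [h1]
      exact Finset.prod_dvd_prod_of_subset _ _ _ (Finset.subset_univ _)
    · have i₀ : Fin k := ⟨0, hk⟩
      have h1 : f (j, (i₀, τ i₀)) ∣ ∏ i, f (j, (i, τ i)) :=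
        Finset.dvd_prod_of_mem (fun i => f (j, (i, τ i))) (Finset.mem_univ i₀)
      have h2 : 0 < ∏ i, f (j, (i, τ i)) := Finset.prod_pos (fun i _ => (hfprime _).pos)
      exact (hfprime _).two_le.trans (Nat.le_of_dvd h2 h1)
    · have := Finset.prod_le_pow_card (Finset.univ : Finset (Fin k)) (fun i => f (j, (i, τ i)))
        (2 ^ pb) (fun i _ => hfb _)
      simp only [Finset.card_univ, Fintype.card_fin] at this
      rw [pow_mul]
      exact this
  · intro i i' hne
    have key : ∀ b b' : Bool, Nat.Coprime (∏ z, f ((i, b), z)) (∏ z, f ((i', b'), z)) := by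
      intro b b'
      apply Nat.Coprime.prod_left
      intro z _
      apply Nat.Coprime.prod_right
      intro z' _
      rw [Nat.coprime_primes (hfprime _) (hfprime _)]
      intro h
      have h1 := hfinj h
      simp only [Prod.mk.injEq] at h1
      exact hne h1.1.1
    exact Nat.Coprime.mul_left (Nat.Coprime.mul_right (key _ _) (key _ _))
      (Nat.Coprime.mul_right (key _ _) (key _ _))
  · have h1 : ∏ i, ((∏ z, f ((i, false), z)) * (∏ z, f ((i, true), z))) = ∏ z, f z := by
      rw [Fintype.prod_prod_type (f := f), Fintype.prod_prod_type]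
      apply Finset.prod_congr rfl
      intro i _
      rw [Fintype.prod_bool, mul_comm]
    have h2 : ∏ z, f z = ∏ p ∈ Finset.univ.image f, p := by
      rw [Finset.prod_image (fun a _ b _ h => hfinj h)]
    simp only
    rw [h1, h2]
    apply Finset.prod_dvd_prod_of_subset
    intro p hp
    obtain ⟨z, _, rfl⟩ := Finset.mem_image.1 hp
    exact hfG z

end Vale.Agent.Lib.P012
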