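import Vale.Agent.Lib.P012.BlocksT

namespace Vale.Agent.Lib.P012

open Finset

/-- The state of the chain, for a fixed rich part `D`. -/
def StB (D V B T lam : ℕ) : Prop :=
  ¬ 3 ∣ V ∧ V = B * D ∧ 2 ^ lam ≤ B ∧ B ≤ 2 ^ (2 * lam) ∧ RepB V B T

/-- Iterating levels with fixed blocks. -/
theorem iterate_levelsB {D vD r c n vx vV : ℕ} (hD : 0 < D) (hDv : D ≤ 2 ^ vD)
    (hvx : 0 < vx) (hc : 0 < c)
    (X : Fin 5 × Bool → Finset ℕ) (P : Fin 5 × Bool → ℕ)
    (hXn : ∀ j, (X j).card = n) (hn : 0 < n)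
    (hXP : ∀ j, ∀ x ∈ X j, x ∣ P j ∧ 2 ≤ x ∧ x ≤ 2 ^ vx)
    (hPco : ∀ i i' : Fin 5, i ≠ i' →
      Nat.Coprime (P (i, false) * P (i, true)) (P (i', false) * P (i', true)))
    (hPD : ∏ i, (P (i, false) * P (i, true)) ∣ D)
    (hnΓ : (2 ^ (3 * r)) ^ c ≤ n)
    (hr : 2 * c * 21 ^ 5 < 2 ^ r)
    (hπ : 2 * c * 2 ^ (3 * r) * vx + c + 2 ^ (2 * r) + vV + 1 ≤
      (Nat.primesLE (2 ^ (4 * r))).card)
    {V B T lam : ℕ} (hst : StB D V B T lam) (hB : 5 * 2 ^ (2 * vx) ≤ B) (t : ℕ)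
    (hcap : 2 * (lam + t * (2 * r * c)) + vD ≤ vV) :
    ∃ V' B' : ℕ, StB D V' B' (T + 5 * t) (lam + t * (2 * r * c)) ∧ B ≤ B' := by
  classical
  induction t with
  | zero => exact ⟨V, B, by simpa using hst, le_rfl⟩
  | succ t ih =>
    have hle : lam + t * (2 * r * c) ≤ lam + (t + 1) * (2 * r * c) := by
      apply Nat.add_le_add_left
      exact Nat.mul_le_mul_right _ (Nat.le_succ t)
    obtain ⟨V', B', ⟨h1, h2, h3, h4, h5⟩, hBB'⟩ := ih (by omega)
    have hB'pos : 0 < B' := lt_of_lt_of_le (Nat.two_pow_pos _) h3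
    have hV'pos : 0 < V' := by
      rw [h2]
      exact Nat.mul_pos hB'pos hD
    have hV'v : V' ≤ 2 ^ vV := by
      rw [h2]
      calc B' * D ≤ 2 ^ (2 * (lam + t * (2 * r * c))) * 2 ^ vD := Nat.mul_le_mul h4 hDv
        _ = 2 ^ (2 * (lam + t * (2 * r * c)) + vD) := by rw [pow_add]
        _ ≤ 2 ^ vV := Nat.pow_le_pow_right (by norm_num) (by omega)
    have hPV : ∏ i, (P (i, false) * P (i, true)) ∣ V' := by
      rw [h2]
      exact hPD.trans (Dvd.intro_left _ rfl)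
    obtain ⟨L, hLc, hLprops, hRep⟩ := one_levelB hV'pos hV'v hvx hc X P hXn hn hXP hPco hPV
      (hB.trans hBB') hnΓ hr hπ h5
    have hwlow : (2 ^ (2 * r)) ^ c ≤ ∏ ℓ ∈ L, ℓ := by
      rw [← hLc]
      have := Finset.prod_le_prod (s := L) (f := fun _ => 2 ^ (2 * r)) (g := fun ℓ => ℓ)
        (fun _ _ => Nat.zero_le _) (fun ℓ hℓ => (hLprops ℓ hℓ).2.2.2.1.le)
      simpa using this
    have hwhigh : ∏ ℓ ∈ L, ℓ ≤ (2 ^ (4 * r)) ^ c := by
      rw [← hLc]
      exact Finset.prod_le_pow_card _ _ _ (fun ℓ hℓ => (hLprops ℓ hℓ).2.2.2.2)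
    have hwpos : 0 < ∏ ℓ ∈ L, ℓ := Finset.prod_pos (fun ℓ hℓ => (hLprops ℓ hℓ).1.pos)
    refine ⟨(∏ ℓ ∈ L, ℓ) * V', (∏ ℓ ∈ L, ℓ) * B', ⟨?_, ?_, ?_, ?_, ?_⟩, ?_⟩
    · intro hd
      rcases (Nat.prime_three.dvd_mul).1 hd with h | h
      · obtain ⟨ℓ, hℓ, h7⟩ := (Prime.dvd_finsetProd_iff Nat.prime_three.prime _).1 h
        have := (Nat.prime_dvd_prime_iff_eq Nat.prime_three (hLprops ℓ hℓ).1).1 h7
        exact (hLprops ℓ hℓ).2.1 this.symm
      · exact h1 h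
    · rw [h2, mul_assoc]
    · calc 2 ^ (lam + (t + 1) * (2 * r * c))
          = (2 ^ (2 * r)) ^ c * 2 ^ (lam + t * (2 * r * c)) := by
            rw [← pow_mul, ← pow_add]
            congr 1
            ring
        _ ≤ (∏ ℓ ∈ L, ℓ) * B' := Nat.mul_le_mul hwlow h3
    · calc (∏ ℓ ∈ L, ℓ) * B' ≤ (2 ^ (4 * r)) ^ c * 2 ^ (2 * (lam + t * (2 * r * c))) :=
            Nat.mul_le_mul hwhigh h4
        _ = 2 ^ (2 * (lam + (t + 1) * (2 * r * c))) := by
            rw [← pow_mul, ← pow_add]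
            congr 1
            ring
    · have : T + 5 * (t + 1) = T + 5 * t + 5 := by ring
      rw [this]
      exact hRep
    · exact hBB'.trans (Nat.le_mul_of_pos_left _ hwpos)

theorem mul_sq_le_two_pow {g : ℕ} (hg : 19 ≤ g) : 1000 * g ^ 2 ≤ 2 ^ g := by
  induction g, hg using Nat.le_induction with
  | base => norm_num
  | succ g hg ih =>
    rw [pow_succ 2 g]
    nlinarith

/-- The numerical inequality behind the count of primes. -/
theorem numeric_primesB {g c vx P : ℕ} (hg : 19 ≤ g) (h1000 : 1000 * g ^ 2 ≤ P) (hc : c ≤ P)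
    (hvx : vx ≤ 2 * g * P) :
    1 + 12 * g * (2 * c * P ^ 9 * vx + c + P ^ 6 + 34 * g * P + 1) < P ^ 12 := by
  have hgg : g ≤ g ^ 2 := by
    rw [sq]
    exact Nat.le_mul_of_pos_left _ (by omega)
  have hgP : 1000 * g ≤ P := by omega
  have hPge : 1 ≤ P := by omega
  have h33 : 33 ≤ P := by omega
  have hP100 : 100 ≤ P := by omega
  have t1 : 20 * (12 * g * (2 * c * P ^ 9 * vx)) ≤ P ^ 12 := by
    calc 20 * (12 * g * (2 * c * P ^ 9 * vx)) ≤ 20 * (12 * g * (2 * P * P ^ 9 * (2 * g * P))) := by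
          gcongr
      _ = (960 * g ^ 2) * P ^ 11 := by ring
      _ ≤ P * P ^ 11 := Nat.mul_le_mul_right _ (by omega)
      _ = P ^ 12 := by ring
  have t2 : 80 * (12 * g * c) ≤ P ^ 12 := by
    calc 80 * (12 * g * c) ≤ 80 * (12 * g * P) := by gcongr
      _ = (960 * g) * P := by ring
      _ ≤ P * P := Nat.mul_le_mul_right _ (by omega)
      _ = P ^ 2 := by ring
      _ ≤ P ^ 12 := Nat.pow_le_pow_right hPge (by norm_num)
  have t3 : 80 * (12 * g * P ^ 6) ≤ P ^ 12 := by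
    calc 80 * (12 * g * P ^ 6) = (960 * g) * P ^ 6 := by ring
      _ ≤ P * P ^ 6 := Nat.mul_le_mul_right _ (by omega)
      _ = P ^ 7 := by ring
      _ ≤ P ^ 12 := Nat.pow_le_pow_right hPge (by norm_num)
  have t4 : 80 * (12 * g * (34 * g * P)) ≤ P ^ 12 := by
    calc 80 * (12 * g * (34 * g * P)) = (32640 * g ^ 2) * P := by ring
      _ ≤ (33 * P) * P := Nat.mul_le_mul_right _ (by omega)
      _ ≤ P * P * P := Nat.mul_le_mul_right _ (Nat.mul_le_mul_right _ h33)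
      _ = P ^ 3 := by ring
      _ ≤ P ^ 12 := Nat.pow_le_pow_right hPge (by norm_num)
  have t5 : 80 * (12 * g) ≤ P ^ 12 := by
    calc 80 * (12 * g) = 960 * g := by ring
      _ ≤ P := by omega
      _ ≤ P ^ 12 := Nat.le_self_pow (by norm_num) P
  have e : 12 * g * (2 * c * P ^ 9 * vx + c + P ^ 6 + 34 * g * P + 1) =
      12 * g * (2 * c * P ^ 9 * vx) + 12 * g * c + 12 * g * P ^ 6 +
      12 * g * (34 * g * P) + 12 * g := by ring
  have hQ2 : 100 ≤ P ^ 12 := hP100.trans (Nat.le_self_pow (by norm_num) P)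
  rw [e]
  generalize P ^ 12 = Q at *
  omega

/-- Enough primes for the moduli. -/
theorem primes_enoughB {g c vx P : ℕ} (hg : 19 ≤ g) (hP : P = 2 ^ g) (hc : c ≤ P)
    (hvx : vx ≤ 2 * g * P) :
    2 * c * 2 ^ (3 * (3 * g)) * vx + c + 2 ^ (2 * (3 * g)) + 34 * g * P + 1 ≤
      (Nat.primesLE (2 ^ (4 * (3 * g)))).card := by
  have h1000 : 1000 * g ^ 2 ≤ P := hP ▸ mul_sq_le_two_pow hg
  have e1 : 2 ^ (3 * (3 * g)) = P ^ 9 := by
    rw [hP, ← pow_mul]
    congr 1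
    ring
  have e2 : 2 ^ (2 * (3 * g)) = P ^ 6 := by
    rw [hP, ← pow_mul]
    congr 1
    ring
  have e3 : 2 ^ (4 * (3 * g)) = P ^ 12 := by
    rw [hP, ← pow_mul]
    congr 1
    ring
  have h0 := two_pow_le_primes (12 * g)
  have e4 : 2 ^ (12 * g) = P ^ 12 := by
    rw [hP, ← pow_mul]
    congr 1
    ring
  rw [e4] at h0
  rw [e1, e2, e3]
  have hnum := numeric_primesB hg h1000 hc hvx
  by_contra hcon
  replace hcon := not_le.1 hcon
  have h2 : 12 * g * ((Nat.primesLE (P ^ 12)).card + 1) ≤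
      12 * g * (2 * c * P ^ 9 * vx + c + P ^ 6 + 34 * g * P + 1) := Nat.mul_le_mul_left _ hcon
  have h3 : 12 * g * ((Nat.primesLE (P ^ 12)).card + 1) =
      12 * g + 12 * g * (Nat.primesLE (P ^ 12)).card := by ring
  omega

/-- The numerical condition on sizes of the blocks. -/
theorem nine_mul_le {g h s : ℕ} (hg : 19 ≤ g) (hh : 4 ≤ h) (hs : 1 ≤ s) (hsum : h + s + 4 = g) :
    9 * g ≤ s * 2 ^ h := by
  induction h, hh using Nat.le_induction generalizing s with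
  | base =>
    have : s = g - 8 := by omega
    norm_num
    omega
  | succ h hh ih =>
    have h1 := ih (s := s + 1) (by omega) (by omega)
    rw [pow_succ]
    nlinarith

/-- Bounds for the number `c` of primes in one modulus. -/
theorem c_bounds {g a : ℕ} (hg : 0 < g) (ha : 9 * g ≤ a) :
    0 < a / (9 * g) ∧ 9 * g * (a / (9 * g)) ≤ a ∧ a ≤ 18 * g * (a / (9 * g)) := by
  have h0 : 0 < 9 * g := by omega
  have h1 : 0 < a / (9 * g) := Nat.div_pos ha h0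
  have h2 : 9 * g * (a / (9 * g)) ≤ a := Nat.mul_div_le _ _
  have h3 : a < 9 * g * (a / (9 * g) + 1) := Nat.lt_mul_div_succ a h0
  refine ⟨h1, h2, ?_⟩
  have h4 : a / (9 * g) + 1 ≤ 2 * (a / (9 * g)) := by omega
  calc a ≤ 9 * g * (a / (9 * g) + 1) := h3.le
    _ ≤ 9 * g * (2 * (a / (9 * g))) := Nat.mul_le_mul_left _ h4
    _ = 18 * g * (a / (9 * g)) := by ring

/-- A stage with parameters `k = 2 ^ h`, `q = 2 ^ s`. -/
theorem stageB {g h s t : ℕ} (hg : 19 ≤ g) (hh : 4 ≤ h) (hs : 1 ≤ s) (hsum : h + s + 4 = g)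
    {G : Finset ℕ} (hG : ∀ p ∈ G, p.Prime) (hGb : ∀ p ∈ G, p ≤ 2 ^ (2 * g))
    (hGc : G.card = 2 ^ g) {V B T lam : ℕ} (hst : StB (∏ p ∈ G, p) V B T lam)
    (hlam : 4 * g * 2 ^ h + 3 ≤ lam)
    (hcap : lam + t * (6 * g * ((s * 2 ^ h) / (9 * g))) ≤ 16 * g * 2 ^ g) :
    ∃ V' B' : ℕ, StB (∏ p ∈ G, p) V' B' (T + 5 * t)
      (lam + t * (6 * g * ((s * 2 ^ h) / (9 * g)))) := by
  have hgpos : 0 < g := by omega
  set P := 2 ^ g with hP
  set k := 2 ^ h with hk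
  have hkpos : 0 < k := Nat.two_pow_pos h
  set c := (s * k) / (9 * g) with hc
  obtain ⟨hc0, hc1, hc2⟩ := c_bounds hgpos (nine_mul_le hg hh hs hsum)
  rw [← hc] at hc0 hc1 hc2
  have hDpos : 0 < ∏ p ∈ G, p := Finset.prod_pos (fun p hp => (hG p hp).pos)
  have hDv : ∏ p ∈ G, p ≤ 2 ^ (2 * g * P) := by
    have := Finset.prod_le_pow_card G (fun p => p) (2 ^ (2 * g)) hGb
    rw [hGc, ← pow_mul] at this
    exact this
  have hkqP : k * 2 ^ s ≤ 2 ^ (g - 4) := by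
    have : g - 4 = h + s := by omega
    rw [this, pow_add]
  have hP16 : 16 * 2 ^ (g - 4) = P := by
    have : g = (g - 4) + 4 := by omega
    rw [hP]
    conv_rhs => rw [this, pow_add]
    ring
  have hcard : 10 * (k * 2 ^ s) ≤ G.card := by
    rw [hGc]
    omega
  obtain ⟨X, Q, hXn, hXP, hPco, hQG⟩ := exists_blocksT hG hGb hkpos hcard
  have hn : 0 < (2 ^ s) ^ k := by positivity
  have hvx : 0 < 2 * g * k := by positivity
  have hnΓ : (2 ^ (3 * (3 * g))) ^ c ≤ (2 ^ s) ^ k := by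
    rw [← pow_mul, ← pow_mul]
    apply Nat.pow_le_pow_right (by norm_num)
    calc 3 * (3 * g) * c = 9 * g * c := by ring
      _ ≤ s * k := hc1
  have hsk : s * k ≤ P := by
    have h1 : s ≤ 2 ^ s := Nat.lt_two_pow_self.le
    calc s * k ≤ 2 ^ s * k := Nat.mul_le_mul_right _ h1
      _ = k * 2 ^ s := by ring
      _ ≤ 2 ^ (g - 4) := hkqP
      _ ≤ P := by omega
  have hcP : c ≤ P := by
    calc c ≤ 9 * g * c := Nat.le_mul_of_pos_left _ (by omega)
      _ ≤ s * k := hc1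
      _ ≤ P := hsk
  have hP19 : 2 ^ 19 ≤ P := Nat.pow_le_pow_right (by norm_num) hg
  have hr : 2 * c * 21 ^ 5 < 2 ^ (3 * g) := by
    have h2 : 2 ^ (3 * g) = P * P * P := by
      rw [hP, ← pow_add, ← pow_add]
      congr 1
      ring
    rw [h2]
    calc 2 * c * 21 ^ 5 ≤ 2 * P * 21 ^ 5 := by gcongr
      _ = 8168202 * P := by ring
      _ < (2 ^ 19 * 2 ^ 19) * P := by
          apply Nat.mul_lt_mul_of_pos_right (by norm_num)
          omega
      _ ≤ (P * P) * P := by gcongr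
  have hvxle : 2 * g * k ≤ 2 * g * P := by
    apply Nat.mul_le_mul_left
    have h1 : k ≤ k * 2 ^ s := Nat.le_mul_of_pos_right _ (by positivity)
    omega
  have hπ := primes_enoughB hg hP hcP hvxle
  have hB : 5 * 2 ^ (2 * (2 * g * k)) ≤ B := by
    have h1 : 2 ^ (4 * g * k + 3) ≤ B :=
      (Nat.pow_le_pow_right (by norm_num) hlam).trans hst.2.2.1
    have h2 : 2 ^ (4 * g * k + 3) = 8 * 2 ^ (2 * (2 * g * k)) := by
      rw [pow_add]
      have : 4 * g * k = 2 * (2 * g * k) := by ring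
      rw [this]
      ring
    omega
  have hcap' : 2 * (lam + t * (2 * (3 * g) * c)) + 2 * g * P ≤ 34 * g * P := by
    have e : 2 * (3 * g) * c = 6 * g * c := by ring
    rw [e]
    have e2 : 34 * g * P = 2 * (16 * g * P) + 2 * g * P := by ring
    omega
  obtain ⟨V', B', hst', _⟩ := iterate_levelsB hDpos hDv hvx hc0 X Q hXn hn hXP hPco hQG hnΓ hr hπ
    hst hB t hcap'
  refine ⟨V', B', ?_⟩
  have e : 2 * (3 * g) * c = 6 * g * c := by ring
  rw [e] at hst'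
  exact hst'

end Vale.Agent.Lib.P012
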