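import Vale.Agent.Lib.P012.Chain

namespace Vale.Agent.Lib.P012

open Finset

/-- A supply of `2 ^ g` primes up to `2 ^ (2 g)`, all different from `3`. -/
theorem exists_rich_primes {g : ℕ} (hg : 19 ≤ g) :
    ∃ G : Finset ℕ, (∀ p ∈ G, p.Prime) ∧ (∀ p ∈ G, p ≤ 2 ^ (2 * g)) ∧ 3 ∉ G ∧ G.card = 2 ^ g := by
  classical
  have h1 := two_pow_le_primes (2 * g)
  have h1000 := mul_sq_le_two_pow hg
  have hgg : g ≤ g ^ 2 := by
    rw [sq]
    exact Nat.le_mul_of_pos_left _ (by omega)
  have e : 2 ^ (2 * g) = 2 ^ g * 2 ^ g := by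
    rw [two_mul, pow_add]
  have h2 : 2 ^ g + 1 ≤ (Nat.primesLE (2 ^ (2 * g))).card := by
    by_contra hcon
    have h3 : (Nat.primesLE (2 ^ (2 * g))).card ≤ 2 ^ g := by omega
    have h4 : 2 * g * (Nat.primesLE (2 ^ (2 * g))).card ≤ 2 * g * 2 ^ g :=
      Nat.mul_le_mul_left _ h3
    have h5 : (1000 * g) * 2 ^ g ≤ 2 ^ g * 2 ^ g := Nat.mul_le_mul_right _ (by omega)
    have h6 : 1000 * g * 2 ^ g = 1000 * (g * 2 ^ g) := by ring
    have h7 : 2 * g * 2 ^ g = 2 * (g * 2 ^ g) := by ring
    have h8 : 1 ≤ g * 2 ^ g := Nat.mul_pos (by omega) (Nat.two_pow_pos g)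
    have h9 : g ≤ g * 2 ^ g := Nat.le_mul_of_pos_right _ (Nat.two_pow_pos g)
    omega
  have h3 : 2 ^ g ≤ ((Nat.primesLE (2 ^ (2 * g))).erase 3).card := by
    have := Finset.pred_card_le_card_erase (s := Nat.primesLE (2 ^ (2 * g))) (a := 3)
    omega
  obtain ⟨G, hG, hGc⟩ := Finset.exists_subset_card_eq h3
  refine ⟨G, ?_, ?_, ?_, hGc⟩
  · exact fun p hp => Nat.prime_of_mem_primesLE (Finset.mem_erase.1 (hG hp)).2
  · exact fun p hp => Nat.le_of_mem_primesLE (Finset.mem_erase.1 (hG hp)).2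
  · exact fun h => (Finset.mem_erase.1 (hG h)).1 rfl

/-- Number of levels at all stages but the top one. -/
def levelsBelow (g h : ℕ) : ℕ := ∑ j ∈ Finset.Ico 4 h, (12 * g / (g - 4 - j) + 1)

/-- The chain through the stages. -/
theorem chain_stage {g : ℕ} (hg : 19 ≤ g) {G : Finset ℕ} (hG : ∀ p ∈ G, p.Prime)
    (hGb : ∀ p ∈ G, p ≤ 2 ^ (2 * g)) (h3G : 3 ∉ G) (hGc : G.card = 2 ^ g) {h : ℕ} (hh : 4 ≤ h)
    (hh2 : h + 5 ≤ g) :
    ∃ V B lam : ℕ, StB (∏ p ∈ G, p) V B (64 * g + 3 + 5 * levelsBelow g h) lam ∧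
      4 * g * 2 ^ h + 3 ≤ lam ∧ lam ≤ 9 * g * 2 ^ h := by
  induction h, hh using Nat.le_induction with
  | base =>
    refine ⟨2 ^ (64 * g + 3) * ∏ p ∈ G, p, 2 ^ (64 * g + 3), 64 * g + 3, ⟨?_, rfl, le_rfl, ?_, ?_⟩,
      ?_, ?_⟩
    · intro hd
      rcases (Nat.prime_three.dvd_mul).1 hd with h | h
      · have := Nat.prime_three.dvd_of_dvd_pow h
        omega
      · obtain ⟨ℓ, hℓ, h7⟩ := (Prime.dvd_finsetProd_iff Nat.prime_three.prime _).1 h
        have := (Nat.prime_dvd_prime_iff_eq Nat.prime_three (hG ℓ hℓ)).1 h7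
        exact h3G (this ▸ hℓ)
    · exact Nat.pow_le_pow_right (by norm_num) (by omega)
    · have hrep := rep_two_pow (64 * g + 3)
      have e : levelsBelow g 4 = 0 := by simp [levelsBelow]
      rw [e]
      intro m hm
      obtain ⟨S, h1, h2, h3⟩ := hrep m hm
      exact ⟨S, fun d hd => (h1 d hd).trans (Dvd.intro _ rfl), h2, h3⟩
    · norm_num
      omega
    · norm_num
      omega
  | succ h hh ih =>
    obtain ⟨V, B, lam, hst, h1, h2⟩ := ih (by omega)
    set s := g - 4 - h with hs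
    have hs1 : 2 ≤ s := by omega
    have hsum : h + s + 4 = g := by omega
    have hsg : s ≤ g := by omega
    set t := 12 * g / s + 1 with ht
    have ht1 : 12 * g < s * t := Nat.lt_mul_div_succ _ (by omega)
    have ht2 : s * t ≤ 12 * g + s := by
      have : s * (12 * g / s) ≤ 12 * g := Nat.mul_div_le _ _
      rw [ht, mul_add, mul_one]
      omega
    set k := 2 ^ h with hk
    have hk2 : 2 ^ (h + 1) = 2 * k := by rw [pow_succ, hk]; ring
    obtain ⟨hc0, hc1, hc2⟩ := c_bounds (g := g) (a := s * k) (by omega)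
      (nine_mul_le hg hh (by omega) hsum)
    set c := (s * k) / (9 * g) with hc
    set gain := t * (6 * g * c) with hgain
    have hgain3 : 3 * gain = t * (18 * g * c) := by
      rw [hgain]
      ring
    have hgain_low : 4 * g * k ≤ gain := by
      have h5 : 12 * g * k ≤ t * (18 * g * c) := by
        calc 12 * g * k ≤ (s * t) * k := Nat.mul_le_mul_right _ ht1.le
          _ = t * (s * k) := by ring
          _ ≤ t * (18 * g * c) := Nat.mul_le_mul_left _ hc2
      have e : 12 * g * k = 3 * (4 * g * k) := by ring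
      omega
    have hgain_up : gain ≤ 9 * g * k := by
      have h5 : t * (18 * g * c) ≤ 26 * g * k := by
        calc t * (18 * g * c) = 2 * (t * (9 * g * c)) := by ring
          _ ≤ 2 * (t * (s * k)) := by
            apply Nat.mul_le_mul_left
            exact Nat.mul_le_mul_left _ hc1
          _ = 2 * ((s * t) * k) := by ring
          _ ≤ 2 * ((12 * g + s) * k) := by
            apply Nat.mul_le_mul_left
            exact Nat.mul_le_mul_right _ ht2
          _ ≤ 2 * ((12 * g + g) * k) := by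
            apply Nat.mul_le_mul_left
            apply Nat.mul_le_mul_right
            omega
          _ = 26 * g * k := by ring
      have e : 27 * g * k = 3 * (9 * g * k) := by ring
      have e2 : 26 * g * k ≤ 27 * g * k := by
        apply Nat.mul_le_mul_right
        omega
      omega
    have hk2g : 2 * k ≤ 2 ^ g := by
      rw [← hk2]
      exact Nat.pow_le_pow_right (by norm_num) (by omega)
    have e9 : 9 * g * (2 * k) = 18 * g * k := by ring
    have hcap : lam + t * (6 * g * ((s * k) / (9 * g))) ≤ 16 * g * 2 ^ g := by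
      rw [← hc, ← hgain]
      have h6 : 18 * g * k ≤ 9 * g * 2 ^ g := by
        rw [← e9]
        exact Nat.mul_le_mul_left _ hk2g
      have h7 : 9 * g * 2 ^ g ≤ 16 * g * 2 ^ g := by
        apply Nat.mul_le_mul_right
        omega
      have e3 : 9 * g * k + 9 * g * k = 18 * g * k := by ring
      omega
    obtain ⟨V', B', hst'⟩ := stageB hg hh (by omega) hsum hG hGb hGc hst h1 hcap
    refine ⟨V', B', lam + gain, ?_, ?_, ?_⟩
    · have e : 64 * g + 3 + 5 * levelsBelow g (h + 1) =
          64 * g + 3 + 5 * levelsBelow g h + 5 * t := by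
        rw [levelsBelow, Finset.sum_Ico_succ_top hh, ← levelsBelow]
        ring
      rw [e]
      exact hst'
    · rw [hk2]
      have e3 : 4 * g * (2 * k) = 4 * g * k + 4 * g * k := by ring
      omega
    · rw [hk2, e9]
      have e3 : 9 * g * k + 9 * g * k = 18 * g * k := by ring
      omega

/-- The final state of the chain. -/
theorem chain_final {g : ℕ} (hg : 19 ≤ g) {G : Finset ℕ} (hG : ∀ p ∈ G, p.Prime)
    (hGb : ∀ p ∈ G, p ≤ 2 ^ (2 * g)) (h3G : 3 ∉ G) (hGc : G.card = 2 ^ g) :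
    ∃ V B lam : ℕ, StB (∏ p ∈ G, p) V B
      (64 * g + 3 + 5 * levelsBelow g (g - 5) + 5 * (384 * g + 192)) lam ∧
      (4 * g + 2) * 2 ^ g ≤ lam := by
  obtain ⟨V, B, lam, hst, h1, h2⟩ := chain_stage hg hG hGb h3G hGc (h := g - 5) (by omega)
    (by omega)
  set k := 2 ^ (g - 5) with hk
  have hP : 2 ^ g = 32 * k := by
    have : g = (g - 5) + 5 := by omega
    conv_lhs => rw [this, pow_add]
    rw [hk]
    ring
  obtain ⟨hc0, hc1, hc2⟩ := c_bounds (g := g) (a := 1 * k) (by omega)
    (nine_mul_le hg (by omega) le_rfl (by omega))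
  set c := (1 * k) / (9 * g) with hc
  set gain := (384 * g + 192) * (6 * g * c) with hgain
  have hgain3 : 3 * gain = (384 * g + 192) * (18 * g * c) := by
    rw [hgain]
    ring
  have hgain_low : (4 * g + 2) * 2 ^ g ≤ gain := by
    have h5 : (384 * g + 192) * k ≤ (384 * g + 192) * (18 * g * c) := by
      apply Nat.mul_le_mul_left
      omega
    have e : (384 * g + 192) * k = 3 * ((4 * g + 2) * 2 ^ g) := by
      rw [hP]
      ring
    omega
  have hgain_up : gain ≤ (8 * g + 4) * 2 ^ g := by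
    have h5 : (384 * g + 192) * (18 * g * c) ≤ (384 * g + 192) * (2 * k) := by
      apply Nat.mul_le_mul_left
      have : 18 * g * c = 2 * (9 * g * c) := by ring
      omega
    have e : (384 * g + 192) * (2 * k) = 3 * ((8 * g + 4) * 2 ^ g) := by
      rw [hP]
      ring
    omega
  have hcap : lam + (384 * g + 192) * (6 * g * ((1 * k) / (9 * g))) ≤ 16 * g * 2 ^ g := by
    rw [← hc, ← hgain]
    have h6 : 9 * g * k ≤ g * 2 ^ g := by
      rw [hP]
      have : g * (32 * k) = 32 * (g * k) := by ring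
      have e : 9 * g * k = 9 * (g * k) := by ring
      omega
    have h7 : (8 * g + 4) * 2 ^ g + g * 2 ^ g ≤ 16 * g * 2 ^ g := by
      have e : (8 * g + 4) * 2 ^ g + g * 2 ^ g = (9 * g + 4) * 2 ^ g := by ring
      rw [e]
      apply Nat.mul_le_mul_right
      omega
    omega
  obtain ⟨V', B', hst'⟩ := stageB hg (h := g - 5) (by omega) le_rfl (by omega) hG hGb hGc hst h1 hcap
  refine ⟨V', B', lam + gain, hst', ?_⟩
  omega

end Vale.Agent.Lib.P012
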