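import Vale.Agent.Lib.P012.LevelA

namespace Vale.Agent.Lib.P012

open Finset

/-- The state of the chain for a fixed rich part `V`. -/
def StA (V O E B T lam : ℕ) : Prop :=
  Odd O ∧ V ∣ O ∧ 2 ^ E * O = B * V ∧ 2 ^ lam ≤ B ∧ B ≤ 2 ^ (2 * lam) ∧ PP (2 ^ E * O) B T E

theorem one_levelA {V O E B T lam vO v r c n : ℕ} (hst : StA V O E B T lam) (hOv : O ≤ 2 ^ vO)
    (hr1 : 0 < r) (hc : 0 < c)
    (X : Fin 5 × Bool → Finset ℕ)
    (hXn : ∀ j, (X j).card = n) (hn : 0 < n)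
    (hXv : ∀ j, ∀ x ∈ X j, x ≤ 2 ^ v)
    (hXatom : ∀ i, ∀ x ∈ X (i, false), ∀ y ∈ X (i, true), Atom V (x * y))
    (hB : 31 * 2 ^ (2 * v) ≤ B)
    (hnΓ : (2 ^ (3 * r)) ^ c ≤ n)
    (hr : 2 * c * 21 ^ 5 < 2 ^ r)
    (hπ : 2 * c * 2 ^ (3 * r) * (v + 4) + c + 2 ^ (2 * r) + vO ≤
      (Nat.primesLE (2 ^ (4 * r))).card) :
    ∃ O' B', StA V O' (E + 5) B' (T + 30) (lam + (5 + 2 * r * c)) ∧ B ≤ B' := by
  classical
  obtain ⟨hOodd, hVO, hMe, hlow, hhigh, hPP⟩ := hst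
  have hOpos : 0 < O := hOodd.pos
  set A := Nat.primesLE (2 ^ (4 * r)) \ (Nat.primesLE (2 ^ (2 * r)) ∪ O.primeFactors) with hA
  have hAprime : ∀ p ∈ A, p.Prime :=
    fun p hp => Nat.prime_of_mem_primesLE (Finset.mem_sdiff.1 hp).1
  have hAcard : 2 * c * 2 ^ (3 * r) * (v + 4) + c ≤ A.card := by
    have h1 : (Nat.primesLE (2 ^ (4 * r))).card -
        (Nat.primesLE (2 ^ (2 * r)) ∪ O.primeFactors).card ≤ A.card :=
      Finset.le_card_sdiff _ _
    have h2 : (Nat.primesLE (2 ^ (2 * r)) ∪ O.primeFactors).card ≤ 2 ^ (2 * r) + vO := by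
      refine (Finset.card_union_le _ _).trans (add_le_add (card_primesLE_le _) ?_)
      exact card_primeFactors_le hOpos.ne' hOv
    omega
  set Y : Fin 5 × Bool → Finset ℕ :=
    fun j => if j.2 = true then X j else (X j).image (fun x => 2 ^ (j.1 : ℕ) * x) with hY
  have hYf : ∀ i, Y (i, false) = (X (i, false)).image (fun x => 2 ^ (i : ℕ) * x) := by
    intro i
    simp [hY]
  have hYt : ∀ i, Y (i, true) = X (i, true) := by
    intro i
    simp [hY]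
  have hYn : ∀ j, (Y j).card = n := by
    rintro ⟨i, b⟩
    cases b with
    | false =>
      rw [hYf, Finset.card_image_of_injective _ ?_, hXn]
      intro x x' e
      exact Nat.eq_of_mul_eq_mul_left (by positivity) e
    | true => rw [hYt, hXn]
  have hi4 : ∀ i : Fin 5, 2 ^ (i : ℕ) ≤ 2 ^ 4 := fun i =>
    Nat.pow_le_pow_right (by norm_num) (by omega)
  have hYv : ∀ j, ∀ x ∈ Y j, x ≤ 2 ^ (v + 4) := by
    rintro ⟨i, b⟩ x hx
    cases b with
    | false =>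
      rw [hYf] at hx
      obtain ⟨x', hx', rfl⟩ := Finset.mem_image.1 hx
      calc 2 ^ (i : ℕ) * x' ≤ 2 ^ 4 * 2 ^ v := Nat.mul_le_mul (hi4 i) (hXv _ _ hx')
        _ = 2 ^ (v + 4) := by ring
    | true =>
      rw [hYt] at hx
      exact (hXv _ _ hx).trans (Nat.pow_le_pow_right (by norm_num) (by omega))
  obtain ⟨L, hLA, hLc, hLcoll⟩ := greedy_select hAprime Y hYv hYn (by positivity) (by omega) hc hAcard
  have hcard10 : Fintype.card (Fin 5 × Bool) = 10 := by simp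
  rw [hcard10] at hLcoll
  have hLprime : ∀ ℓ ∈ L, ℓ.Prime := fun ℓ hℓ => hAprime ℓ (hLA hℓ)
  have h2r4 : 4 ≤ 2 ^ (2 * r) := by
    calc 4 = 2 ^ 2 := by norm_num
      _ ≤ 2 ^ (2 * r) := Nat.pow_le_pow_right (by norm_num) (by omega)
  have hLprops : ∀ ℓ ∈ L, ℓ.Prime ∧ Odd ℓ ∧ Nat.Coprime ℓ O ∧ 2 ^ (2 * r) < ℓ ∧
      ℓ ≤ 2 ^ (4 * r) := by
    intro ℓ hℓ
    have h1 := Finset.mem_sdiff.1 (hLA hℓ)
    have h2 := hLprime ℓ hℓ
    have h3 : ℓ ∉ Nat.primesLE (2 ^ (2 * r)) := fun h => h1.2 (Finset.mem_union_left _ h)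
    have h4 : ℓ ∉ O.primeFactors := fun h => h1.2 (Finset.mem_union_right _ h)
    have h5 : 2 ^ (2 * r) < ℓ := by
      by_contra hle
      exact h3 (Nat.mem_primesLE.2 ⟨not_lt.1 hle, h2⟩)
    refine ⟨h2, h2.odd_of_ne_two (by omega), ?_, h5, Nat.le_of_mem_primesLE h1.1⟩
    rw [Nat.Prime.coprime_iff_not_dvd h2]
    intro hd
    exact h4 (Nat.mem_primeFactors.2 ⟨h2, hd, hOpos.ne'⟩)
  set w := ∏ ℓ ∈ L, ℓ with hw
  have hLne : L.Nonempty := by
    rw [← Finset.card_pos]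
    omega
  have hwpos : 0 < w := Finset.prod_pos (fun ℓ hℓ => (hLprime ℓ hℓ).pos)
  have hw1 : 1 < w := by
    obtain ⟨ℓ, hℓ⟩ := hLne
    have h1 : ℓ ∣ w := Finset.dvd_prod_of_mem (fun ℓ => ℓ) hℓ
    exact lt_of_lt_of_le (hLprime ℓ hℓ).one_lt (Nat.le_of_dvd hwpos h1)
  have : NeZero w := ⟨by omega⟩
  have hwodd : Odd w := Finset.prod_induction _ Odd (fun _ _ => Odd.mul) odd_one
    (fun ℓ hℓ => (hLprops ℓ hℓ).2.1)
  have hco : Nat.Coprime w O := Nat.Coprime.prod_left (fun ℓ hℓ => (hLprops ℓ hℓ).2.2.1)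
  have hlevel := PP.level hOodd hVO hwodd hw1 hco ?_ hPP
  · have hwlow : (2 ^ (2 * r)) ^ c ≤ w := by
      rw [← hLc]
      have := Finset.prod_le_prod (s := L) (f := fun _ => 2 ^ (2 * r)) (g := fun ℓ => ℓ)
        (fun _ _ => Nat.zero_le _) (fun ℓ hℓ => (hLprops ℓ hℓ).2.2.2.1.le)
      simpa using this
    have hwhigh : w ≤ (2 ^ (4 * r)) ^ c := by
      rw [← hLc]
      exact Finset.prod_le_pow_card _ _ _ (fun ℓ hℓ => (hLprops ℓ hℓ).2.2.2.2)
    have hBpos : 0 < B := lt_of_lt_of_le (Nat.two_pow_pos _) hlow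
    refine ⟨w * O, 32 * w * B, ⟨hwodd.mul hOodd, hVO.trans (Dvd.intro_left _ rfl), ?_, ?_, ?_, hlevel⟩, ?_⟩
    · calc 2 ^ (E + 5) * (w * O) = 32 * w * (2 ^ E * O) := by ring
        _ = 32 * w * (B * V) := by rw [hMe]
        _ = 32 * w * B * V := by ring
    · calc 2 ^ (lam + (5 + 2 * r * c)) = 32 * (2 ^ (2 * r)) ^ c * 2 ^ lam := by
            rw [← pow_mul]
            ring
        _ ≤ 32 * w * B := Nat.mul_le_mul (Nat.mul_le_mul_left _ hwlow) hlow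
    · calc 32 * w * B ≤ 32 * (2 ^ (4 * r)) ^ c * 2 ^ (2 * lam) :=
            Nat.mul_le_mul (Nat.mul_le_mul_left _ hwhigh) hhigh
        _ = 2 ^ (5 + 4 * r * c + 2 * lam) := by
            rw [← pow_mul]
            ring
        _ ≤ 2 ^ (2 * (lam + (5 + 2 * r * c))) := by
            apply Nat.pow_le_pow_right (by norm_num)
            have e : 2 * (lam + (5 + 2 * r * c)) = 2 * lam + 10 + 4 * r * c := by ring
            omega
    · calc B = 1 * B := by ring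
        _ ≤ 32 * w * B := Nat.mul_le_mul_right _ (by omega)
  · intro s hs
    obtain ⟨p, hp1, hp2⟩ := fourier_cover (w := w) hLprime hw
      (fun ℓ hℓ => (hLprops ℓ hℓ).2.2.2.2) hLc.le Y hYn hn hnΓ hLcoll hr (s : ZMod w)
    have hex : ∀ i : Fin 5, ∃ x ∈ X (i, false), 2 ^ (i : ℕ) * x = (p i).1 := by
      intro i
      have h1 := (hp1 i).1
      rw [hYf] at h1
      obtain ⟨x, hx, e⟩ := Finset.mem_image.1 h1
      exact ⟨x, hx, e⟩
    choose x hx1 hx2 using hex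
    have hy : ∀ i, (p i).2 ∈ X (i, true) := fun i => by
      have h1 := (hp1 i).2
      rwa [hYt] at h1
    have hsume : ∑ i : Fin 5, 2 ^ (i : ℕ) * (x i * (p i).2) = ∑ i, (p i).1 * (p i).2 := by
      apply Finset.sum_congr rfl
      intro i _
      rw [← mul_assoc, hx2]
    refine ⟨fun i => x i * (p i).2, fun i => hXatom i _ (hx1 i) _ (hy i), ?_, ?_⟩
    · calc ∑ i : Fin 5, 2 ^ (i : ℕ) * (x i * (p i).2)
          ≤ ∑ i : Fin 5, 2 ^ (i : ℕ) * 2 ^ (2 * v) := by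
            apply Finset.sum_le_sum
            intro i _
            apply Nat.mul_le_mul_left
            calc x i * (p i).2 ≤ 2 ^ v * 2 ^ v := Nat.mul_le_mul (hXv _ _ (hx1 i)) (hXv _ _ (hy i))
              _ = 2 ^ (2 * v) := by rw [← pow_add]; congr 1; ring
        _ = 31 * 2 ^ (2 * v) := by
            rw [← Finset.sum_mul]
            congr 1
        _ ≤ B := hB
    · simp only
      rw [hsume]
      have h1 : ((∑ i, (p i).1 * (p i).2 : ℕ) : ZMod w) = (s : ZMod w) := by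
        rw [← hp2]
        simp only [Nat.cast_sum, Nat.cast_mul]
      have h2 := (ZMod.natCast_eq_natCast_iff' _ _ _).1 h1
      rw [h2, Nat.mod_eq_of_lt hs]

/-- Iterating levels with fixed blocks. -/
theorem iterate_levelsA {V vD O E B T lam vO v r c n : ℕ} (hVpos : 0 < V) (hVv : V ≤ 2 ^ vD)
    (hst : StA V O E B T lam)
    (hr1 : 0 < r) (hc : 0 < c)
    (X : Fin 5 × Bool → Finset ℕ)
    (hXn : ∀ j, (X j).card = n) (hn : 0 < n)
    (hXv : ∀ j, ∀ x ∈ X j, x ≤ 2 ^ v)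
    (hXatom : ∀ i, ∀ x ∈ X (i, false), ∀ y ∈ X (i, true), Atom V (x * y))
    (hB : 31 * 2 ^ (2 * v) ≤ B)
    (hnΓ : (2 ^ (3 * r)) ^ c ≤ n)
    (hr : 2 * c * 21 ^ 5 < 2 ^ r)
    (hπ : 2 * c * 2 ^ (3 * r) * (v + 4) + c + 2 ^ (2 * r) + vO ≤
      (Nat.primesLE (2 ^ (4 * r))).card) (t : ℕ)
    (hcap : 2 * (lam + t * (5 + 2 * r * c)) + vD ≤ vO) :
    ∃ O' B', StA V O' (E + 5 * t) B' (T + 30 * t) (lam + t * (5 + 2 * r * c)) ∧ B ≤ B' := by
  induction t with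
  | zero => exact ⟨O, B, by simpa using hst, le_rfl⟩
  | succ t ih =>
    have hle : lam + t * (5 + 2 * r * c) ≤ lam + (t + 1) * (5 + 2 * r * c) := by
      apply Nat.add_le_add_left
      exact Nat.mul_le_mul_right _ (Nat.le_succ t)
    obtain ⟨O', B', hst', hBB'⟩ := ih (by omega)
    have hO'v : O' ≤ 2 ^ vO := by
      obtain ⟨h1, h2, h3, h4, h5, h6⟩ := hst'
      calc O' ≤ 2 ^ (E + 5 * t) * O' := Nat.le_mul_of_pos_left _ (Nat.two_pow_pos _)
        _ = B' * V := h3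
        _ ≤ 2 ^ (2 * (lam + t * (5 + 2 * r * c))) * 2 ^ vD := Nat.mul_le_mul h5 hVv
        _ = 2 ^ (2 * (lam + t * (5 + 2 * r * c)) + vD) := by rw [pow_add]
        _ ≤ 2 ^ vO := Nat.pow_le_pow_right (by norm_num) (by omega)
    obtain ⟨O'', B'', hst'', hB'B''⟩ := one_levelA hst' hO'v hr1 hc X hXn hn hXv hXatom
      (hB.trans hBB') hnΓ hr hπ
    refine ⟨O'', B'', ?_, hBB'.trans hB'B''⟩
    have e1 : E + 5 * (t + 1) = E + 5 * t + 5 := by ring
    have e2 : T + 30 * (t + 1) = T + 30 * t + 30 := by ring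
    have e3 : lam + (t + 1) * (5 + 2 * r * c) = lam + t * (5 + 2 * r * c) + (5 + 2 * r * c) := by
      ring
    rw [e1, e2, e3]
    exact hst''

end Vale.Agent.Lib.P012
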