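import Vale.Agent.Lib.P012.Fourier

namespace Vale.Agent.Lib.P012

open Finset

section

variable {w : ℕ} [NeZero w]

/-- The primes of `L` not dividing the representative of `a`. -/
def Iset (L : Finset ℕ) (a : ZMod w) : Finset ℕ := L.filter (fun ℓ => ¬ ℓ ∣ a.val)

omit [NeZero w] in
theorem Iset_subset (L : Finset ℕ) (a : ZMod w) : Iset L a ⊆ L := Finset.filter_subset _ _

theorem prod_primes_filter_dvd {L : Finset ℕ} (hL : ∀ ℓ ∈ L, ℓ.Prime) (A : ℕ) :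
    (∏ ℓ ∈ L.filter (fun ℓ => ℓ ∣ A), ℓ) ∣ A := by
  apply Finset.prod_primes_dvd
  · intro p hp
    exact (hL p (Finset.mem_filter.1 hp).1).prime
  · intro p hp
    exact (Finset.mem_filter.1 hp).2

theorem dvd_mul_prod_filter {L : Finset ℕ} (hL : ∀ ℓ ∈ L, ℓ.Prime) (A : ℕ) :
    (∏ ℓ ∈ L, ℓ) ∣ A * ∏ ℓ ∈ L.filter (fun ℓ => ¬ ℓ ∣ A), ℓ := by
  rw [← Finset.prod_filter_mul_prod_filter_not L (fun ℓ => ℓ ∣ A) (fun ℓ => ℓ)]
  exact Nat.mul_dvd_mul_right (prod_primes_filter_dvd hL A) _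

/-- `a` kills the product of the set `Iset L a`. -/
theorem mul_prod_Iset {L : Finset ℕ} (hL : ∀ ℓ ∈ L, ℓ.Prime) (hw : w = ∏ ℓ ∈ L, ℓ) (a : ZMod w) :
    a * (((∏ ℓ ∈ Iset L a, ℓ : ℕ)) : ZMod w) = 0 := by
  have h1 := dvd_mul_prod_filter hL a.val
  rw [← hw] at h1
  have h2 : ((a.val * (∏ ℓ ∈ Iset L a, ℓ) : ℕ) : ZMod w) = 0 :=
    (ZMod.natCast_eq_zero_iff _ _).2 h1
  calc a * (((∏ ℓ ∈ Iset L a, ℓ : ℕ)) : ZMod w)
      = ((a.val : ZMod w)) * (((∏ ℓ ∈ Iset L a, ℓ : ℕ)) : ZMod w) := by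
        rw [ZMod.natCast_zmod_val]
    _ = ((a.val * (∏ ℓ ∈ Iset L a, ℓ) : ℕ) : ZMod w) := by push_cast; rfl
    _ = 0 := h2

/-- If `a` kills a difference, then the product of `Iset L a` divides it. -/
theorem dvd_of_mul_eq_zero {L : Finset ℕ} (hL : ∀ ℓ ∈ L, ℓ.Prime) (hw : w = ∏ ℓ ∈ L, ℓ)
    (a : ZMod w) {y y' : ℕ} (h : a * ((y : ZMod w) - (y' : ZMod w)) = 0) :
    (((∏ ℓ ∈ Iset L a, ℓ : ℕ)) : ℤ) ∣ (y : ℤ) - (y' : ℤ) := by
  set t : ℤ := (y : ℤ) - (y' : ℤ) with ht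
  have h1 : (((a.val : ℤ) * t : ℤ) : ZMod w) = 0 := by
    rw [ht]
    push_cast
    rw [ZMod.natCast_zmod_val]
    exact h
  have h2 : (w : ℤ) ∣ (a.val : ℤ) * t := (ZMod.intCast_zmod_eq_zero_iff_dvd _ _).1 h1
  have h3 : w ∣ a.val * t.natAbs := by
    have := Int.natAbs_dvd_natAbs.2 h2
    rw [Int.natAbs_mul, Int.natAbs_natCast, Int.natAbs_natCast] at this
    exact this
  rw [Int.natCast_dvd]
  apply Finset.prod_primes_dvd
  · intro p hp
    exact (hL p (Finset.mem_filter.1 hp).1).prime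
  · intro p hp
    have hpL := (Finset.mem_filter.1 hp).1
    have hpd : p ∣ w := by
      have := Finset.dvd_prod_of_mem (fun ℓ => ℓ) hpL
      rwa [← hw] at this
    rcases ((hL p hpL).dvd_mul).1 (hpd.trans h3) with h4 | h4
    · exact absurd h4 (Finset.mem_filter.1 hp).2
    · exact h4

theorem Iset_nonempty {L : Finset ℕ} (hL : ∀ ℓ ∈ L, ℓ.Prime) (hw : w = ∏ ℓ ∈ L, ℓ)
    {a : ZMod w} (ha : a ≠ 0) : (Iset L a).Nonempty := by
  by_contra hcon
  rw [Finset.not_nonempty_iff_eq_empty] at hcon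
  apply ha
  have h1 : ∀ ℓ ∈ L, ℓ ∣ a.val := by
    intro ℓ hℓ
    by_contra hd
    have : ℓ ∈ Iset L a := Finset.mem_filter.2 ⟨hℓ, hd⟩
    rw [hcon] at this
    simp at this
  have h2 : w ∣ a.val := by
    have : (∏ ℓ ∈ L, ℓ) ∣ a.val := by
      apply Finset.prod_primes_dvd
      · intro p hp
        exact (hL p hp).prime
      · exact h1
    rwa [← hw] at this
  have h3 : a.val = 0 := Nat.eq_zero_of_dvd_of_lt h2 (ZMod.val_lt a)
  exact (ZMod.val_eq_zero a).1 h3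

/-- Few residues have a given set `Iset L a`. -/
theorem card_fiber_Iset_le {L I : Finset ℕ} (hL : ∀ ℓ ∈ L, ℓ.Prime) (hw : w = ∏ ℓ ∈ L, ℓ)
    (hI : I ⊆ L) :
    ((Finset.univ : Finset (ZMod w)).filter (fun a => Iset L a = I)).card ≤ ∏ ℓ ∈ I, ℓ := by
  classical
  set W := ∏ ℓ ∈ L \ I, ℓ with hW
  have hWpos : 0 < W := Finset.prod_pos
    (fun ℓ hℓ => (hL ℓ (Finset.mem_sdiff.1 hℓ).1).pos)
  have hwW : w = W * ∏ ℓ ∈ I, ℓ := hw.trans (Finset.prod_sdiff hI).symm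
  have hdvd : ∀ a : ZMod w, Iset L a = I → W ∣ a.val := by
    intro a ha
    apply Finset.prod_primes_dvd
    · intro p hp
      exact (hL p (Finset.mem_sdiff.1 hp).1).prime
    · intro p hp
      rw [Finset.mem_sdiff] at hp
      by_contra hd
      apply hp.2
      rw [← ha]
      exact Finset.mem_filter.2 ⟨hp.1, hd⟩
  have := Finset.card_le_card_of_injOn (s := (Finset.univ : Finset (ZMod w)).filter
    (fun a => Iset L a = I)) (t := range (∏ ℓ ∈ I, ℓ)) (fun a => a.val / W) ?_ ?_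
  · simpa using this
  · intro a _
    rw [Finset.mem_coe, Finset.mem_range]
    apply Nat.div_lt_of_lt_mul
    rw [← hwW]
    exact ZMod.val_lt a
  · intro a ha b hb hab
    have ha' := (Finset.mem_filter.1 (Finset.mem_coe.1 ha)).2
    have hb' := (Finset.mem_filter.1 (Finset.mem_coe.1 hb)).2
    apply ZMod.val_injective
    simp only at hab
    rw [← Nat.div_mul_cancel (hdvd a ha'), ← Nat.div_mul_cancel (hdvd b hb'), hab]

end

/-- Elementary inequality used for the sum over subsets. -/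
theorem one_add_pow_le {x : ℝ} (hx : 0 ≤ x) {c : ℕ} (hc : 2 * (c : ℝ) * x ≤ 1) (k : ℕ)
    (hk : k ≤ c) : (1 + x) ^ k ≤ 1 + 2 * k * x := by
  induction k with
  | zero => simp
  | succ k ih =>
    have h1 := ih (by omega)
    have hk' : (k : ℝ) ≤ c := by exact_mod_cast (by omega : k ≤ c)
    have h2 : 2 * (k : ℝ) * x ≤ 1 := by
      have : 2 * (k : ℝ) * x ≤ 2 * (c : ℝ) * x := by gcongr
      linarith
    rw [pow_succ]
    push_cast
    have h3 : (1 + x) ^ k * (1 + x) ≤ (1 + 2 * k * x) * (1 + x) :=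
      mul_le_mul_of_nonneg_right h1 (by linarith)
    nlinarith

end Vale.Agent.Lib.P012
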