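import Vale.Agent.Lib.P012.FreeGreedy

namespace Vale.Agent.Lib.P012

open Finset

/-- The construction, in natural-number form. -/
theorem egyptian_of_g {g b a : ℕ} (hg : 19 ≤ g) (hb : b ≤ 2 ^ (2 ^ g)) (hab : a < b) :
    ∃ S : Finset ℕ, (∀ n ∈ S, 2 ≤ n) ∧ ∑ n ∈ S, (1 / (n : ℚ)) = (a : ℚ) / b ∧
      S.card ≤ 2 * g + 1 + 2 * (64 * g + 3 + 5 * levelsBelow g (g - 5) + 5 * (384 * g + 192)) := by
  obtain ⟨G, hG, hGb, h3G, hGc⟩ := exists_rich_primes hg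
  obtain ⟨V, B, lam, ⟨h1, h2, h3, _, h5⟩, h6⟩ := chain_final hg hG hGb h3G hGc
  have hDpos : 0 < ∏ p ∈ G, p := Finset.prod_pos (fun p hp => (hG p hp).pos)
  have hDv : ∏ p ∈ G, p ≤ 2 ^ (2 * g * 2 ^ g) := by
    have := Finset.prod_le_pow_card G (fun p => p) (2 ^ (2 * g)) hGb
    rw [hGc, ← pow_mul] at this
    exact this
  have hBpos : 0 < B := lt_of_lt_of_le (Nat.two_pow_pos _) h3
  have hVpos : 0 < V := by
    rw [h2]
    exact Nat.mul_pos hBpos hDpos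
  have h1000 := mul_sq_le_two_pow hg
  have hgg : g ≤ g ^ 2 := by
    rw [sq]
    exact Nat.le_mul_of_pos_left _ (by omega)
  have h2g : 2 * g ≤ 2 ^ g := by omega
  have hDt : ∏ p ∈ G, p ≤ 2 ^ (2 ^ (2 * g)) := by
    refine hDv.trans (Nat.pow_le_pow_right (by norm_num) ?_)
    rw [two_mul g, pow_add, ← two_mul]
    exact Nat.mul_le_mul_right _ h2g
  have hbB : 3 * b * (∏ p ∈ G, p) ^ 2 ≤ B := by
    refine le_trans ?_ h3
    have hD2 : (∏ p ∈ G, p) ^ 2 ≤ 2 ^ (4 * g * 2 ^ g) := by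
      calc (∏ p ∈ G, p) ^ 2 ≤ (2 ^ (2 * g * 2 ^ g)) ^ 2 := Nat.pow_le_pow_left hDv 2
        _ = 2 ^ (4 * g * 2 ^ g) := by
          rw [← pow_mul]
          congr 1
          ring
    calc 3 * b * (∏ p ∈ G, p) ^ 2 ≤ 2 ^ 2 * 2 ^ (2 ^ g) * 2 ^ (4 * g * 2 ^ g) := by
          apply Nat.mul_le_mul _ hD2
          apply Nat.mul_le_mul (by norm_num) hb
      _ = 2 ^ (2 + 2 ^ g + 4 * g * 2 ^ g) := by rw [pow_add, pow_add]
      _ ≤ 2 ^ lam := by
          apply Nat.pow_le_pow_right (by norm_num)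
          have h7 : 2 ≤ 2 ^ g := by omega
          have e : (4 * g + 2) * 2 ^ g = 4 * g * 2 ^ g + 2 * 2 ^ g := by ring
          omega
  have := egyptian_of_repB hVpos h1 (by rw [h2]) h5 hbB hDpos hDt hab
  exact this

/-- Bound for the number of levels, through the harmonic sum. -/
theorem levelsBelow_le (g : ℕ) :
    (levelsBelow g (g - 5) : ℝ) ≤ g + 12 * g * (1 + Real.log g) := by
  classical
  have h1 : (levelsBelow g (g - 5) : ℝ) ≤
      ∑ j ∈ Finset.Ico 4 (g - 5), (12 * (g : ℝ) * ((g - 5 - j : ℕ) + 1 : ℝ)⁻¹ + 1) := by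
    unfold levelsBelow
    push_cast
    apply Finset.sum_le_sum
    intro j hj
    have hj' := Finset.mem_Ico.1 hj
    have h2 : ((12 * g / (g - 4 - j) : ℕ) : ℝ) ≤ ((12 * g : ℕ) : ℝ) / ((g - 4 - j : ℕ) : ℝ) :=
      Nat.cast_div_le
    have h3 : ((g - 4 - j : ℕ) : ℝ) = ((g - 5 - j : ℕ) : ℝ) + 1 := by
      have : g - 4 - j = (g - 5 - j) + 1 := by omega
      rw [this]
      push_cast
      ring
    rw [h3] at h2
    have h4 : ((12 * g : ℕ) : ℝ) / (((g - 5 - j : ℕ) : ℝ) + 1) =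
        12 * (g : ℝ) * (((g - 5 - j : ℕ) : ℝ) + 1)⁻¹ := by
      push_cast
      rw [div_eq_mul_inv]
    rw [h4] at h2
    linarith
  have hsplit : ∑ j ∈ Finset.Ico 4 (g - 5), (12 * (g : ℝ) * ((g - 5 - j : ℕ) + 1 : ℝ)⁻¹ + 1) =
      12 * (g : ℝ) * ∑ j ∈ Finset.Ico 4 (g - 5), ((g - 5 - j : ℕ) + 1 : ℝ)⁻¹ +
        ((Finset.Ico 4 (g - 5)).card : ℝ) := by
    rw [Finset.sum_add_distrib, Finset.mul_sum]
    simp
  have hcard : ((Finset.Ico 4 (g - 5)).card : ℝ) ≤ g := by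
    rw [Nat.card_Ico]
    exact_mod_cast (by omega : g - 5 - 4 ≤ g)
  have hharm : ∑ j ∈ Finset.Ico 4 (g - 5), ((g - 5 - j : ℕ) + 1 : ℝ)⁻¹ ≤ ((harmonic g : ℚ) : ℝ) := by
    have h5 : ((harmonic g : ℚ) : ℝ) = ∑ i ∈ Finset.range g, ((i : ℝ) + 1)⁻¹ := by
      unfold harmonic
      push_cast
      rfl
    rw [h5]
    have hinj : Set.InjOn (fun j => g - 5 - j) (Finset.Ico 4 (g - 5) : Set ℕ) := by
      intro a ha b hb hab
      have ha' := Finset.mem_Ico.1 (Finset.mem_coe.1 ha)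
      have hb' := Finset.mem_Ico.1 (Finset.mem_coe.1 hb)
      simp only at hab
      omega
    have h6 : ∑ j ∈ Finset.Ico 4 (g - 5), ((g - 5 - j : ℕ) + 1 : ℝ)⁻¹ =
        ∑ i ∈ (Finset.Ico 4 (g - 5)).image (fun j => g - 5 - j), ((i : ℝ) + 1)⁻¹ := by
      rw [Finset.sum_image hinj]
    rw [h6]
    apply Finset.sum_le_sum_of_subset_of_nonneg
    · intro i hi
      obtain ⟨j, hj, rfl⟩ := Finset.mem_image.1 hi
      have hj' := Finset.mem_Ico.1 hj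
      rw [Finset.mem_range]
      omega
    · intro i _ _
      positivity
  have hlog := harmonic_le_one_add_log g
  have hgpos : (0 : ℝ) ≤ 12 * (g : ℝ) := by positivity
  have h7 : 12 * (g : ℝ) * ∑ j ∈ Finset.Ico 4 (g - 5), ((g - 5 - j : ℕ) + 1 : ℝ)⁻¹ ≤
      12 * (g : ℝ) * (1 + Real.log g) :=
    mul_le_mul_of_nonneg_left (hharm.trans hlog) hgpos
  rw [hsplit] at h1
  linarith

end Vale.Agent.Lib.P012
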