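import Vale.Agent.Lib.P012.Chain2

namespace Vale.Agent.Lib.P012

open Finset

/-- One step of the classical greedy algorithm. -/
theorem free_step {A N E D b : ℕ} (hN : 0 < N) (hAE : A * E < N) (hE : 1 ≤ E) (hNb : N ≤ b * E)
    (hstop : N ≤ A * D) :
    ∃ n A' : ℕ, E < n ∧ n ≤ D ∧ 2 ≤ n ∧ 0 < N * n ∧
      (A : ℚ) / N = 1 / (n : ℚ) + (A' : ℚ) / ((N * n : ℕ) : ℚ) ∧
      A' * (n * (n - 1)) < N * n ∧ N * n ≤ b * (n * (n - 1)) ∧ E * E ≤ n * (n - 1) := by
  have hA : 0 < A := by
    rcases Nat.eq_zero_or_pos A with h | h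
    · subst h
      omega
    · exact h
  set n := (N - 1) / A + 1 with hn
  have h1 : A * ((N - 1) / A) ≤ N - 1 := Nat.mul_div_le _ _
  have h2 : N - 1 < A * ((N - 1) / A + 1) := Nat.lt_mul_div_succ _ hA
  rw [← hn] at h2
  have h3 : N ≤ A * n := by omega
  have h4 : A * (n - 1) < N := by
    have : n - 1 = (N - 1) / A := by rw [hn]; exact Nat.add_sub_cancel _ _
    rw [this]
    omega
  have hEn : E < n := by
    by_contra hcon
    have : n ≤ E := not_lt.1 hcon
    have : A * n ≤ A * E := Nat.mul_le_mul_left _ this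
    omega
  have hnD : n ≤ D := by
    by_contra hcon
    have : D ≤ n - 1 := by omega
    have : A * D ≤ A * (n - 1) := Nat.mul_le_mul_left _ this
    omega
  have hn2 : 2 ≤ n := by omega
  obtain ⟨m, hm⟩ : ∃ m, n = m + 1 := ⟨n - 1, by omega⟩
  have hEm : E ≤ m := by omega
  have h5 : A * n - N < A := by
    have : A * n = A * m + A := by rw [hm]; ring
    rw [hm] at h4
    simp only [Nat.add_sub_cancel] at h4
    omega
  have h6 : (A * n - N) * (n - 1) < N := by
    have : (A * n - N) * (n - 1) ≤ A * (n - 1) := Nat.mul_le_mul_right _ h5.le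
    omega
  refine ⟨n, A * n - N, hEn, hnD, hn2, Nat.mul_pos hN (by omega), ?_, ?_, ?_, ?_⟩
  · have hNQ : (N : ℚ) ≠ 0 := by positivity
    have hnQ : (n : ℚ) ≠ 0 := by positivity
    have hc : ((A * n - N : ℕ) : ℚ) = (A : ℚ) * n - N := by
      rw [Nat.cast_sub h3]
      push_cast
      rfl
    rw [hc]
    push_cast
    field_simp
    ring
  · calc (A * n - N) * (n * (n - 1)) = ((A * n - N) * (n - 1)) * n := by ring
      _ < N * n := Nat.mul_lt_mul_of_pos_right h6 (by omega)
  · calc N * n ≤ (b * E) * n := Nat.mul_le_mul_right _ hNb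
      _ ≤ (b * (n - 1)) * n := by
        apply Nat.mul_le_mul_right
        apply Nat.mul_le_mul_left
        omega
      _ = b * (n * (n - 1)) := by ring
  · have : E ≤ n - 1 := by omega
    calc E * E ≤ n * (n - 1) := Nat.mul_le_mul hEn.le this

/-- The greedy algorithm, once `E` is at least `2 ^ (2 ^ j)`. -/
theorem free_greedy_aux {b D : ℕ} (t : ℕ) : ∀ (j A N E : ℕ), 0 < N → A * E < N → 2 ^ (2 ^ j) ≤ E →
    N ≤ b * E → D ≤ 2 ^ (2 ^ (j + t)) →
    ∃ (F : Finset ℕ) (A' N' E' : ℕ), 0 < N' ∧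
      (A : ℚ) / N = ∑ n ∈ F, 1 / (n : ℚ) + (A' : ℚ) / N' ∧
      (∀ n ∈ F, E < n ∧ n ≤ E') ∧ A' * D < N' ∧ A' * E' < N' ∧ N' ≤ b * E' ∧ E ≤ E' ∧
      (E' = E ∨ E' ≤ D ^ 2) ∧ F.card ≤ t := by
  induction t with
  | zero =>
    intro j A N E hN hAE hE hNb hD
    refine ⟨∅, A, N, E, hN, by simp, by simp, ?_, hAE, hNb, le_rfl, Or.inl rfl, by simp⟩
    have : D ≤ E := hD.trans hE
    calc A * D ≤ A * E := Nat.mul_le_mul_left _ this
      _ < N := hAE
  | succ t ih =>
    intro j A N E hN hAE hE hNb hD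
    by_cases hstop : A * D < N
    · exact ⟨∅, A, N, E, hN, by simp, by simp, hstop, hAE, hNb, le_rfl, Or.inl rfl, by simp⟩
    · replace hstop := not_lt.1 hstop
      have hE1 : 1 ≤ E := le_trans Nat.one_le_two_pow hE
      obtain ⟨n, A₁, h1, h2, h3, h4, h5, h6, h7, h8⟩ := free_step hN hAE hE1 hNb hstop
      have hE₂ : 2 ^ (2 ^ (j + 1)) ≤ n * (n - 1) := by
        refine le_trans ?_ h8
        have : 2 ^ (2 ^ (j + 1)) = 2 ^ (2 ^ j) * 2 ^ (2 ^ j) := by
          rw [pow_succ, mul_two, pow_add]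
        rw [this]
        exact Nat.mul_le_mul hE hE
      have hD' : D ≤ 2 ^ (2 ^ (j + 1 + t)) := by
        have : j + 1 + t = j + (t + 1) := by ring
        rwa [this]
      obtain ⟨F, A', N', E', h10, h11, h12, h13, h14, h15, h16, h17, h18⟩ :=
        ih (j + 1) A₁ (N * n) (n * (n - 1)) h4 h6 hE₂ h7 hD'
      have hnle : n ≤ n * (n - 1) := Nat.le_mul_of_pos_right _ (by omega)
      have hnF : n ∉ F := by
        intro hmem
        have := (h12 n hmem).1
        omega
      have hEE : E ≤ n * (n - 1) := by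
        have : E ≤ E * E := Nat.le_mul_of_pos_left _ hE1
        omega
      refine ⟨insert n F, A', N', E', h10, ?_, ?_, h13, h14, h15, by omega, Or.inr ?_, ?_⟩
      · rw [Finset.sum_insert hnF, h5, h11]
        ring
      · intro m hm
        rcases Finset.mem_insert.1 hm with rfl | hm
        · exact ⟨h1, by omega⟩
        · have := h12 m hm
          exact ⟨by omega, this.2⟩
      · rcases h17 with h | h
        · rw [h]
          calc n * (n - 1) ≤ D * D := Nat.mul_le_mul h2 (by omega)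
            _ = D ^ 2 := by ring
        · exact h
      · rw [Finset.card_insert_of_notMem hnF]
        omega

/-- The greedy algorithm from the start. -/
theorem free_greedy {a b D t : ℕ} (hD : 1 ≤ D) (hDt : D ≤ 2 ^ (2 ^ t)) (hab : a < b) :
    ∃ (F : Finset ℕ) (A' N' E' : ℕ), 0 < N' ∧
      (a : ℚ) / b = ∑ n ∈ F, 1 / (n : ℚ) + (A' : ℚ) / N' ∧
      (∀ n ∈ F, 2 ≤ n ∧ n ≤ E') ∧ A' * D < N' ∧ A' * E' < N' ∧ N' ≤ b * D ^ 2 ∧ 1 ≤ E' ∧
      F.card ≤ t + 1 := by
  have hb : 0 < b := by omega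
  have hD2 : 1 ≤ D ^ 2 := Nat.one_le_pow _ _ hD
  by_cases hstop : a * D < b
  · refine ⟨∅, a, b, 1, hb, by simp, by simp, hstop, by simpa using hab, ?_, le_rfl, by simp⟩
    exact Nat.le_mul_of_pos_right _ (by omega)
  · replace hstop := not_lt.1 hstop
    obtain ⟨n, A₁, h1, h2, h3, h4, h5, h6, h7, h8⟩ := free_step (E := 1) (b := b) hb (by simpa using hab)
      le_rfl (by simp) hstop
    have hE₂ : 2 ^ (2 ^ 0) ≤ n * (n - 1) := by
      have : 1 ≤ n - 1 := by omega
      calc 2 ^ (2 ^ 0) = 2 * 1 := by norm_num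
        _ ≤ n * (n - 1) := Nat.mul_le_mul h3 this
    have hD' : D ≤ 2 ^ (2 ^ (0 + t)) := by simpa using hDt
    obtain ⟨F, A', N', E', h10, h11, h12, h13, h14, h15, h16, h17, h18⟩ :=
      free_greedy_aux t 0 A₁ (b * n) (n * (n - 1)) h4 h6 hE₂ h7 hD'
    have hnle : n ≤ n * (n - 1) := Nat.le_mul_of_pos_right _ (by omega)
    have hnF : n ∉ F := by
      intro hmem
      have := (h12 n hmem).1
      omega
    have hE'D : E' ≤ D ^ 2 := by
      rcases h17 with h | h
      · rw [h]
        calc n * (n - 1) ≤ D * D := Nat.mul_le_mul h2 (by omega)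
          _ = D ^ 2 := by ring
      · exact h
    refine ⟨insert n F, A', N', E', h10, ?_, ?_, h13, h14, ?_, ?_, ?_⟩
    · rw [Finset.sum_insert hnF, h5, h11]
      ring
    · intro m hm
      rcases Finset.mem_insert.1 hm with rfl | hm
      · exact ⟨h3, by omega⟩
      · have := h12 m hm
        exact ⟨by omega, this.2⟩
    · exact h15.trans (Nat.mul_le_mul_left _ hE'D)
    · have : 2 ≤ n * (n - 1) := by
        have h9 : 1 ≤ n - 1 := by omega
        calc 2 = 2 * 1 := by norm_num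
          _ ≤ n * (n - 1) := Nat.mul_le_mul h3 h9
      omega
    · rw [Finset.card_insert_of_notMem hnF]
      omega

/-- Passing from the chain to unit fractions. -/
theorem egyptian_of_repB {M B T D b a t : ℕ} (hM : 0 < M) (h3 : ¬ 3 ∣ M) (hMB : M ≤ B * D)
    (hR : RepB M B T) (hb : 3 * b * D ^ 2 ≤ B) (hD : 1 ≤ D) (hDt : D ≤ 2 ^ (2 ^ t))
    (hab : a < b) :
    ∃ S : Finset ℕ, (∀ n ∈ S, 2 ≤ n) ∧ ∑ n ∈ S, (1 / (n : ℚ)) = (a : ℚ) / b ∧
      S.card ≤ t + 1 + 2 * T := by
  classical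
  obtain ⟨F, A, N, E, hN, hsum, hF, hAD, hAE, hNb, hE1, hFc⟩ := free_greedy hD hDt hab
  set k := A * M / N with hk
  set c := A * M % N with hc
  have hdiv : N * k + c = A * M := Nat.div_add_mod _ _
  have hcN : c < N := Nat.mod_lt _ hN
  have hBpos : 0 < B := by
    rcases Nat.eq_zero_or_pos B with h | h
    · subst h
      simp at hMB
      omega
    · exact h
  have hkB : k < B := by
    by_contra hcon
    replace hcon := not_lt.1 hcon
    have h1 : N * B ≤ N * k := Nat.mul_le_mul_left _ hcon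
    have h2 : A * M ≤ A * (B * D) := Nat.mul_le_mul_left _ hMB
    have h3 : (A * D) * B < N * B := Nat.mul_lt_mul_of_pos_right hAD hBpos
    have e : A * (B * D) = (A * D) * B := by ring
    omega
  have h3cB : 3 * c < B := by
    have h1 : 3 * N ≤ 3 * (b * D ^ 2) := Nat.mul_le_mul_left _ hNb
    have e : 3 * (b * D ^ 2) = 3 * b * D ^ 2 := by ring
    omega
  obtain ⟨S₁, hS₁d, hS₁c, hS₁s⟩ := hR k hkB
  obtain ⟨S₂, hS₂d, hS₂c, hS₂s⟩ := hR (3 * c) h3cB
  have hdpos₁ : ∀ d ∈ S₁, 0 < d := fun d hd => Nat.pos_of_dvd_of_pos (hS₁d d hd) hM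
  have hdpos₂ : ∀ d ∈ S₂, 0 < d := fun d hd => Nat.pos_of_dvd_of_pos (hS₂d d hd) hM
  have hinj₁ : Set.InjOn (fun d => M / d) (S₁ : Set ℕ) := by
    intro d hd d' hd' hh
    have hd1 := hS₁d d hd
    have hd2 := hS₁d d' hd'
    simp only at hh
    have e1 := Nat.div_mul_cancel hd1
    have e2 := Nat.div_mul_cancel hd2
    rw [hh] at e1
    have hpos : 0 < M / d' := Nat.div_pos (Nat.le_of_dvd hM hd2) (Nat.pos_of_dvd_of_pos hd2 hM)
    exact Nat.eq_of_mul_eq_mul_left hpos (e1.trans e2.symm)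
  have hinj₂ : Set.InjOn (fun d => 3 * N * (M / d)) (S₂ : Set ℕ) := by
    intro d hd d' hd' hh
    have hd1 := hS₂d d hd
    have hd2 := hS₂d d' hd'
    simp only at hh
    have hh' : M / d = M / d' := Nat.eq_of_mul_eq_mul_left (by omega) hh
    have e1 := Nat.div_mul_cancel hd1
    have e2 := Nat.div_mul_cancel hd2
    rw [hh'] at e1
    have hpos : 0 < M / d' := Nat.div_pos (Nat.le_of_dvd hM hd2) (Nat.pos_of_dvd_of_pos hd2 hM)
    exact Nat.eq_of_mul_eq_mul_left hpos (e1.trans e2.symm)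
  -- size of the new denominators
  have hbig₁ : ∀ d ∈ S₁, E < M / d := by
    intro d hd
    by_contra hcon
    replace hcon := not_lt.1 hcon
    have hd1 := hS₁d d hd
    have e1 := Nat.div_mul_cancel hd1
    have hdk : d ≤ k := by
      rw [← hS₁s]
      exact Finset.single_le_sum (f := fun x => x) (fun _ _ => Nat.zero_le _) hd
    have h1 : M ≤ E * k := by
      calc M = M / d * d := e1.symm
        _ ≤ E * k := Nat.mul_le_mul hcon hdk
    have h2 : N * k ≤ A * M := by omega
    have h3 : N * M ≤ N * (E * k) := Nat.mul_le_mul_left _ h1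
    have h4 : N * (E * k) = E * (N * k) := by ring
    have h5 : E * (N * k) ≤ E * (A * M) := Nat.mul_le_mul_left _ h2
    have h6 : (A * E) * M < N * M := Nat.mul_lt_mul_of_pos_right hAE hM
    have e : E * (A * M) = (A * E) * M := by ring
    omega
  have hbig₂ : ∀ d ∈ S₂, E < 3 * N * (M / d) := by
    intro d hd
    by_contra hcon
    replace hcon := not_lt.1 hcon
    have hd1 := hS₂d d hd
    have e1 := Nat.div_mul_cancel hd1
    have hd3c : d ≤ 3 * c := by
      rw [← hS₂s]
      exact Finset.single_le_sum (f := fun x => x) (fun _ _ => Nat.zero_le _) hd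
    have h1 : 3 * N * M ≤ E * (3 * c) := by
      calc 3 * N * M = 3 * N * (M / d * d) := by rw [e1]
        _ = (3 * N * (M / d)) * d := by ring
        _ ≤ E * (3 * c) := Nat.mul_le_mul hcon hd3c
    have h2 : c ≤ A * M := by omega
    have h3 : E * (3 * c) ≤ E * (3 * (A * M)) :=
      Nat.mul_le_mul_left _ (Nat.mul_le_mul_left _ h2)
    have h4 : (A * E) * (3 * M) < N * (3 * M) := Nat.mul_lt_mul_of_pos_right hAE (by omega)
    have e : E * (3 * (A * M)) = (A * E) * (3 * M) := by ring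
    have e2 : N * (3 * M) = 3 * N * M := by ring
    omega
  have hdisj₁ : Disjoint (S₁.image (fun d => M / d)) (S₂.image (fun d => 3 * N * (M / d))) := by
    rw [Finset.disjoint_left]
    intro x hx hx'
    obtain ⟨d, hd, rfl⟩ := Finset.mem_image.1 hx
    obtain ⟨d', hd', hdd'⟩ := Finset.mem_image.1 hx'
    apply h3
    have h1 : 3 ∣ M / d := by
      rw [← hdd', mul_assoc]
      exact Dvd.intro _ rfl
    exact h1.trans (Nat.div_dvd_of_dvd (hS₁d d hd))
  have hdisj₂ : Disjoint F (S₁.image (fun d => M / d) ∪ S₂.image (fun d => 3 * N * (M / d))) := by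
    rw [Finset.disjoint_left]
    intro x hx hx'
    have hxE := (hF x hx).2
    rcases Finset.mem_union.1 hx' with h | h
    · obtain ⟨d, hd, rfl⟩ := Finset.mem_image.1 h
      have := hbig₁ d hd
      omega
    · obtain ⟨d, hd, rfl⟩ := Finset.mem_image.1 h
      have := hbig₂ d hd
      omega
  refine ⟨F ∪ (S₁.image (fun d => M / d) ∪ S₂.image (fun d => 3 * N * (M / d))), ?_, ?_, ?_⟩
  · intro n hn
    rcases Finset.mem_union.1 hn with h | h
    · exact (hF n h).1
    · rcases Finset.mem_union.1 h with h | h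
      · obtain ⟨d, hd, rfl⟩ := Finset.mem_image.1 h
        have := hbig₁ d hd
        omega
      · obtain ⟨d, hd, rfl⟩ := Finset.mem_image.1 h
        have := hbig₂ d hd
        omega
  · rw [Finset.sum_union hdisj₂, Finset.sum_union hdisj₁, Finset.sum_image hinj₁,
      Finset.sum_image hinj₂, hsum]
    have hMQ : (M : ℚ) ≠ 0 := by positivity
    have hNQ : (N : ℚ) ≠ 0 := by positivity
    have e₁ : ∀ d ∈ S₁, (1 / (((M / d : ℕ)) : ℚ)) = (d : ℚ) / M := by
      intro d hd
      have hdp := hdpos₁ d hd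
      have : ((M / d : ℕ) : ℚ) = (M : ℚ) / d := Nat.cast_div (hS₁d d hd) (by positivity)
      rw [this]
      field_simp
    have e₂ : ∀ d ∈ S₂, (1 / (((3 * N * (M / d) : ℕ)) : ℚ)) = (d : ℚ) / (3 * N * M) := by
      intro d hd
      have hdp := hdpos₂ d hd
      have : ((M / d : ℕ) : ℚ) = (M : ℚ) / d := Nat.cast_div (hS₂d d hd) (by positivity)
      push_cast
      rw [this]
      field_simp
    rw [Finset.sum_congr rfl e₁, Finset.sum_congr rfl e₂, ← Finset.sum_div, ← Finset.sum_div]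
    have s₁ : (∑ d ∈ S₁, (d : ℚ)) = k := by rw [← hS₁s]; push_cast; rfl
    have s₂ : (∑ d ∈ S₂, (d : ℚ)) = 3 * c := by
      have : ((∑ d ∈ S₂, d : ℕ) : ℚ) = ((3 * c : ℕ) : ℚ) := by rw [hS₂s]
      push_cast at this
      exact this
    rw [s₁, s₂]
    have hdivQ : (N : ℚ) * k + c = A * M := by exact_mod_cast hdiv
    congr 1
    field_simp
    linarith
  · calc _ ≤ F.card + (S₁.image (fun d => M / d) ∪ S₂.image (fun d => 3 * N * (M / d))).card :=
          Finset.card_union_le _ _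
      _ ≤ F.card + ((S₁.image (fun d => M / d)).card +
            (S₂.image (fun d => 3 * N * (M / d))).card) :=
          Nat.add_le_add_left (Finset.card_union_le _ _) _
      _ ≤ F.card + (S₁.card + S₂.card) :=
          Nat.add_le_add_left (add_le_add Finset.card_image_le Finset.card_image_le) _
      _ ≤ t + 1 + 2 * T := by omega

end Vale.Agent.Lib.P012
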