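import Vale.Agent.Lib.P012.StageA
import Vale.Agent.Lib.P012.FreeGreedy

namespace Vale.Agent.Lib.P012

open Finset

/-- Enough odd primes up to `2 ^ (2 * g)`. -/
theorem exists_odd_rich_primes {g : ℕ} (hg : 30 ≤ g) :
    ∃ G : Finset ℕ, (∀ p ∈ G, p.Prime) ∧ (∀ p ∈ G, Odd p) ∧ (∀ p ∈ G, p ≤ 2 ^ (2 * g)) ∧
      G.card = 480 * g * 2 ^ g := by
  classical
  obtain ⟨P, hP⟩ : ∃ P, P = 2 ^ g := ⟨_, rfl⟩
  have h1000 : 1000 * g ^ 2 ≤ P := hP ▸ mul_sq_le_two_pow (by omega)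
  have hP1 : 1 ≤ P := hP ▸ Nat.one_le_two_pow
  have h0 := two_pow_le_primes (2 * g)
  have e : 2 ^ (2 * g) = P * P := by
    rw [hP, ← pow_add]
    congr 1
    ring
  obtain ⟨π, hπ⟩ : ∃ π, π = (Nat.primesLE (2 ^ (2 * g))).card := ⟨_, rfl⟩
  rw [← hπ, e] at h0
  have hbig : 480 * g * P + 1 ≤ π := by
    by_contra hcon
    replace hcon := not_le.1 hcon
    have h1 : 2 * g * π ≤ 2 * g * (480 * g * P) := Nat.mul_le_mul_left _ (by omega)
    have e1 : 2 * g * (480 * g * P) = 960 * g ^ 2 * P := by ring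
    have h2 : 1000 * g ^ 2 * P ≤ P * P := Nat.mul_le_mul_right _ h1000
    have e2 : 1000 * g ^ 2 * P = 960 * g ^ 2 * P + 40 * g ^ 2 * P := by ring
    have h3 : 1 * 1 ≤ g ^ 2 * P := Nat.mul_le_mul (Nat.one_le_pow _ _ (by omega)) (by omega)
    have h4 : g ≤ g ^ 2 * P := by
      calc g ≤ g ^ 2 := Nat.le_self_pow (by norm_num) g
        _ = g ^ 2 * 1 := by ring
        _ ≤ g ^ 2 * P := Nat.mul_le_mul_left _ (by omega)
    have e3 : 40 * g ^ 2 * P = 40 * (g ^ 2 * P) := by ring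
    omega
  have hAc : 480 * g * 2 ^ g ≤ ((Nat.primesLE (2 ^ (2 * g))).erase 2).card := by
    have := Finset.pred_card_le_card_erase (s := Nat.primesLE (2 ^ (2 * g))) (a := 2)
    rw [← hP]
    omega
  obtain ⟨G, hGA, hGc⟩ := Finset.exists_subset_card_eq hAc
  refine ⟨G, ?_, ?_, ?_, hGc⟩
  · intro p hp
    exact Nat.prime_of_mem_primesLE (Finset.mem_of_mem_erase (hGA hp))
  · intro p hp
    have h1 := hGA hp
    exact (Nat.prime_of_mem_primesLE (Finset.mem_of_mem_erase h1)).odd_of_ne_two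
      (Finset.ne_of_mem_erase h1)
  · intro p hp
    exact Nat.le_of_mem_primesLE (Finset.mem_of_mem_erase (hGA hp))

/-- The base of the chain: binary digits. -/
theorem base_PP {V : ℕ} (hV : Odd V) (e : ℕ) : PP (2 ^ e * V) (2 ^ e) e e := by
  classical
  intro m hm
  have hVpos : 0 < V := hV.pos
  obtain ⟨D, hD1, hD2, hD3⟩ := rep_two_pow e m hm
  have hdpos : ∀ d ∈ D, 0 < d := fun d hd => Nat.pos_of_dvd_of_pos (hD1 d hd) (Nat.two_pow_pos e)
  have hqpos : ∀ d ∈ D, 0 < 2 ^ e / d := fun d hd =>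
    Nat.div_pos (Nat.le_of_dvd (Nat.two_pow_pos e) (hD1 d hd)) (hdpos d hd)
  have hinj : Set.InjOn (fun d => (2 ^ e / d) * V) (D : Set ℕ) := by
    intro d hd d' hd' h
    simp only at h
    have e2 : 2 ^ e / d = 2 ^ e / d' := Nat.eq_of_mul_eq_mul_right hVpos h
    have e3 := Nat.mul_div_cancel' (hD1 d hd)
    have e4 := Nat.mul_div_cancel' (hD1 d' hd')
    rw [e2] at e3
    exact Nat.eq_of_mul_eq_mul_right (hqpos d' hd') (e3.trans e4.symm)
  refine ⟨D.image (fun d => (2 ^ e / d) * V), ?_, Finset.card_image_le.trans hD2, ?_⟩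
  · intro n hn
    obtain ⟨d, hd, rfl⟩ := Finset.mem_image.1 hn
    refine ⟨Nat.mul_pos (hqpos d hd) hVpos, ?_⟩
    intro h
    have h1 : (2 ^ e / d) * V ∣ 2 ^ e * V :=
      Nat.mul_dvd_mul_right (Nat.div_dvd_of_dvd (hD1 d hd)) _
    have h2 := h.trans h1
    rw [pow_succ] at h2
    have h3 : 2 ∣ V := (Nat.mul_dvd_mul_iff_left (Nat.two_pow_pos e)).1 h2
    exact (Nat.not_even_iff_odd.2 hV) (even_iff_two_dvd.2 h3)
  · rw [Finset.sum_image hinj]
    have h1 : ∀ d ∈ D, 1 / (((2 ^ e / d) * V : ℕ) : ℚ) = (d : ℚ) / (2 ^ e * V) := by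
      intro d hd
      have e3 : ((2 ^ e : ℕ) : ℚ) = d * ((2 ^ e / d : ℕ) : ℚ) := by
        conv_lhs => rw [← Nat.mul_div_cancel' (hD1 d hd)]
        push_cast
        ring
      have hd0 : (d : ℚ) ≠ 0 := by exact_mod_cast (hdpos d hd).ne'
      have hq0 : ((2 ^ e / d : ℕ) : ℚ) ≠ 0 := by exact_mod_cast (hqpos d hd).ne'
      have hM0 : (V : ℚ) ≠ 0 := by exact_mod_cast hVpos.ne'
      have e5 : ((2 : ℚ) ^ e) = d * ((2 ^ e / d : ℕ) : ℚ) := by exact_mod_cast e3
      rw [Nat.cast_mul, e5]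
      field_simp
    rw [Finset.sum_congr rfl h1, ← Finset.sum_div, ← Nat.cast_sum, hD3]
    push_cast
    rfl

/-- All the stages below the top one. -/
theorem chain_stagesA {g : ℕ} (hg : 30 ≤ g) {G : Finset ℕ} (hG : ∀ p ∈ G, p.Prime)
    (hGodd : ∀ p ∈ G, Odd p) (hGb : ∀ p ∈ G, p ≤ 2 ^ (2 * g)) (hGc : G.card = 480 * g * 2 ^ g) :
    ∀ j, j + 4 ≤ g → ∃ O B, StA (∏ p ∈ G, p) O (512 * g + 5 + 320 * j) B
      (512 * g + 5 + 1920 * j) (512 * g * 2 ^ j + 5 + 320 * j) := by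
  have hVodd : Odd (∏ p ∈ G, p) := Finset.prod_induction _ Odd (fun _ _ => Odd.mul) odd_one hGodd
  intro j
  induction j with
  | zero =>
    intro _
    refine ⟨∏ p ∈ G, p, 2 ^ (512 * g + 5), hVodd, dvd_rfl, ?_, ?_, ?_, ?_⟩
    · simp
    · simp
    · apply Nat.pow_le_pow_right (by norm_num)
      simp
    · simpa using base_PP hVodd (512 * g + 5)
  | succ j ih =>
    intro hj
    obtain ⟨O, B, hst⟩ := ih (by omega)
    set P := 2 ^ g with hP
    set J := 2 ^ j with hJ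
    have hJP : 32 * J ≤ P := by
      have : 2 ^ (j + 5) ≤ 2 ^ g := Nat.pow_le_pow_right (by norm_num) (by omega)
      rw [pow_add] at this
      rw [hP, hJ]
      omega
    have hP30 : 2 ^ 30 ≤ P := Nat.pow_le_pow_right (by norm_num) hg
    have hcap : 512 * g * J + 5 + 320 * j + 64 * (5 + 8 * g * J) ≤ 2000 * g ^ 2 * P := by
      have h1 : 1024 * g * J ≤ 32 * g * P := by
        calc 1024 * g * J = 32 * g * (32 * J) := by ring
          _ ≤ 32 * g * P := Nat.mul_le_mul_left _ hJP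
      have h2 : g * 1 ≤ g * P := Nat.mul_le_mul_left _ (by omega)
      have h3 : g * P ≤ g ^ 2 * P := Nat.mul_le_mul_right _ (Nat.le_self_pow (by norm_num) g)
      have e : 2000 * g ^ 2 * P = 2000 * (g ^ 2 * P) := by ring
      have e2 : 32 * g * P = 32 * (g * P) := by ring
      have h4 : 1 * P ≤ g * P := Nat.mul_le_mul_right _ (by omega)
      have e3 : 512 * g * J + 5 + 320 * j + 64 * (5 + 8 * g * J) =
          1024 * g * J + 325 + 320 * j := by ring
      rw [e, e3]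
      rw [e2] at h1
      omega
    obtain ⟨O', B', hst'⟩ := stageA hg (by omega) hG hGodd hGb hGc hst (Nat.le_add_right _ _) 64 hcap
    refine ⟨O', B', ?_⟩
    have e1 : 512 * g + 5 + 320 * (j + 1) = 512 * g + 5 + 320 * j + 5 * 64 := by ring
    have e2 : 512 * g + 5 + 1920 * (j + 1) = 512 * g + 5 + 1920 * j + 30 * 64 := by ring
    have e3 : 512 * g * 2 ^ (j + 1) + 5 + 320 * (j + 1) =
        512 * g * J + 5 + 320 * j + 64 * (5 + 8 * g * J) := by
      rw [pow_succ]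
      ring
    rw [e1, e2, e3]
    exact hst'

/-- The whole chain, ending with the top stage. -/
theorem chain_finalA {g : ℕ} (hg : 30 ≤ g) {G : Finset ℕ} (hG : ∀ p ∈ G, p.Prime)
    (hGodd : ∀ p ∈ G, Odd p) (hGb : ∀ p ∈ G, p ≤ 2 ^ (2 * g)) (hGc : G.card = 480 * g * 2 ^ g) :
    ∃ O B, StA (∏ p ∈ G, p) O (512 * g + 5 + 320 * (g - 4) + 5 * (3840 * g)) B
      (512 * g + 5 + 1920 * (g - 4) + 30 * (3840 * g))
      (32 * g * 2 ^ g + 5 + 320 * (g - 4) + 3840 * g * (5 + 8 * g * 2 ^ (g - 4))) := by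
  obtain ⟨O, B, hst⟩ := chain_stagesA hg hG hGodd hGb hGc (g - 4) (by omega)
  set P := 2 ^ g with hP
  set J := 2 ^ (g - 4) with hJ
  have hJP : 16 * J = P := by
    have e : g = (g - 4) + 4 := by omega
    rw [hP, hJ]
    conv_rhs => rw [e, pow_add]
    ring
  have hP30 : 2 ^ 30 ≤ P := Nat.pow_le_pow_right (by norm_num) hg
  have e0 : 512 * g * J = 32 * g * P := by
    rw [← hJP]
    ring
  have hcap : 512 * g * J + 5 + 320 * (g - 4) + 3840 * g * (5 + 8 * g * J) ≤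
      2000 * g ^ 2 * P := by
    have e1 : 3840 * g * (5 + 8 * g * J) = 19200 * g + 1920 * g ^ 2 * P := by
      rw [← hJP]
      ring
    rw [e0, e1]
    have h2 : g * 1 ≤ g * P := Nat.mul_le_mul_left _ (by omega)
    have h5 : g * 30 ≤ g * g := Nat.mul_le_mul_left _ hg
    have h3 : 30 * (g * P) ≤ g ^ 2 * P := by
      calc 30 * (g * P) = (g * 30) * P := by ring
        _ ≤ (g * g) * P := Nat.mul_le_mul_right _ h5
        _ = g ^ 2 * P := by ring
    have h6 : g * 2 ^ 30 ≤ g * P := Nat.mul_le_mul_left _ hP30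
    have e : 2000 * g ^ 2 * P = 1920 * g ^ 2 * P + 80 * (g ^ 2 * P) := by ring
    have e2 : 32 * g * P = 32 * (g * P) := by ring
    rw [e, e2]
    omega
  obtain ⟨O', B', hst'⟩ := stageA hg (by omega) hG hGodd hGb hGc hst (Nat.le_add_right _ _) (3840 * g) hcap
  refine ⟨O', B', ?_⟩
  rw [e0] at hst'
  exact hst'

/-- From the chain to unit fractions for an arbitrary `a / b`. -/
theorem egyptian_of_PP {M B T E D b a t : ℕ} (hR : PP M B T E) (hM : M = B * D)
    (hb : 2 ^ (E + 1) * (b * D ^ 2) ≤ B) (hD : 1 ≤ D) (hDt : D ≤ 2 ^ (2 ^ t)) (hab : a < b) :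
    ∃ S : Finset ℕ, (∀ n ∈ S, 2 ≤ n) ∧ ∑ n ∈ S, (1 / (n : ℚ)) = (a : ℚ) / b ∧
      S.card ≤ t + 1 + 2 * T := by
  classical
  obtain ⟨F, A, N, E', hN, hsum, hF, hAD, hAE, hNb, hE1, hFc⟩ := free_greedy hD hDt hab
  set k := A * M / N with hk
  set c := A * M % N with hc
  have hdiv : N * k + c = A * M := Nat.div_add_mod _ _
  have hcN : c < N := Nat.mod_lt _ hN
  have hbpos : 0 < b := by omega
  have hBpos : 0 < B := by
    refine lt_of_lt_of_le ?_ hb
    positivity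
  have hMpos : 0 < M := by
    rw [hM]
    exact Nat.mul_pos hBpos hD
  have hkB : k < B := by
    by_contra hcon
    replace hcon := not_lt.1 hcon
    have h1 : N * B ≤ N * k := Nat.mul_le_mul_left _ hcon
    have h3 : (A * D) * B < N * B := Nat.mul_lt_mul_of_pos_right hAD hBpos
    have e : A * M = (A * D) * B := by
      rw [hM]
      ring
    omega
  have h2cB : 2 ^ (E + 1) * c < B := by
    have h1 : 2 ^ (E + 1) * c < 2 ^ (E + 1) * N :=
      Nat.mul_lt_mul_of_pos_left hcN (Nat.two_pow_pos _)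
    have h2 : 2 ^ (E + 1) * N ≤ 2 ^ (E + 1) * (b * D ^ 2) := Nat.mul_le_mul_left _ hNb
    omega
  obtain ⟨S₁, hS₁p, hS₁c, hS₁s⟩ := hR k hkB
  obtain ⟨S₂, hS₂p, hS₂c, hS₂s⟩ := hR (2 ^ (E + 1) * c) h2cB
  have hNQ : (N : ℚ) ≠ 0 := by exact_mod_cast hN.ne'
  have hMQ : (M : ℚ) ≠ 0 := by exact_mod_cast hMpos.ne'
  have h2Q : (2 : ℚ) ≠ 0 := by norm_num
  have hinj₂ : Set.InjOn (fun n => 2 ^ (E + 1) * N * n) (S₂ : Set ℕ) := by
    intro x _ y _ e
    exact Nat.eq_of_mul_eq_mul_left (by positivity) e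
  set S₃ := S₂.image (fun n => 2 ^ (E + 1) * N * n) with hS₃
  have hS₃s : ∑ n ∈ S₃, (1 / (n : ℚ)) = (c : ℚ) / (N * M) := by
    rw [hS₃, Finset.sum_image hinj₂]
    have e : ∀ n ∈ S₂, 1 / (((2 ^ (E + 1) * N * n : ℕ)) : ℚ) =
        (1 / (2 ^ (E + 1) * N)) * (1 / (n : ℚ)) := by
      intro n _
      push_cast
      rw [one_div_mul_one_div]
    rw [Finset.sum_congr rfl e, ← Finset.mul_sum, hS₂s]
    push_cast
    field_simp
  have hAN : (A : ℚ) / N = ∑ n ∈ S₁, (1 / (n : ℚ)) + ∑ n ∈ S₃, (1 / (n : ℚ)) := by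
    rw [hS₁s, hS₃s]
    have e : (A : ℚ) * M = N * k + c := by exact_mod_cast hdiv.symm
    field_simp
    linarith
  have hEpos : (0 : ℚ) < (E' : ℚ) := by
    have : 0 < E' := hE1
    exact_mod_cast this
  have hnonneg : ∀ (X : Finset ℕ) (n : ℕ), 0 ≤ 1 / (n : ℚ) := fun _ n => by positivity
  -- new terms are large
  have hbig₁ : ∀ n ∈ S₁, E' < n := by
    intro n hn
    by_contra hcon
    replace hcon := not_lt.1 hcon
    have hnpos := (hS₁p n hn).1
    have h1 : 1 / (n : ℚ) ≤ (k : ℚ) / M := by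
      rw [← hS₁s]
      exact Finset.single_le_sum (f := fun x : ℕ => 1 / (x : ℚ)) (fun x _ => by positivity) hn
    have hnQ : (0 : ℚ) < n := by exact_mod_cast hnpos
    have hMQ' : (0 : ℚ) < M := by exact_mod_cast hMpos
    rw [div_le_div_iff₀ hnQ hMQ'] at h1
    have h2 : M ≤ k * n := by
      have : (1 : ℚ) * M ≤ k * n := h1
      rw [one_mul] at this
      exact_mod_cast this
    have h3 : N * M ≤ N * (k * E') := Nat.mul_le_mul_left _ (h2.trans (Nat.mul_le_mul_left _ hcon))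
    have h4 : N * (k * E') = (N * k) * E' := by ring
    have h5 : (N * k) * E' ≤ (A * M) * E' := Nat.mul_le_mul_right _ (by omega)
    have h6 : (A * E') * M < N * M := Nat.mul_lt_mul_of_pos_right hAE hMpos
    have h7 : (A * M) * E' = (A * E') * M := by ring
    omega
  have hbig₂ : ∀ n ∈ S₃, E' < n := by
    intro n hn
    obtain ⟨x, hx, rfl⟩ := Finset.mem_image.1 hn
    by_contra hcon
    replace hcon := not_lt.1 hcon
    have hxpos := (hS₂p x hx).1
    have h1 : 1 / (x : ℚ) ≤ ((2 ^ (E + 1) * c : ℕ) : ℚ) / M := by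
      rw [← hS₂s]
      exact Finset.single_le_sum (f := fun x : ℕ => 1 / (x : ℚ)) (fun x _ => by positivity) hx
    have hnQ : (0 : ℚ) < x := by exact_mod_cast hxpos
    have hMQ' : (0 : ℚ) < M := by exact_mod_cast hMpos
    rw [div_le_div_iff₀ hnQ hMQ'] at h1
    have h2 : M ≤ (2 ^ (E + 1) * c) * x := by
      have : (1 : ℚ) * M ≤ ((2 ^ (E + 1) * c : ℕ) : ℚ) * x := h1
      rw [one_mul] at this
      exact_mod_cast this
    have h3 : N * M ≤ c * (2 ^ (E + 1) * N * x) := by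
      calc N * M ≤ N * ((2 ^ (E + 1) * c) * x) := Nat.mul_le_mul_left _ h2
        _ = _ := by ring
    have h4 : c * (2 ^ (E + 1) * N * x) ≤ c * E' := Nat.mul_le_mul_left _ hcon
    have h5 : c * E' ≤ (A * M) * E' := Nat.mul_le_mul_right _ (by omega)
    have h6 : (A * E') * M < N * M := Nat.mul_lt_mul_of_pos_right hAE hMpos
    have h7 : (A * M) * E' = (A * E') * M := by ring
    omega
  have hdisj₁ : Disjoint S₁ S₃ := by
    rw [Finset.disjoint_left]
    intro x hx hx'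
    obtain ⟨y, _, rfl⟩ := Finset.mem_image.1 hx'
    apply (hS₁p _ hx).2
    exact ⟨N * y, by ring⟩
  have hdisj₂ : Disjoint F (S₁ ∪ S₃) := by
    rw [Finset.disjoint_left]
    intro x hx hx'
    have h1 := (hF x hx).2
    rcases Finset.mem_union.1 hx' with h | h
    · have := hbig₁ x h
      omega
    · have := hbig₂ x h
      omega
  refine ⟨F ∪ (S₁ ∪ S₃), ?_, ?_, ?_⟩
  · intro n hn
    rcases Finset.mem_union.1 hn with h | h
    · exact (hF n h).1
    · rcases Finset.mem_union.1 h with h | h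
      · have := hbig₁ n h
        omega
      · have := hbig₂ n h
        omega
  · rw [Finset.sum_union hdisj₂, Finset.sum_union hdisj₁, ← hAN, hsum]
  · have h1 := Finset.card_union_le F (S₁ ∪ S₃)
    have h2 := Finset.card_union_le S₁ S₃
    have h3 : S₃.card ≤ S₂.card := Finset.card_image_le
    omega

/-- The construction, in natural-number form. -/
theorem egyptian_of_gA {g b a : ℕ} (hg : 30 ≤ g) (hb : b ≤ 2 ^ (2 ^ g)) (hab : a < b) :
    ∃ S : Finset ℕ, (∀ n ∈ S, 2 ≤ n) ∧ ∑ n ∈ S, (1 / (n : ℚ)) = (a : ℚ) / b ∧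
      S.card ≤ 2 * g + 1 + 2 * (512 * g + 5 + 1920 * (g - 4) + 30 * (3840 * g)) := by
  obtain ⟨G, hG, hGodd, hGb, hGc⟩ := exists_odd_rich_primes hg
  obtain ⟨O, B, h1, h2, h3, h4, _, h6⟩ := chain_finalA hg hG hGodd hGb hGc
  set D := ∏ p ∈ G, p with hD
  have hDpos : 0 < D := Finset.prod_pos (fun p hp => (hG p hp).pos)
  set P := 2 ^ g with hP
  have hP30 : 2 ^ 30 ≤ P := Nat.pow_le_pow_right (by norm_num) hg
  have h1000 : 1000 * g ^ 2 ≤ P := mul_sq_le_two_pow (by omega)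
  have hDv : D ≤ 2 ^ (960 * g ^ 2 * P) := by
    have := Finset.prod_le_pow_card G (fun p => p) (2 ^ (2 * g)) hGb
    rw [hGc, ← pow_mul] at this
    have e : 2 * g * (480 * g * 2 ^ g) = 960 * g ^ 2 * P := by
      rw [hP]
      ring
    rw [e] at this
    exact this
  have hDt : D ≤ 2 ^ (2 ^ (2 * g)) := by
    refine hDv.trans (Nat.pow_le_pow_right (by norm_num) ?_)
    have e : 2 ^ (2 * g) = P * P := by
      rw [hP, ← pow_add]
      congr 1
      ring
    rw [e]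
    exact Nat.mul_le_mul_right _ (by omega)
  set E := 512 * g + 5 + 320 * (g - 4) + 5 * (3840 * g) with hE
  set lam := 32 * g * P + 5 + 320 * (g - 4) + 3840 * g * (5 + 8 * g * 2 ^ (g - 4)) with hlam
  have hJP : 16 * 2 ^ (g - 4) = P := by
    have e : g = (g - 4) + 4 := by omega
    rw [hP]
    conv_rhs => rw [e, pow_add]
    ring
  have hbB : 2 ^ (E + 1) * (b * D ^ 2) ≤ B := by
    refine le_trans ?_ h4
    have hD2 : D ^ 2 ≤ 2 ^ (1920 * g ^ 2 * P) := by
      calc D ^ 2 ≤ (2 ^ (960 * g ^ 2 * P)) ^ 2 := Nat.pow_le_pow_left hDv 2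
        _ = 2 ^ (1920 * g ^ 2 * P) := by
          rw [← pow_mul]
          congr 1
          ring
    calc 2 ^ (E + 1) * (b * D ^ 2) ≤ 2 ^ (E + 1) * (2 ^ P * 2 ^ (1920 * g ^ 2 * P)) :=
          Nat.mul_le_mul_left _ (Nat.mul_le_mul hb hD2)
      _ = 2 ^ (E + 1 + P + 1920 * g ^ 2 * P) := by rw [pow_add, pow_add 2 (E + 1 + P), pow_add 2 (E + 1)]; ring
      _ ≤ 2 ^ lam := by
          apply Nat.pow_le_pow_right (by norm_num)
          have e1 : 3840 * g * (5 + 8 * g * 2 ^ (g - 4)) = 19200 * g + 1920 * g ^ 2 * P := by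
            rw [← hJP]
            ring
          rw [hlam, e1, hE]
          have h7 : g * 2 ^ 30 ≤ g * P := Nat.mul_le_mul_left _ hP30
          have h8 : 1 * P ≤ g * P := Nat.mul_le_mul_right _ (by omega)
          have e2 : 32 * g * P = 32 * (g * P) := by ring
          rw [e2]
          omega
  have := egyptian_of_PP h6 h3 hbB hDpos hDt hab
  exact this

end Vale.Agent.Lib.P012
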