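import Vale.Agent.Lib.P012.Greedy

namespace Vale.Agent.Lib.P012

open Finset

/-- Ordered pairs of elements of `X` congruent modulo `N`. -/
def eqSet (X : Finset ℕ) (N : ℕ) : Finset (ℕ × ℕ) :=
  (X ×ˢ X).filter (fun q => (N : ℤ) ∣ (q.1 : ℤ) - (q.2 : ℤ))

theorem eqSet_card_le (X : Finset ℕ) (N : ℕ) : (eqSet X N).card ≤ X.card + coll X N := by
  have hsub : eqSet X N ⊆ X.image (fun x => (x, x)) ∪ collSet X N := by
    intro q hq
    unfold eqSet at hq
    rw [Finset.mem_filter, Finset.mem_product] at hq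
    rw [Finset.mem_union]
    by_cases h : q.1 = q.2
    · left
      rw [Finset.mem_image]
      exact ⟨q.1, hq.1.1, by ext <;> simp [h]⟩
    · right
      unfold collSet
      rw [Finset.mem_filter, Finset.mem_product]
      exact ⟨hq.1, h, hq.2⟩
  calc _ ≤ _ := Finset.card_le_card hsub
    _ ≤ _ := Finset.card_union_le _ _
    _ ≤ _ := Nat.add_le_add_right Finset.card_image_le _

section Fourier

variable {w : ℕ} [NeZero w]

/-- The standard additive character of `ZMod w`. -/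
noncomputable abbrev psi (w : ℕ) [NeZero w] : AddChar (ZMod w) ℂ := ZMod.stdAddChar

theorem psi_norm (z : ZMod w) : ‖psi w z‖ = 1 := AddChar.norm_apply _ _

theorem psi_eq_one_iff (z : ZMod w) : psi w z = 1 ↔ z = 0 := by
  constructor
  · intro h
    apply ZMod.injective_stdAddChar
    rw [h]
    exact (AddChar.map_zero_eq_one _).symm
  · rintro rfl
    exact AddChar.map_zero_eq_one _

/-- The inner exponential sum. -/
noncomputable def Tsum (a : ZMod w) (Y : Finset ℕ) (r : ℕ) : ℂ :=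
  ∑ y ∈ Y, psi w (a * (r : ZMod w) * (y : ZMod w))

theorem geom_root {ζ : ℂ} {N : ℕ} (h : ζ ^ N = 1) :
    ∑ r ∈ range N, ζ ^ r = if ζ = 1 then (N : ℂ) else 0 := by
  split_ifs with h1
  · simp [h1]
  · rw [geom_sum_eq h1, h]
    simp

theorem sum_norm_sq_Tsum (a : ZMod w) (Y : Finset ℕ) {N : ℕ} (haN : a * (N : ZMod w) = 0) :
    ∑ r ∈ range N, ‖Tsum a Y r‖ ^ 2 =
      (N : ℝ) * ((Y ×ˢ Y).filter (fun q => a * ((q.1 : ZMod w) - (q.2 : ZMod w)) = 0)).card := by
  apply Complex.ofReal_injective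
  push_cast
  have h1 : ∀ r : ℕ, ((‖Tsum a Y r‖ : ℂ)) ^ 2 =
      ∑ q ∈ Y ×ˢ Y, (psi w (a * ((q.1 : ZMod w) - (q.2 : ZMod w)))) ^ r := by
    intro r
    rw [← Complex.mul_conj', Tsum, map_sum, Finset.sum_mul_sum, Finset.sum_product]
    apply Finset.sum_congr rfl
    intro y _
    apply Finset.sum_congr rfl
    intro y' _
    rw [← AddChar.map_neg_eq_conj, ← AddChar.map_add_eq_mul, ← AddChar.map_nsmul_eq_pow]
    congr 1
    rw [nsmul_eq_mul]
    ring
  simp only [h1]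
  rw [Finset.sum_comm]
  have h2 : ∀ q ∈ Y ×ˢ Y, ∑ r ∈ range N, (psi w (a * ((q.1 : ZMod w) - (q.2 : ZMod w)))) ^ r =
      if a * ((q.1 : ZMod w) - (q.2 : ZMod w)) = 0 then (N : ℂ) else 0 := by
    intro q _
    rw [geom_root]
    · simp only [psi_eq_one_iff]
    · rw [← AddChar.map_nsmul_eq_pow, nsmul_eq_mul]
      have : (N : ZMod w) * (a * ((q.1 : ZMod w) - (q.2 : ZMod w))) = 0 := by
        calc _ = (a * (N : ZMod w)) * ((q.1 : ZMod w) - (q.2 : ZMod w)) := by ring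
          _ = 0 := by rw [haN, zero_mul]
      rw [this]
      exact AddChar.map_zero_eq_one _
  rw [Finset.sum_congr rfl h2, Finset.sum_ite, Finset.sum_const_zero, add_zero, Finset.sum_const,
    nsmul_eq_mul, mul_comm]

theorem sum_card_fiber_sq_le (X : Finset ℕ) {N : ℕ} (hN : 0 < N) :
    ∑ r ∈ range N, ((X.filter (fun x => x % N = r)).card) ^ 2 ≤ (eqSet X N).card := by
  have hmaps : ∀ q ∈ eqSet X N, q.1 % N ∈ range N := fun q _ =>
    Finset.mem_range.2 (Nat.mod_lt _ hN)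
  rw [Finset.card_eq_sum_card_fiberwise hmaps]
  apply Finset.sum_le_sum
  intro r _
  rw [sq, ← Finset.card_product]
  apply Finset.card_le_card
  intro q hq
  rw [Finset.mem_product, Finset.mem_filter, Finset.mem_filter] at hq
  rw [Finset.mem_filter]
  refine ⟨?_, hq.1.2⟩
  unfold eqSet
  rw [Finset.mem_filter, Finset.mem_product]
  refine ⟨⟨hq.1.1, hq.2.1⟩, ?_⟩
  have : q.2 ≡ q.1 [MOD N] := by
    unfold Nat.ModEq
    rw [hq.1.2, hq.2.2]
  exact (Nat.modEq_iff_dvd).1 this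

theorem Tsum_mod (a : ZMod w) (Y : Finset ℕ) {N : ℕ} (haN : a * (N : ZMod w) = 0) (x : ℕ) :
    Tsum a Y x = Tsum a Y (x % N) := by
  unfold Tsum
  apply Finset.sum_congr rfl
  intro y _
  congr 2
  have h : (x : ZMod w) = ((x % N : ℕ) : ZMod w) + (N : ZMod w) * ((x / N : ℕ) : ZMod w) := by
    calc (x : ZMod w) = ((x % N + N * (x / N) : ℕ) : ZMod w) := by rw [Nat.mod_add_div]
      _ = _ := by push_cast; rfl
  calc a * (x : ZMod w)
      = a * ((x % N : ℕ) : ZMod w) + (a * (N : ZMod w)) * ((x / N : ℕ) : ZMod w) := by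
        rw [h]
        ring
    _ = _ := by rw [haN]; ring

/-- The bilinear bound. -/
theorem bilinear_bound (a : ZMod w) (X Y : Finset ℕ) {N : ℕ} (hN : 0 < N)
    (haN : a * (N : ZMod w) = 0) :
    ‖∑ x ∈ X, ∑ y ∈ Y, psi w (a * (x : ZMod w) * (y : ZMod w))‖ ^ 2 ≤
      ((eqSet X N).card : ℝ) *
        ((N : ℝ) * ((Y ×ˢ Y).filter (fun q => a * ((q.1 : ZMod w) - (q.2 : ZMod w)) = 0)).card) := by
  have hS : ∑ x ∈ X, ∑ y ∈ Y, psi w (a * (x : ZMod w) * (y : ZMod w)) =
      ∑ r ∈ range N, ((X.filter (fun x => x % N = r)).card : ℂ) * Tsum a Y r := by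
    have hmaps : ∀ x ∈ X, x % N ∈ range N := fun x _ => Finset.mem_range.2 (Nat.mod_lt _ hN)
    rw [← Finset.sum_fiberwise_of_maps_to hmaps]
    apply Finset.sum_congr rfl
    intro r _
    rw [← nsmul_eq_mul, ← Finset.sum_const]
    apply Finset.sum_congr rfl
    intro x hx
    rw [(Finset.mem_filter.1 hx).2.symm, ← Tsum_mod a Y haN x]
    rfl
  rw [hS, ← sum_norm_sq_Tsum a Y haN]
  have h1 : ‖∑ r ∈ range N, ((X.filter (fun x => x % N = r)).card : ℂ) * Tsum a Y r‖ ≤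
      ∑ r ∈ range N, ((X.filter (fun x => x % N = r)).card : ℝ) * ‖Tsum a Y r‖ := by
    refine (norm_sum_le _ _).trans (le_of_eq ?_)
    apply Finset.sum_congr rfl
    intro r _
    rw [norm_mul, Complex.norm_natCast]
  have h2 := Finset.sum_mul_sq_le_sq_mul_sq (range N)
    (fun r => ((X.filter (fun x => x % N = r)).card : ℝ)) (fun r => ‖Tsum a Y r‖)
  have h3 : ∑ r ∈ range N, ((X.filter (fun x => x % N = r)).card : ℝ) ^ 2 ≤ (eqSet X N).card := by
    exact_mod_cast sum_card_fiber_sq_le X hN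
  calc _ ≤ (∑ r ∈ range N, ((X.filter (fun x => x % N = r)).card : ℝ) * ‖Tsum a Y r‖) ^ 2 :=
        pow_le_pow_left₀ (norm_nonneg _) h1 2
    _ ≤ _ := h2
    _ ≤ _ := by
      apply mul_le_mul_of_nonneg_right h3
      exact Finset.sum_nonneg (fun _ _ => by positivity)

end Fourier

end Vale.Agent.Lib.P012
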