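import Vale.Agent.Lib.P012.Primes

namespace Vale.Agent.Lib.P012

open Finset

/-- Ordered pairs of distinct elements of `X` whose difference is divisible by `d`. -/
def collSet (X : Finset ℕ) (d : ℕ) : Finset (ℕ × ℕ) :=
  (X ×ˢ X).filter (fun q => q.1 ≠ q.2 ∧ (d : ℤ) ∣ (q.1 : ℤ) - (q.2 : ℤ))

/-- Number of colliding pairs. -/
def coll (X : Finset ℕ) (d : ℕ) : ℕ := (collSet X d).card

theorem coll_le (X : Finset ℕ) (d : ℕ) : coll X d ≤ X.card ^ 2 := by
  unfold coll collSet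
  calc _ ≤ (X ×ˢ X).card := Finset.card_filter_le _ _
    _ = X.card ^ 2 := by rw [Finset.card_product, sq]

variable {J : Type*} [Fintype J]

/-- Total number of collisions modulo the product of `I`. -/
def collSum (X : J → Finset ℕ) (I : Finset ℕ) : ℕ := ∑ j, coll (X j) (∏ p ∈ I, p)

/-- The potential. -/
def Psi (X : J → Finset ℕ) (Γ : ℕ) (L : Finset ℕ) : ℕ :=
  ∑ I ∈ L.powerset, Γ ^ I.card * collSum X I

theorem Psi_empty (X : J → Finset ℕ) (Γ : ℕ) : Psi X Γ ∅ = collSum X ∅ := by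
  simp [Psi]

theorem Psi_insert (X : J → Finset ℕ) (Γ : ℕ) {L : Finset ℕ} {ℓ : ℕ} (hℓ : ℓ ∉ L) :
    Psi X Γ (insert ℓ L) =
      Psi X Γ L + Γ * ∑ I ∈ L.powerset, Γ ^ I.card * collSum X (insert ℓ I) := by
  unfold Psi
  rw [Finset.sum_powerset_insert hℓ, Finset.mul_sum]
  congr 1
  apply Finset.sum_congr rfl
  intro I hI
  have hℓI : ℓ ∉ I := fun h => hℓ (Finset.mem_powerset.1 hI h)
  rw [Finset.card_insert_of_notMem hℓI, pow_succ]
  ring

/-- A nonzero difference of numbers at most `2 ^ v` has at most `v` prime factors in `B`. -/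
theorem card_primes_dvd_diff_le {B : Finset ℕ} (hB : ∀ p ∈ B, p.Prime) {v x x' : ℕ}
    (hx : x ≤ 2 ^ v) (hx' : x' ≤ 2 ^ v) (hne : x ≠ x') :
    (B.filter (fun ℓ : ℕ => (ℓ : ℤ) ∣ (x : ℤ) - (x' : ℤ))).card ≤ v := by
  have hN : ((x : ℤ) - x').natAbs ≠ 0 := by
    rw [Int.natAbs_ne_zero]
    omega
  have hNv : ((x : ℤ) - x').natAbs ≤ 2 ^ v := by omega
  have := card_filter_dvd_le hB hN hNv
  convert this using 3
  exact Int.natCast_dvd

theorem sum_coll_insert_le {B : Finset ℕ} (hB : ∀ p ∈ B, p.Prime) (X : Finset ℕ) {v : ℕ}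
    (hX : ∀ x ∈ X, x ≤ 2 ^ v) (I : Finset ℕ) (hBI : ∀ p ∈ B, p ∉ I) :
    ∑ ℓ ∈ B, coll X (∏ p ∈ insert ℓ I, p) ≤ v * coll X (∏ p ∈ I, p) := by
  have h1 : ∀ ℓ ∈ B, coll X (∏ p ∈ insert ℓ I, p) ≤
      ((collSet X (∏ p ∈ I, p)).filter (fun q => (ℓ : ℤ) ∣ (q.1 : ℤ) - (q.2 : ℤ))).card := by
    intro ℓ hℓ
    apply Finset.card_le_card
    intro q hq
    rw [Finset.prod_insert (hBI ℓ hℓ)] at hq
    unfold collSet at hq ⊢
    rw [Finset.mem_filter] at hq ⊢
    rw [Finset.mem_filter]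
    obtain ⟨h1, h2, h3⟩ := hq
    push_cast at h3
    exact ⟨⟨h1, h2, by
      push_cast
      exact (Dvd.intro_left _ rfl).trans h3⟩, (Dvd.intro _ rfl).trans h3⟩
  calc ∑ ℓ ∈ B, coll X (∏ p ∈ insert ℓ I, p)
      ≤ ∑ ℓ ∈ B, ((collSet X (∏ p ∈ I, p)).filter
          (fun q => (ℓ : ℤ) ∣ (q.1 : ℤ) - (q.2 : ℤ))).card := Finset.sum_le_sum h1
    _ = ∑ q ∈ collSet X (∏ p ∈ I, p),
          (B.filter (fun ℓ : ℕ => (ℓ : ℤ) ∣ (q.1 : ℤ) - (q.2 : ℤ))).card := by
        simp only [Finset.card_filter]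
        rw [Finset.sum_comm]
    _ ≤ ∑ _q ∈ collSet X (∏ p ∈ I, p), v := by
        apply Finset.sum_le_sum
        intro q hq
        unfold collSet at hq
        rw [Finset.mem_filter, Finset.mem_product] at hq
        exact card_primes_dvd_diff_le hB (hX _ hq.1.1) (hX _ hq.1.2) hq.2.1
    _ = v * coll X (∏ p ∈ I, p) := by
        rw [Finset.sum_const, smul_eq_mul, mul_comm]
        rfl

theorem sum_collSum_insert_le {B : Finset ℕ} (hB : ∀ p ∈ B, p.Prime) (X : J → Finset ℕ) {v : ℕ}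
    (hX : ∀ j, ∀ x ∈ X j, x ≤ 2 ^ v) (I : Finset ℕ) (hBI : ∀ p ∈ B, p ∉ I) :
    ∑ ℓ ∈ B, collSum X (insert ℓ I) ≤ v * collSum X I := by
  unfold collSum
  rw [Finset.sum_comm, Finset.mul_sum]
  exact Finset.sum_le_sum (fun j _ => sum_coll_insert_le hB (X j) (hX j) I hBI)

/-- Greedy step: some `ℓ` in `B` increases the potential by a relative amount at most `1 / (2c)`. -/
theorem greedy_step {B L : Finset ℕ} (hB : ∀ p ∈ B, p.Prime) (hBL : ∀ p ∈ B, p ∉ L)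
    (X : J → Finset ℕ) {v c Γ : ℕ} (hX : ∀ j, ∀ x ∈ X j, x ≤ 2 ^ v) (hΓ : 0 < Γ) (hv : 0 < v)
    (hc : 0 < c) (hcard : 2 * c * Γ * v ≤ B.card) :
    ∃ ℓ ∈ B, 2 * c * (Psi X Γ (insert ℓ L) - Psi X Γ L) ≤ Psi X Γ L ∧
      Psi X Γ L ≤ Psi X Γ (insert ℓ L) := by
  set Δ : ℕ → ℕ := fun ℓ => Γ * ∑ I ∈ L.powerset, Γ ^ I.card * collSum X (insert ℓ I) with hΔ
  have hBne : B.Nonempty := by
    rw [← Finset.card_pos]
    have : 0 < 2 * c * Γ * v := by positivity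
    omega
  obtain ⟨ℓ, hℓ, hmin⟩ := Finset.exists_min_image B Δ hBne
  have hsum : ∑ x ∈ B, Δ x ≤ Γ * v * Psi X Γ L := by
    simp only [hΔ]
    rw [← Finset.mul_sum, Finset.sum_comm, mul_assoc]
    apply Nat.mul_le_mul_left
    unfold Psi
    rw [Finset.mul_sum]
    apply Finset.sum_le_sum
    intro I hI
    rw [← Finset.mul_sum]
    have h1 := sum_collSum_insert_le hB X hX I
      (fun p hp hpI => hBL p hp (Finset.mem_powerset.1 hI hpI))
    calc Γ ^ I.card * ∑ i ∈ B, collSum X (insert i I)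
        ≤ Γ ^ I.card * (v * collSum X I) := Nat.mul_le_mul_left _ h1
      _ = v * (Γ ^ I.card * collSum X I) := by ring
  have hle : B.card * Δ ℓ ≤ ∑ x ∈ B, Δ x := by
    have := Finset.card_nsmul_le_sum B Δ (Δ ℓ) hmin
    simpa using this
  have hins := Psi_insert X Γ (hBL ℓ hℓ)
  refine ⟨ℓ, hℓ, ?_, ?_⟩
  · rw [hins, Nat.add_sub_cancel_left]
    have h2 : (Γ * v) * (2 * c * Δ ℓ) ≤ (Γ * v) * Psi X Γ L := by
      calc (Γ * v) * (2 * c * Δ ℓ) = (2 * c * Γ * v) * Δ ℓ := by ring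
        _ ≤ B.card * Δ ℓ := Nat.mul_le_mul_right _ hcard
        _ ≤ _ := hle.trans hsum
    exact Nat.le_of_mul_le_mul_left h2 (by positivity)
  · rw [hins]
    exact Nat.le_add_right _ _

/-- Greedy iteration. -/
theorem greedy_iter {A : Finset ℕ} (hA : ∀ p ∈ A, p.Prime) (X : J → Finset ℕ) {v c Γ : ℕ}
    (hX : ∀ j, ∀ x ∈ X j, x ≤ 2 ^ v) (hΓ : 0 < Γ) (hv : 0 < v) (hc : 0 < c)
    (hcard : 2 * c * Γ * v + c ≤ A.card) (k : ℕ) (hk : k ≤ c) :
    ∃ L ⊆ A, L.card = k ∧ c * Psi X Γ L ≤ (c + k) * Psi X Γ ∅ := by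
  induction k with
  | zero => exact ⟨∅, by simp, by simp, by simp⟩
  | succ k ih =>
    obtain ⟨L, hLA, hLk, hL⟩ := ih (by omega)
    have hBcard : 2 * c * Γ * v ≤ (A \ L).card := by
      have := Finset.card_sdiff_of_subset hLA
      omega
    obtain ⟨ℓ, hℓ, h1, h2⟩ := greedy_step (B := A \ L) (L := L)
      (fun p hp => hA p (Finset.mem_sdiff.1 hp).1) (fun p hp => (Finset.mem_sdiff.1 hp).2)
      X hX hΓ hv hc hBcard
    rw [Finset.mem_sdiff] at hℓ
    refine ⟨insert ℓ L, Finset.insert_subset hℓ.1 hLA, ?_, ?_⟩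
    · rw [Finset.card_insert_of_notMem hℓ.2, hLk]
    · clear ih
      generalize Psi X Γ (insert ℓ L) = b at *
      generalize Psi X Γ L = a at *
      generalize Psi X Γ ∅ = z at *
      obtain ⟨δ, rfl⟩ : ∃ δ, b = a + δ := ⟨b - a, by omega⟩
      rw [Nat.add_sub_cancel_left] at h1
      have h3 : c * a ≤ c * (2 * z) := by
        calc c * a ≤ (c + k) * z := hL
          _ ≤ (c + c) * z := by
            apply Nat.mul_le_mul_right
            omega
          _ = c * (2 * z) := by ring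
      have h4 : a ≤ 2 * z := Nat.le_of_mul_le_mul_left h3 hc
      have h5 : c * δ ≤ z := by
        have : 2 * (c * δ) ≤ 2 * z := by
          calc 2 * (c * δ) = 2 * c * δ := by ring
            _ ≤ a := h1
            _ ≤ 2 * z := h4
        omega
      calc c * (a + δ) = c * a + c * δ := by ring
        _ ≤ (c + k) * z + z := add_le_add hL h5
        _ = (c + (k + 1)) * z := by ring

/-- The outcome of the greedy selection: a set `L` of `c` primes in `A` along which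
all collision numbers stay small. -/
theorem greedy_select {A : Finset ℕ} (hA : ∀ p ∈ A, p.Prime) (X : J → Finset ℕ) {v c Γ n : ℕ}
    (hX : ∀ j, ∀ x ∈ X j, x ≤ 2 ^ v) (hXn : ∀ j, (X j).card = n) (hΓ : 0 < Γ) (hv : 0 < v)
    (hc : 0 < c) (hcard : 2 * c * Γ * v + c ≤ A.card) :
    ∃ L ⊆ A, L.card = c ∧ ∀ I ⊆ L, ∀ j,
      Γ ^ I.card * coll (X j) (∏ p ∈ I, p) ≤ 2 * Fintype.card J * n ^ 2 := by
  obtain ⟨L, hLA, hLc, hL⟩ := greedy_iter hA X hX hΓ hv hc hcard c le_rfl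
  refine ⟨L, hLA, hLc, ?_⟩
  intro I hI j
  have h1 : Psi X Γ L ≤ 2 * Psi X Γ ∅ := by
    have : c * Psi X Γ L ≤ c * (2 * Psi X Γ ∅) := by
      calc _ ≤ _ := hL
        _ = _ := by ring
    exact Nat.le_of_mul_le_mul_left this hc
  have h2 : Psi X Γ ∅ ≤ Fintype.card J * n ^ 2 := by
    rw [Psi_empty]
    unfold collSum
    calc ∑ j, coll (X j) (∏ p ∈ ∅, p) ≤ ∑ j : J, n ^ 2 := by
          apply Finset.sum_le_sum
          intro j _
          have := coll_le (X j) (∏ p ∈ ∅, p)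
          rwa [hXn j] at this
      _ = _ := by simp
  have h3 : Γ ^ I.card * coll (X j) (∏ p ∈ I, p) ≤ Psi X Γ L := by
    unfold Psi
    have hmem : I ∈ L.powerset := Finset.mem_powerset.2 hI
    refine le_trans ?_ (Finset.single_le_sum (f := fun I => Γ ^ I.card * collSum X I)
      (fun _ _ => Nat.zero_le _) hmem)
    apply Nat.mul_le_mul_left
    unfold collSum
    exact Finset.single_le_sum (f := fun j => coll (X j) (∏ p ∈ I, p))
      (fun _ _ => Nat.zero_le _) (Finset.mem_univ j)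
  calc _ ≤ _ := h3
    _ ≤ _ := h1
    _ ≤ 2 * (Fintype.card J * n ^ 2) := Nat.mul_le_mul_left _ h2
    _ = _ := by ring

end Vale.Agent.Lib.P012
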