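import Vale.Agent.Lib.P012.Main1

namespace Vale.Agent.Lib.P012

open Finset

theorem sum_le_prod_of_two_le {ι : Type*} (s : Finset ι) (f : ι → ℕ) (hf : ∀ i ∈ s, 2 ≤ f i) :
    ∑ i ∈ s, f i ≤ ∏ i ∈ s, f i := by
  classical
  induction s using Finset.induction_on with
  | empty => simp
  | insert a s ha ih =>
    rw [Finset.sum_insert ha, Finset.prod_insert ha]
    have h1 := ih (fun i hi => hf i (Finset.mem_insert_of_mem hi))
    have h2 := hf a (Finset.mem_insert_self _ _)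
    rcases s.eq_empty_or_nonempty with rfl | hne
    · simp
    · obtain ⟨b, hb⟩ := hne
      have h3 : 2 ≤ ∏ i ∈ s, f i := by
        have h4 := hf b (Finset.mem_insert_of_mem hb)
        have h5 : f b ∣ ∏ i ∈ s, f i := Finset.dvd_prod_of_mem f hb
        have h6 : 0 < ∏ i ∈ s, f i :=
          Finset.prod_pos (fun i hi => by
            have := hf i (Finset.mem_insert_of_mem hi)
            omega)
        exact h4.trans (Nat.le_of_dvd h6 h5)
      nlinarith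

/-- One level: adjoin `c` new primes and pay five more divisors. -/
theorem one_level {V T vs r c n : ℕ} (hV : 0 < V) (hVv : V ≤ 2 ^ vs) (hvs : 0 < vs) (hc : 0 < c)
    (X : Fin 5 × Bool → Finset ℕ) (P : Fin 5 × Bool → ℕ)
    (hXn : ∀ j, (X j).card = n) (hn : 0 < n)
    (hXP : ∀ j, ∀ x ∈ X j, x ∣ P j ∧ 2 ≤ x)
    (hPco : ∀ i i' : Fin 5, i ≠ i' →
      Nat.Coprime (P (i, false) * P (i, true)) (P (i', false) * P (i', true)))
    (hPV : ∏ i, (P (i, false) * P (i, true)) ∣ V)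
    (hnΓ : (2 ^ (3 * r)) ^ c ≤ n)
    (hr : 2 * c * 21 ^ 5 < 2 ^ r)
    (hπ : 2 * c * 2 ^ (3 * r) * vs + c + vs + 1 ≤ (Nat.primesLE (2 ^ (4 * r))).card)
    (hR : Rep V T) :
    ∃ L : Finset ℕ, L.card = c ∧ (∀ ℓ ∈ L, ℓ.Prime ∧ ℓ ≠ 3 ∧ Nat.Coprime ℓ V ∧ ℓ ≤ 2 ^ (4 * r)) ∧
      Rep ((∏ ℓ ∈ L, ℓ) * V) (T + 5) := by
  classical
  set A := Nat.primesLE (2 ^ (4 * r)) \ insert 3 V.primeFactors with hA
  have hAprime : ∀ p ∈ A, p.Prime :=
    fun p hp => Nat.prime_of_mem_primesLE (Finset.mem_sdiff.1 hp).1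
  have hAcard : 2 * c * 2 ^ (3 * r) * vs + c ≤ A.card := by
    have h1 : (Nat.primesLE (2 ^ (4 * r))).card - (insert 3 V.primeFactors).card ≤ A.card :=
      Finset.le_card_sdiff _ _
    have h2 : (insert 3 V.primeFactors).card ≤ vs + 1 := by
      refine (Finset.card_insert_le _ _).trans ?_
      have := card_primeFactors_le hV.ne' hVv
      omega
    omega
  have hXv : ∀ j, ∀ x ∈ X j, x ≤ 2 ^ vs := by
    rintro ⟨i, b⟩ x hx
    have h1 : x ∣ P (i, b) := (hXP _ x hx).1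
    have h2 : P (i, b) ∣ P (i, false) * P (i, true) := by
      cases b
      · exact Dvd.intro _ rfl
      · exact Dvd.intro_left _ rfl
    have h3 : P (i, false) * P (i, true) ∣ V :=
      (Finset.dvd_prod_of_mem (fun i => P (i, false) * P (i, true)) (Finset.mem_univ i)).trans hPV
    exact (Nat.le_of_dvd hV (h1.trans (h2.trans h3))).trans hVv
  obtain ⟨L, hLA, hLc, hLcoll⟩ := greedy_select hAprime X hXv hXn (by positivity) hvs hc hAcard
  have hcard10 : Fintype.card (Fin 5 × Bool) = 10 := by simp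
  rw [hcard10] at hLcoll
  have hLprime : ∀ ℓ ∈ L, ℓ.Prime := fun ℓ hℓ => hAprime ℓ (hLA hℓ)
  have hLprops : ∀ ℓ ∈ L, ℓ.Prime ∧ ℓ ≠ 3 ∧ Nat.Coprime ℓ V ∧ ℓ ≤ 2 ^ (4 * r) := by
    intro ℓ hℓ
    have h1 := Finset.mem_sdiff.1 (hLA hℓ)
    have h2 := hLprime ℓ hℓ
    refine ⟨h2, ?_, ?_, Nat.le_of_mem_primesLE h1.1⟩
    · rintro rfl
      exact h1.2 (Finset.mem_insert_self _ _)
    · rw [Nat.Prime.coprime_iff_not_dvd h2]
      intro hd
      apply h1.2
      apply Finset.mem_insert_of_mem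
      exact Nat.mem_primeFactors.2 ⟨h2, hd, hV.ne'⟩
  refine ⟨L, hLc, hLprops, ?_⟩
  set w := ∏ ℓ ∈ L, ℓ with hw
  have hLne : L.Nonempty := by
    rw [← Finset.card_pos]
    omega
  have hw2 : 2 ≤ w := by
    obtain ⟨ℓ, hℓ⟩ := hLne
    have h1 : ℓ ∣ w := Finset.dvd_prod_of_mem (fun ℓ => ℓ) hℓ
    have h2 : 0 < w := Finset.prod_pos (fun ℓ hℓ => (hLprime ℓ hℓ).pos)
    exact (hLprime ℓ hℓ).two_le.trans (Nat.le_of_dvd h2 h1)
  have : NeZero w := ⟨by omega⟩
  have hco : Nat.Coprime w V := Nat.Coprime.prod_left (fun ℓ hℓ => (hLprops ℓ hℓ).2.2.1)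
  apply Rep.level hV hw2 hco _ hR
  intro s hs
  obtain ⟨p, hp1, hp2⟩ := fourier_cover (w := w) hLprime hw
    (fun ℓ hℓ => (hLprops ℓ hℓ).2.2.2) hLc.le X hXn hn hnΓ hLcoll hr (s : ZMod w)
  set d : Fin 5 → ℕ := fun i => (p i).1 * (p i).2 with hd
  have hd1 : ∀ i, d i ∣ P (i, false) * P (i, true) := fun i =>
    Nat.mul_dvd_mul (hXP _ _ (hp1 i).1).1 (hXP _ _ (hp1 i).2).1
  have hd2 : ∀ i, 2 ≤ d i := fun i => by
    have h1 := (hXP _ _ (hp1 i).1).2
    have h2 := (hXP _ _ (hp1 i).2).2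
    calc 2 ≤ (p i).1 := h1
      _ ≤ (p i).1 * (p i).2 := Nat.le_mul_of_pos_right _ (by omega)
  have hdinj : Function.Injective d := by
    intro i i' hii'
    by_contra hne
    have h1 := hPco i i' hne
    have h2 : d i ∣ P (i', false) * P (i', true) := hii' ▸ hd1 i'
    have h3 : d i ∣ 1 := by
      have := Nat.dvd_gcd (hd1 i) h2
      rwa [h1] at this
    have h4 := Nat.le_of_dvd (by norm_num) h3
    have h5 := hd2 i
    omega
  have hPi2 : ∀ i, 2 ≤ P (i, false) * P (i, true) := by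
    intro i
    have h1 : 0 < ∏ i, (P (i, false) * P (i, true)) := Nat.pos_of_dvd_of_pos hPV hV
    have h2 : P (i, false) * P (i, true) ∣ ∏ i, (P (i, false) * P (i, true)) :=
      Finset.dvd_prod_of_mem (fun i => P (i, false) * P (i, true)) (Finset.mem_univ i)
    have h3 : 0 < P (i, false) * P (i, true) := Nat.pos_of_dvd_of_pos h2 h1
    exact (hd2 i).trans (Nat.le_of_dvd h3 (hd1 i))
  refine ⟨Finset.univ.image d, ?_, ?_, ?_, ?_⟩
  · intro x hx
    obtain ⟨i, _, rfl⟩ := Finset.mem_image.1 hx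
    exact (hd1 i).trans
      ((Finset.dvd_prod_of_mem (fun i => P (i, false) * P (i, true)) (Finset.mem_univ i)).trans hPV)
  · simpa using Finset.card_image_le (s := (Finset.univ : Finset (Fin 5))) (f := d)
  · rw [Finset.sum_image (fun i _ j _ h => hdinj h)]
    have hP0 : ∀ i, d i ≤ P (i, false) * P (i, true) := fun i =>
      Nat.le_of_dvd (by have := hPi2 i; omega) (hd1 i)
    calc ∑ i, d i ≤ ∑ i, P (i, false) * P (i, true) := Finset.sum_le_sum (fun i _ => hP0 i)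
      _ ≤ ∏ i, P (i, false) * P (i, true) := sum_le_prod_of_two_le _ _ (fun i _ => hPi2 i)
      _ ≤ V := Nat.le_of_dvd hV hPV
  · rw [Finset.sum_image (fun i _ j _ h => hdinj h)]
    have h1 : ((∑ i, d i : ℕ) : ZMod w) = (s : ZMod w) := by
      rw [← hp2]
      simp only [hd, Nat.cast_sum, Nat.cast_mul]
    have h2 := (ZMod.natCast_eq_natCast_iff' _ _ _).1 h1
    rw [h2, Nat.mod_eq_of_lt hs]

end Vale.Agent.Lib.P012
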