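import Vale.Agent.Lib.P012.Atoms

namespace Vale.Agent.Lib.P012

open Finset

/-- Every `m / M` with `m < B` is a sum of at most `T` distinct unit fractions, all of whose
denominators are not divisible by `2 ^ (E + 1)`. -/
def PP (M B T E : ℕ) : Prop :=
  ∀ m < B, ∃ S : Finset ℕ, (∀ n ∈ S, 0 < n ∧ ¬ 2 ^ (E + 1) ∣ n) ∧ S.card ≤ T ∧
    ∑ n ∈ S, (1 / (n : ℚ)) = (m : ℚ) / M

theorem PP.mono {M B T T' E : ℕ} (h : PP M B T E) (hT : T ≤ T') : PP M B T' E := by
  intro m hm
  obtain ⟨S, h1, h2, h3⟩ := h m hm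
  exact ⟨S, h1, h2.trans hT, h3⟩

/-- Atoms with the factor trick: a fraction `u / (2 ^ a * w * O)` with `u` an atom is a sum of at
most five unit fractions whose denominators have `2`-adic valuation exactly `a` and are
divisible by `w`. -/
theorem atom_terms {V u O w : ℕ} (a : ℕ) (h : Atom V u) (hVO : V ∣ O) (hO : Odd O) (hw : Odd w) :
    ∃ A : Finset ℕ, A.card ≤ 5 ∧ ∑ n ∈ A, (1 / (n : ℚ)) = (u : ℚ) / (2 ^ a * w * O) ∧
      ∀ n ∈ A, 0 < n ∧ 2 ^ a ∣ n ∧ ¬ 2 ^ (a + 1) ∣ n ∧ w ∣ n := by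
  classical
  obtain ⟨d, hinj, hdV, hdodd, f, hf⟩ := h
  have hSodd : Odd (∑ h, d h) := by
    rw [Fin.sum_univ_five]
    obtain ⟨a0, h0⟩ := hdodd 0
    obtain ⟨a1, h1⟩ := hdodd 1
    obtain ⟨a2, h2⟩ := hdodd 2
    obtain ⟨a3, h3⟩ := hdodd 3
    obtain ⟨a4, h4⟩ := hdodd 4
    exact ⟨a0 + a1 + a2 + a3 + a4 + 2, by omega⟩
  rw [hf] at hSodd
  obtain ⟨huodd, hfodd⟩ := Nat.odd_mul.1 hSodd
  have hupos : 0 < u := huodd.pos
  have hfpos : 0 < f := hfodd.pos
  have hOpos : 0 < O := hO.pos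
  have hwpos : 0 < w := hw.pos
  have hdO : ∀ h, d h ∣ O := fun h => (hdV h).trans hVO
  have hdpos : ∀ h, 0 < d h := fun h => (hdodd h).pos
  have hqodd : ∀ h, Odd (O / d h) := by
    intro h
    have e : d h * (O / d h) = O := Nat.mul_div_cancel' (hdO h)
    rw [← e] at hO
    exact (Nat.odd_mul.1 hO).2
  have hqpos : ∀ h, 0 < O / d h := fun h => (hqodd h).pos
  set n : Fin 5 → ℕ := fun h => f * (2 ^ a * w * (O / d h)) with hn
  have hnpos : ∀ h, 0 < n h := fun h => by
    have := hqpos h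
    positivity
  have hninj : Function.Injective n := by
    intro h h' e
    simp only [hn] at e
    have e1 : f * (2 ^ a * w) * (O / d h) = f * (2 ^ a * w) * (O / d h') := by
      calc _ = f * (2 ^ a * w * (O / d h)) := by ring
        _ = f * (2 ^ a * w * (O / d h')) := e
        _ = _ := by ring
    have e2 : O / d h = O / d h' := Nat.eq_of_mul_eq_mul_left (by positivity) e1
    apply hinj
    have e3 : d h * (O / d h) = O := Nat.mul_div_cancel' (hdO h)
    have e4 : d h' * (O / d h') = O := Nat.mul_div_cancel' (hdO h')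
    rw [e2] at e3
    exact Nat.eq_of_mul_eq_mul_right (hqpos h') (e3.trans e4.symm)
  have hterm : ∀ h, 1 / (n h : ℚ) = (d h : ℚ) / (f * (2 ^ a * w * O)) := by
    intro h
    have e3 : ((O : ℕ) : ℚ) = d h * ((O / d h : ℕ) : ℚ) := by
      conv_lhs => rw [← Nat.mul_div_cancel' (hdO h)]
      push_cast
      ring
    have hd0 : (d h : ℚ) ≠ 0 := by exact_mod_cast (hdpos h).ne'
    have hq0 : ((O / d h : ℕ) : ℚ) ≠ 0 := by exact_mod_cast (hqpos h).ne'
    have hf0 : (f : ℚ) ≠ 0 := by exact_mod_cast hfpos.ne'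
    have hw0 : (w : ℚ) ≠ 0 := by exact_mod_cast hwpos.ne'
    simp only [hn]
    push_cast
    rw [e3]
    field_simp
  refine ⟨Finset.univ.image n, ?_, ?_, ?_⟩
  · simpa using Finset.card_image_le (s := (Finset.univ : Finset (Fin 5))) (f := n)
  · rw [Finset.sum_image (fun i _ j _ e => hninj e)]
    simp_rw [hterm]
    rw [← Finset.sum_div, ← Nat.cast_sum, hf]
    have hu0 : (u : ℚ) ≠ 0 := by exact_mod_cast hupos.ne'
    have hf0 : (f : ℚ) ≠ 0 := by exact_mod_cast hfpos.ne'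
    have hw0 : (w : ℚ) ≠ 0 := by exact_mod_cast hwpos.ne'
    have hO0 : (O : ℚ) ≠ 0 := by exact_mod_cast hOpos.ne'
    push_cast
    field_simp
  · intro x hx
    obtain ⟨h, _, rfl⟩ := Finset.mem_image.1 hx
    refine ⟨hnpos h, ?_, ?_, ?_⟩
    · exact ⟨f * w * (O / d h), by simp only [hn]; ring⟩
    · intro hdvd
      have e : n h = 2 ^ a * (f * w * (O / d h)) := by simp only [hn]; ring
      rw [e, pow_succ] at hdvd
      have h2 : 2 ∣ f * w * (O / d h) := (Nat.mul_dvd_mul_iff_left (by positivity)).1 hdvd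
      have hoddall : Odd (f * w * (O / d h)) := (hfodd.mul hw).mul (hqodd h)
      exact (Nat.not_even_iff_odd.2 hoddall) (even_iff_two_dvd.2 h2)
    · exact ⟨f * (2 ^ a * (O / d h)), by simp only [hn]; ring⟩

/-- The digits `c / 32`. -/
theorem digits_terms {M c : ℕ} (hM : 0 < M) (hc : c < 32) :
    ∃ Dg : Finset ℕ, Dg.card ≤ 5 ∧ ∑ n ∈ Dg, (1 / (n : ℚ)) = (c : ℚ) / (32 * M) ∧
      ∀ n ∈ Dg, 0 < n ∧ 2 * M ∣ n ∧ n ∣ 32 * M := by
  classical
  obtain ⟨D, hD1, hD2, hD3⟩ := rep_two_pow 5 c (by simpa using hc)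
  have key : ∀ d < 32, d ∣ 32 → 2 ∣ 32 / d := by decide
  have hdlt : ∀ d ∈ D, d < 32 := by
    intro d hd
    have := Finset.single_le_sum (f := fun x : ℕ => x) (fun _ _ => Nat.zero_le _) hd
    omega
  have hdvd : ∀ d ∈ D, d ∣ 32 := by
    intro d hd
    have := hD1 d hd
    norm_num at this
    exact this
  have hdpos : ∀ d ∈ D, 0 < d := fun d hd => Nat.pos_of_dvd_of_pos (hdvd d hd) (by norm_num)
  have hqpos : ∀ d ∈ D, 0 < 32 / d := fun d hd =>
    Nat.div_pos (Nat.le_of_dvd (by norm_num) (hdvd d hd)) (hdpos d hd)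
  have hinj : Set.InjOn (fun d => (32 / d) * M) (D : Set ℕ) := by
    intro d hd d' hd' e
    simp only at e
    have e2 : 32 / d = 32 / d' := Nat.eq_of_mul_eq_mul_right hM e
    have e3 := Nat.mul_div_cancel' (hdvd d hd)
    have e4 := Nat.mul_div_cancel' (hdvd d' hd')
    rw [e2] at e3
    exact Nat.eq_of_mul_eq_mul_right (hqpos d' hd') (e3.trans e4.symm)
  refine ⟨D.image (fun d => (32 / d) * M), Finset.card_image_le.trans hD2, ?_, ?_⟩
  · rw [Finset.sum_image hinj]
    have h1 : ∀ d ∈ D, 1 / (((32 / d) * M : ℕ) : ℚ) = (d : ℚ) / (32 * M) := by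
      intro d hd
      have e3 : ((32 : ℕ) : ℚ) = d * ((32 / d : ℕ) : ℚ) := by
        conv_lhs => rw [← Nat.mul_div_cancel' (hdvd d hd)]
        push_cast
        ring
      have hd0 : (d : ℚ) ≠ 0 := by exact_mod_cast (hdpos d hd).ne'
      have hq0 : ((32 / d : ℕ) : ℚ) ≠ 0 := by exact_mod_cast (hqpos d hd).ne'
      have hM0 : (M : ℚ) ≠ 0 := by exact_mod_cast hM.ne'
      have e5 : (32 : ℚ) = d * ((32 / d : ℕ) : ℚ) := by exact_mod_cast e3
      push_cast
      rw [e5]
      field_simp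
    rw [Finset.sum_congr rfl h1, ← Finset.sum_div, ← Nat.cast_sum, hD3]
  · intro n hn
    obtain ⟨d, hd, rfl⟩ := Finset.mem_image.1 hn
    refine ⟨Nat.mul_pos (hqpos d hd) hM, ?_, ?_⟩
    · exact Nat.mul_dvd_mul_right (key d (hdlt d hd) (hdvd d hd)) _
    · exact Nat.mul_dvd_mul_right (Nat.div_dvd_of_dvd (hdvd d hd)) _

theorem two_pow_dvd_of_odd_mul {k w n : ℕ} (hw : Odd w) (h : 2 ^ k ∣ w * n) : 2 ^ k ∣ n := by
  have hco : Nat.Coprime (2 ^ k) w := Nat.Coprime.pow_left _ (Nat.coprime_two_left.2 hw)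
  exact hco.dvd_of_dvd_mul_left h

/-- One level: a new odd modulus `w`, coprime to `O`, is absorbed, with the atoms paying for the
residues. -/
theorem PP.level {O V w B T E : ℕ} (hO : Odd O) (hVO : V ∣ O) (hw : Odd w) (hw1 : 1 < w)
    (hco : Nat.Coprime w O)
    (H : ∀ r < w, ∃ ρ : Fin 5 → ℕ, (∀ i, Atom V (ρ i)) ∧ ∑ i : Fin 5, 2 ^ (i : ℕ) * ρ i ≤ B ∧
      (∑ i : Fin 5, 2 ^ (i : ℕ) * ρ i) % w = r)
    (hR : PP (2 ^ E * O) B T E) :
    PP (2 ^ (E + 5) * (w * O)) (32 * w * B) (T + 30) (E + 5) := by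
  classical
  intro m' hm'
  have hOpos : 0 < O := hO.pos
  have hwpos : 0 < w := by omega
  have hO0 : (O : ℚ) ≠ 0 := by exact_mod_cast hOpos.ne'
  have hw0 : (w : ℚ) ≠ 0 := by exact_mod_cast hwpos.ne'
  have h20 : (2 : ℚ) ≠ 0 := by norm_num
  by_cases hmB : m' < B
  · obtain ⟨S, h1, h2, h3⟩ := hR m' hmB
    have hinj : Set.InjOn (fun n => 32 * w * n) (S : Set ℕ) := by
      intro x _ y _ e
      exact Nat.eq_of_mul_eq_mul_left (by positivity) e
    refine ⟨S.image (fun n => 32 * w * n), ?_, ?_, ?_⟩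
    · intro x hx
      obtain ⟨n, hn, rfl⟩ := Finset.mem_image.1 hx
      refine ⟨Nat.mul_pos (by positivity) (h1 n hn).1, ?_⟩
      intro hdvd
      apply (h1 n hn).2
      have e : 2 ^ (E + 5 + 1) = 32 * 2 ^ (E + 1) := by ring
      have e' : 32 * w * n = 32 * (w * n) := by ring
      rw [e, e'] at hdvd
      exact two_pow_dvd_of_odd_mul hw ((Nat.mul_dvd_mul_iff_left (by norm_num)).1 hdvd)
    · exact (Finset.card_image_le.trans h2).trans (by omega)
    · rw [Finset.sum_image hinj]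
      have e : ∀ n ∈ S, 1 / (((32 * w * n : ℕ)) : ℚ) = (1 / (32 * w)) * (1 / (n : ℚ)) := by
        intro n _
        push_cast
        rw [one_div_mul_one_div]
      rw [Finset.sum_congr rfl e, ← Finset.mul_sum, h3]
      push_cast
      rw [pow_add]
      field_simp
      ring
  · replace hmB := not_lt.1 hmB
    obtain ⟨ρ, hρ1, hρ2, hρ3⟩ := H (m' % w) (Nat.mod_lt _ hwpos)
    set Sg := ∑ i : Fin 5, 2 ^ (i : ℕ) * ρ i with hSg
    have hsum : Sg ≤ m' := hρ2.trans hmB
    have hmod : w ∣ m' - Sg := (Nat.modEq_iff_dvd' hsum).1 hρ3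
    obtain ⟨q, hq⟩ := hmod
    have hqB : q < 32 * B := by
      by_contra hcon
      replace hcon := not_lt.1 hcon
      have h1 : w * (32 * B) ≤ w * q := Nat.mul_le_mul_left _ hcon
      have h2 : w * q = m' - Sg := hq.symm
      have h3 : w * (32 * B) = 32 * w * B := by ring
      omega
    set m := q / 32 with hm
    set c := q % 32 with hc
    have hqe : 32 * m + c = q := Nat.div_add_mod _ _
    have hcl : c < 32 := Nat.mod_lt _ (by norm_num)
    have hmB' : m < B := by omega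
    obtain ⟨S, hS1, hS2, hS3⟩ := hR m hmB'
    have hMpos : 0 < 2 ^ E * O := by positivity
    obtain ⟨Dg, hD1, hD2, hD3⟩ := digits_terms hMpos hcl
    have hlt : ∀ i : Fin 5, (i : ℕ) < 5 := fun i => i.2
    choose A hA1 hA2 hA3 using fun i : Fin 5 => atom_terms (w := w) (E + 5 - (i : ℕ)) (hρ1 i) hVO hO hw
    -- disjointness
    have hdS : ∀ n ∈ S, ∀ e, E + 1 ≤ e → ¬ 2 ^ e ∣ n := by
      intro n hn e he hd
      exact (hS1 n hn).2 ((pow_dvd_pow 2 he).trans hd)
    have hdisjA : ∀ i j : Fin 5, i ≠ j → Disjoint (A i) (A j) := by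
      intro i j hij
      rw [Finset.disjoint_left]
      intro x hxi hxj
      obtain ⟨_, h1, h2, _⟩ := hA3 i x hxi
      obtain ⟨_, h3, h4, _⟩ := hA3 j x hxj
      have hne : (i : ℕ) ≠ j := fun h => hij (Fin.ext h)
      have hi := hlt i
      have hj := hlt j
      rcases lt_or_gt_of_ne hne with hl | hl
      · exact h4 ((pow_dvd_pow 2 (by omega)).trans h1)
      · exact h2 ((pow_dvd_pow 2 (by omega)).trans h3)
    have hDw : ∀ n ∈ Dg, ¬ w ∣ n := by
      intro n hn hd
      have h1 : w ∣ 32 * (2 ^ E * O) := hd.trans (hD3 n hn).2.2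
      have h2 : Nat.Coprime w (32 * (2 ^ E * O)) := by
        apply Nat.Coprime.mul_right
        · have : (32 : ℕ) = 2 ^ 5 := by norm_num
          rw [this]
          exact Nat.Coprime.pow_right _ (Nat.coprime_two_right.2 hw)
        · exact Nat.Coprime.mul_right (Nat.Coprime.pow_right _ (Nat.coprime_two_right.2 hw)) hco
      have := Nat.Coprime.eq_one_of_dvd h2 h1
      omega
    have hDE : ∀ n ∈ Dg, 2 ^ (E + 1) ∣ n := by
      intro n hn
      have h1 := (hD3 n hn).2.1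
      have e : 2 * (2 ^ E * O) = 2 ^ (E + 1) * O := by ring
      rw [e] at h1
      exact (Dvd.intro _ rfl).trans h1
    have hDtop : ∀ n ∈ Dg, ¬ 2 ^ (E + 5 + 1) ∣ n := by
      intro n hn hd
      have h1 := hd.trans (hD3 n hn).2.2
      have e1 : 32 * (2 ^ E * O) = 2 ^ (E + 5) * O := by ring
      rw [e1, pow_succ] at h1
      have h2 : 2 ∣ O := (Nat.mul_dvd_mul_iff_left (by positivity)).1 h1
      exact (Nat.not_even_iff_odd.2 hO) (even_iff_two_dvd.2 h2)
    set U := Finset.univ.biUnion A with hU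
    have hUmem : ∀ n ∈ U, ∃ i, n ∈ A i := by
      intro n hn
      obtain ⟨i, _, hi⟩ := Finset.mem_biUnion.1 hn
      exact ⟨i, hi⟩
    have hdisj1 : Disjoint S Dg := by
      rw [Finset.disjoint_left]
      intro x hx hx'
      exact (hS1 x hx).2 (hDE x hx')
    have hdisj2 : Disjoint (S ∪ Dg) U := by
      rw [Finset.disjoint_left]
      intro x hx hx'
      obtain ⟨i, hi⟩ := hUmem x hx'
      obtain ⟨_, h1, _, h3⟩ := hA3 i x hi
      rcases Finset.mem_union.1 hx with hx | hx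
      · have hi' := hlt i
        exact hdS x hx (E + 5 - (i : ℕ)) (by omega) h1
      · exact hDw x hx h3
    have hsumU : ∑ n ∈ U, (1 / (n : ℚ)) =
        ((Sg : ℕ) : ℚ) / (2 ^ (E + 5) * (w * O)) := by
      rw [hU, Finset.sum_biUnion (fun i _ j _ hij => hdisjA i j hij)]
      simp_rw [hA2]
      rw [hSg]
      push_cast
      rw [Finset.sum_div]
      apply Finset.sum_congr rfl
      intro i _
      have hi' := hlt i
      have e : (2 : ℚ) ^ (E + 5) = 2 ^ (i : ℕ) * 2 ^ (E + 5 - (i : ℕ)) := by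
        rw [← pow_add]
        congr 1
        omega
      rw [e]
      field_simp
    refine ⟨S ∪ Dg ∪ U, ?_, ?_, ?_⟩
    · intro n hn
      rcases Finset.mem_union.1 hn with hn | hn
      · rcases Finset.mem_union.1 hn with hn | hn
        · refine ⟨(hS1 n hn).1, ?_⟩
          exact hdS n hn _ (by omega)
        · exact ⟨(hD3 n hn).1, hDtop n hn⟩
      · obtain ⟨i, hi⟩ := hUmem n hn
        obtain ⟨h0, h1, h2, h3⟩ := hA3 i n hi
        refine ⟨h0, ?_⟩
        intro hd
        apply h2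
        exact (pow_dvd_pow 2 (by omega)).trans hd
    · have h1 : U.card ≤ 25 := by
        refine Finset.card_biUnion_le.trans ?_
        calc ∑ i : Fin 5, (A i).card ≤ ∑ _i : Fin 5, 5 := Finset.sum_le_sum (fun i _ => hA1 i)
          _ = 25 := by simp
      have h2 := Finset.card_union_le (S ∪ Dg) U
      have h3 := Finset.card_union_le S Dg
      omega
    · rw [Finset.sum_union hdisj2, Finset.sum_union hdisj1, hS3, hD2, hsumU]
      have hm'e : (m' : ℚ) = w * (32 * m + c) + Sg := by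
        have h1 : m' = w * (32 * m + c) + Sg := by
          rw [hqe]
          omega
        exact_mod_cast h1
      rw [hm'e]
      push_cast
      rw [pow_add]
      field_simp
      ring

end Vale.Agent.Lib.P012
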