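import Vale.Agent.Lib.P012.Cover

namespace Vale.Agent.Lib.P012

open Finset

section

variable {w : ℕ} [NeZero w]

theorem psi_sum {ι : Type*} (s : Finset ι) (f : ι → ZMod w) :
    psi w (∑ i ∈ s, f i) = ∏ i ∈ s, psi w (f i) := by
  classical
  induction s using Finset.induction_on with
  | empty => simp
  | insert i s hi ih =>
    rw [Finset.sum_insert hi, Finset.prod_insert hi, AddChar.map_add_eq_mul, ih]

/-- Bound for one bilinear block at the character `a`. -/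
theorem block_bound {L : Finset ℕ} (hL : ∀ ℓ ∈ L, ℓ.Prime) (hw : w = ∏ ℓ ∈ L, ℓ)
    {r c n : ℕ} (hLR : ∀ ℓ ∈ L, ℓ ≤ 2 ^ (4 * r)) (hLc : L.card ≤ c)
    (X Y : Finset ℕ) (hXn : X.card = n) (hYn : Y.card = n)
    (hnΓ : (2 ^ (3 * r)) ^ c ≤ n)
    (hcX : ∀ I ⊆ L, (2 ^ (3 * r)) ^ I.card * coll X (∏ p ∈ I, p) ≤ 20 * n ^ 2)
    (hcY : ∀ I ⊆ L, (2 ^ (3 * r)) ^ I.card * coll Y (∏ p ∈ I, p) ≤ 20 * n ^ 2)
    (a : ZMod w) :
    ((2 : ℝ) ^ r) ^ (Iset L a).card *
        ‖∑ x ∈ X, ∑ y ∈ Y, psi w (a * (x : ZMod w) * (y : ZMod w))‖ ≤ 21 * (n : ℝ) ^ 2 := by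
  set I := Iset L a with hI
  have hIL : I ⊆ L := Iset_subset L a
  set N := ∏ ℓ ∈ I, ℓ with hN
  have hNpos : 0 < N := Finset.prod_pos (fun ℓ hℓ => (hL ℓ (hIL hℓ)).pos)
  have hNle : N ≤ (2 ^ (4 * r)) ^ I.card := Finset.prod_le_pow_card _ _ _ (fun ℓ hℓ => hLR ℓ (hIL hℓ))
  have haN : a * (N : ZMod w) = 0 := mul_prod_Iset hL hw a
  set g := (2 ^ (3 * r)) ^ I.card with hg
  have hgn : g ≤ n := by
    refine le_trans ?_ hnΓ
    apply Nat.pow_le_pow_right (by positivity)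
    exact (Finset.card_le_card hIL).trans hLc
  have hEbound : ∀ Z : Finset ℕ, Z.card = n →
      (∀ I ⊆ L, (2 ^ (3 * r)) ^ I.card * coll Z (∏ p ∈ I, p) ≤ 20 * n ^ 2) →
      g * (eqSet Z N).card ≤ 21 * n ^ 2 := by
    intro Z hZ hc
    have h1 := eqSet_card_le Z N
    rw [hZ] at h1
    have h2 := hc I hIL
    calc g * (eqSet Z N).card ≤ g * (n + coll Z N) := Nat.mul_le_mul_left _ h1
      _ = g * n + g * coll Z N := by ring
      _ ≤ n * n + 20 * n ^ 2 := add_le_add (Nat.mul_le_mul_right _ hgn) h2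
      _ = 21 * n ^ 2 := by ring
  have hFle : ((Y ×ˢ Y).filter (fun q => a * ((q.1 : ZMod w) - (q.2 : ZMod w)) = 0)).card ≤
      (eqSet Y N).card := by
    apply Finset.card_le_card
    intro q hq
    rw [Finset.mem_filter] at hq
    unfold eqSet
    rw [Finset.mem_filter]
    exact ⟨hq.1, dvd_of_mul_eq_zero hL hw a hq.2⟩
  have hbil := bilinear_bound a X Y hNpos haN
  set S := ∑ x ∈ X, ∑ y ∈ Y, psi w (a * (x : ZMod w) * (y : ZMod w)) with hS
  set u : ℝ := ((2 : ℝ) ^ r) ^ I.card with hu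
  have hupos : 0 < u := by positivity
  have hgu : (g : ℝ) = u ^ 3 := by
    rw [hg, hu]
    push_cast
    rw [pow_mul, ← pow_mul, ← pow_mul, ← pow_mul]
    ring_nf
  have hNu : (N : ℝ) ≤ u ^ 4 := by
    have : (N : ℝ) ≤ (((2 ^ (4 * r)) ^ I.card : ℕ) : ℝ) := by exact_mod_cast hNle
    refine this.trans (le_of_eq ?_)
    rw [hu]
    push_cast
    rw [← pow_mul, ← pow_mul, ← pow_mul]
    ring_nf
  have hE1 : (g : ℝ) * (eqSet X N).card ≤ 21 * (n : ℝ) ^ 2 := by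
    exact_mod_cast hEbound X hXn hcX
  have hE2 : (g : ℝ) * (eqSet Y N).card ≤ 21 * (n : ℝ) ^ 2 := by
    exact_mod_cast hEbound Y hYn hcY
  have hF : (((Y ×ˢ Y).filter (fun q => a * ((q.1 : ZMod w) - (q.2 : ZMod w)) = 0)).card : ℝ) ≤
      (eqSet Y N).card := by exact_mod_cast hFle
  have h1 : ‖S‖ ^ 2 ≤ ((eqSet X N).card : ℝ) * ((N : ℝ) * (eqSet Y N).card) := by
    refine hbil.trans ?_
    gcongr
  have h2 : u ^ 6 * ‖S‖ ^ 2 ≤ (21 * (n : ℝ) ^ 2) ^ 2 * u ^ 4 := by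
    calc u ^ 6 * ‖S‖ ^ 2 ≤ u ^ 6 * (((eqSet X N).card : ℝ) * ((N : ℝ) * (eqSet Y N).card)) := by
          gcongr
      _ = ((g : ℝ) * (eqSet X N).card) * ((g : ℝ) * (eqSet Y N).card) * N := by
          rw [hgu]; ring
      _ ≤ (21 * (n : ℝ) ^ 2) * (21 * (n : ℝ) ^ 2) * u ^ 4 := by
          gcongr
      _ = _ := by ring
  have h3 : (u * ‖S‖) ^ 2 ≤ (21 * (n : ℝ) ^ 2) ^ 2 := by
    have h4 : u ^ 4 * (u * ‖S‖) ^ 2 ≤ u ^ 4 * (21 * (n : ℝ) ^ 2) ^ 2 := by
      calc u ^ 4 * (u * ‖S‖) ^ 2 = u ^ 6 * ‖S‖ ^ 2 := by ring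
        _ ≤ _ := h2
        _ = _ := by ring
    exact le_of_mul_le_mul_left h4 (by positivity)
  exact (pow_le_pow_iff_left₀ (by positivity) (by positivity) (by norm_num)).1 h3

/-- Fourier covering: under the collision bounds, sums of five products cover all residues. -/
theorem fourier_cover {L : Finset ℕ} (hL : ∀ ℓ ∈ L, ℓ.Prime) (hw : w = ∏ ℓ ∈ L, ℓ)
    {r c n : ℕ} (hLR : ∀ ℓ ∈ L, ℓ ≤ 2 ^ (4 * r)) (hLc : L.card ≤ c)
    (X : Fin 5 × Bool → Finset ℕ) (hXn : ∀ j, (X j).card = n) (hn : 0 < n)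
    (hnΓ : (2 ^ (3 * r)) ^ c ≤ n)
    (hcoll : ∀ I ⊆ L, ∀ j, (2 ^ (3 * r)) ^ I.card * coll (X j) (∏ p ∈ I, p) ≤ 20 * n ^ 2)
    (hr : 2 * c * 21 ^ 5 < 2 ^ r) (m : ZMod w) :
    ∃ p : Fin 5 → ℕ × ℕ, (∀ i, (p i).1 ∈ X (i, false) ∧ (p i).2 ∈ X (i, true)) ∧
      ∑ i, (((p i).1 : ZMod w) * ((p i).2 : ZMod w)) = m := by
  classical
  by_contra hno
  set S : ZMod w → Fin 5 → ℂ := fun a i =>
    ∑ x ∈ X (i, false), ∑ y ∈ X (i, true), psi w (a * (x : ZMod w) * (y : ZMod w)) with hS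
  -- the Fourier identity
  have key : ∑ a : ZMod w, psi w (-(a * m)) * ∏ i, S a i = 0 := by
    have h1 : ∀ a : ZMod w, psi w (-(a * m)) * ∏ i, S a i =
        ∑ p ∈ Fintype.piFinset (fun i : Fin 5 => X (i, false) ×ˢ X (i, true)),
          psi w (a * (∑ i, (((p i).1 : ZMod w) * ((p i).2 : ZMod w)) - m)) := by
      intro a
      have h2 : ∀ i, S a i = ∑ q ∈ X (i, false) ×ˢ X (i, true),
          psi w (a * ((q.1 : ZMod w) * (q.2 : ZMod w))) := by
        intro i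
        simp only [hS]
        rw [Finset.sum_product]
        simp only [mul_assoc]
      simp only [h2]
      rw [Finset.prod_univ_sum, Finset.mul_sum]
      apply Finset.sum_congr rfl
      intro p _
      rw [← psi_sum, ← AddChar.map_add_eq_mul]
      congr 1
      rw [mul_sub, Finset.mul_sum]
      ring
    simp only [h1]
    rw [Finset.sum_comm]
    apply Finset.sum_eq_zero
    intro p hp
    have hne : ∑ i, (((p i).1 : ZMod w) * ((p i).2 : ZMod w)) - m ≠ 0 := by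
      intro h0
      apply hno
      refine ⟨p, ?_, sub_eq_zero.1 h0⟩
      intro i
      have := Fintype.mem_piFinset.1 hp i
      exact Finset.mem_product.1 this
    have := AddChar.sum_mulShift (ψ := psi w)
      (∑ i, (((p i).1 : ZMod w) * ((p i).2 : ZMod w)) - m) (ZMod.isPrimitive_stdAddChar w)
    rw [if_neg hne] at this
    simpa using this
  -- the main term
  have hS0 : ∀ i, S 0 i = ((n : ℂ)) ^ 2 := by
    intro i
    simp only [hS, zero_mul, AddChar.map_zero_eq_one, Finset.sum_const, nsmul_eq_mul, mul_one,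
      hXn]
    ring
  have hf0 : psi w (-(0 * m)) * ∏ i, S 0 i = ((n : ℂ) ^ 2) ^ 5 := by
    simp only [hS0, zero_mul, neg_zero, AddChar.map_zero_eq_one, one_mul, Finset.prod_const,
      Finset.card_univ, Fintype.card_fin]
  have hsplit := Finset.add_sum_erase (Finset.univ : Finset (ZMod w))
    (fun a => psi w (-(a * m)) * ∏ i, S a i) (Finset.mem_univ (0 : ZMod w))
  rw [key, hf0] at hsplit
  have hmain : ((n : ℝ) ^ 2) ^ 5 ≤ ∑ a ∈ (Finset.univ : Finset (ZMod w)).erase 0, ∏ i, ‖S a i‖ := by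
    have h1 : ((n : ℂ) ^ 2) ^ 5 = - ∑ a ∈ (Finset.univ : Finset (ZMod w)).erase 0,
        psi w (-(a * m)) * ∏ i, S a i := eq_neg_of_add_eq_zero_left hsplit
    have h2 : ‖((n : ℂ) ^ 2) ^ 5‖ = ((n : ℝ) ^ 2) ^ 5 := by
      simp
    rw [← h2, h1, norm_neg]
    refine (norm_sum_le _ _).trans (le_of_eq ?_)
    apply Finset.sum_congr rfl
    intro a _
    rw [norm_mul, psi_norm, one_mul, norm_prod]
  -- the pointwise bound
  set y : ℝ := (2 : ℝ) ^ r with hy
  have hy1 : (1 : ℝ) ≤ y := one_le_pow₀ (by norm_num)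
  have hypos : 0 < y := by positivity
  set K : ℝ := (21 * (n : ℝ) ^ 2) ^ 5 with hK
  have hKpos : 0 ≤ K := by positivity
  have hpoint : ∀ a : ZMod w, ∏ i, ‖S a i‖ ≤ K * ((y ^ (Iset L a).card) ^ 5)⁻¹ := by
    intro a
    have hu : 0 < y ^ (Iset L a).card := by positivity
    have h1 : ∀ i ∈ (Finset.univ : Finset (Fin 5)), y ^ (Iset L a).card * ‖S a i‖ ≤ 21 * (n : ℝ) ^ 2 := by
      intro i _
      exact block_bound hL hw hLR hLc (X (i, false)) (X (i, true)) (hXn _) (hXn _) hnΓ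
        (fun I hI => hcoll I hI _) (fun I hI => hcoll I hI _) a
    have h2 := Finset.prod_le_prod (s := (Finset.univ : Finset (Fin 5)))
      (fun i _ => mul_nonneg hu.le (norm_nonneg (S a i))) h1
    rw [Finset.prod_mul_distrib] at h2
    simp only [Finset.prod_const, Finset.card_univ, Fintype.card_fin] at h2
    rw [le_mul_inv_iff₀ (by positivity), mul_comm]
    exact h2
  -- summing over `a`
  set x : ℝ := y⁻¹ with hx
  have hxpos : 0 < x := by positivity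
  have hsum : ∑ a ∈ (Finset.univ : Finset (ZMod w)).erase 0, ((y ^ (Iset L a).card) ^ 5)⁻¹ ≤
      ∑ I ∈ L.powerset.erase ∅, x ^ I.card := by
    have hmaps : ∀ a ∈ (Finset.univ : Finset (ZMod w)).erase 0, Iset L a ∈ L.powerset.erase ∅ := by
      intro a ha
      rw [Finset.mem_erase, Finset.mem_powerset]
      exact ⟨(Iset_nonempty hL hw (Finset.mem_erase.1 ha).1).ne_empty, Iset_subset L a⟩
    rw [← Finset.sum_fiberwise_of_maps_to hmaps]
    apply Finset.sum_le_sum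
    intro I hI
    have hIL : I ⊆ L := Finset.mem_powerset.1 (Finset.mem_erase.1 hI).2
    have hc1 := card_fiber_Iset_le (w := w) hL hw hIL
    have hc2 : ∏ ℓ ∈ I, ℓ ≤ (2 ^ (4 * r)) ^ I.card :=
      Finset.prod_le_pow_card _ _ _ (fun ℓ hℓ => hLR ℓ (hIL hℓ))
    have hc3 : ((((Finset.univ : Finset (ZMod w)).erase 0).filter
        (fun a => Iset L a = I)).card : ℝ) ≤ (y ^ I.card) ^ 4 := by
      have h5 : ((Finset.univ : Finset (ZMod w)).erase 0).filter (fun a => Iset L a = I) ⊆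
          (Finset.univ : Finset (ZMod w)).filter (fun a => Iset L a = I) :=
        Finset.filter_subset_filter _ (Finset.erase_subset _ _)
      have h6 := (Finset.card_le_card h5).trans (hc1.trans hc2)
      have h7 : ((((Finset.univ : Finset (ZMod w)).erase 0).filter
          (fun a => Iset L a = I)).card : ℝ) ≤ (((2 ^ (4 * r)) ^ I.card : ℕ) : ℝ) := by
        exact_mod_cast h6
      refine h7.trans (le_of_eq ?_)
      rw [hy]
      push_cast
      rw [← pow_mul, ← pow_mul, ← pow_mul]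
      ring_nf
    have hc4 : ∀ a ∈ ((Finset.univ : Finset (ZMod w)).erase 0).filter (fun a => Iset L a = I),
        ((y ^ (Iset L a).card) ^ 5)⁻¹ = ((y ^ I.card) ^ 5)⁻¹ := by
      intro a ha
      rw [(Finset.mem_filter.1 ha).2]
    rw [Finset.sum_congr rfl hc4, Finset.sum_const, nsmul_eq_mul]
    have hu : 0 < y ^ I.card := by positivity
    have hxI : x ^ I.card = (y ^ I.card)⁻¹ := by rw [hx, inv_pow]
    rw [hxI]
    calc _ ≤ (y ^ I.card) ^ 4 * ((y ^ I.card) ^ 5)⁻¹ := by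
          apply mul_le_mul_of_nonneg_right hc3 (by positivity)
      _ = _ := by field_simp
  -- the geometric sum
  have h2c : 2 * (c : ℝ) * 21 ^ 5 < y := by
    rw [hy]
    exact_mod_cast hr
  have h21 : (1 : ℝ) ≤ 21 ^ 5 := by norm_num
  have h2cx : 2 * (c : ℝ) * x ≤ 1 := by
    rw [hx, ← div_eq_mul_inv, div_le_one hypos]
    have : 2 * (c : ℝ) * 1 ≤ 2 * (c : ℝ) * 21 ^ 5 := by gcongr
    linarith
  have hgeo : ∑ I ∈ L.powerset.erase ∅, x ^ I.card ≤ 2 * (c : ℝ) * x := by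
    have h1 := Finset.sum_pow_mul_eq_add_pow x 1 L
    simp only [one_pow, mul_one] at h1
    have h2 := Finset.add_sum_erase L.powerset (fun I => x ^ I.card) (Finset.empty_mem_powerset L)
    simp only [Finset.card_empty, pow_zero] at h2
    have h3 := one_add_pow_le hxpos.le h2cx L.card hLc
    have hLc' : (L.card : ℝ) ≤ c := by exact_mod_cast hLc
    have h4 : 2 * (L.card : ℝ) * x ≤ 2 * (c : ℝ) * x := by gcongr
    rw [add_comm x 1] at h1
    linarith
  -- conclusion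
  have hfinal : ((n : ℝ) ^ 2) ^ 5 ≤ K * (2 * (c : ℝ) * x) := by
    calc ((n : ℝ) ^ 2) ^ 5 ≤ ∑ a ∈ (Finset.univ : Finset (ZMod w)).erase 0, ∏ i, ‖S a i‖ := hmain
      _ ≤ ∑ a ∈ (Finset.univ : Finset (ZMod w)).erase 0, K * ((y ^ (Iset L a).card) ^ 5)⁻¹ :=
          Finset.sum_le_sum (fun a _ => hpoint a)
      _ = K * ∑ a ∈ (Finset.univ : Finset (ZMod w)).erase 0, ((y ^ (Iset L a).card) ^ 5)⁻¹ := by
          rw [Finset.mul_sum]
      _ ≤ K * (2 * (c : ℝ) * x) := by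
          apply mul_le_mul_of_nonneg_left (hsum.trans hgeo) hKpos
  have hnpos : (0 : ℝ) < ((n : ℝ) ^ 2) ^ 5 := by positivity
  have hlt : 21 ^ 5 * (2 * (c : ℝ) * x) < 1 := by
    rw [hx, ← mul_assoc, ← div_eq_mul_inv, div_lt_one hypos]
    linarith
  have : K * (2 * (c : ℝ) * x) = ((n : ℝ) ^ 2) ^ 5 * (21 ^ 5 * (2 * (c : ℝ) * x)) := by
    rw [hK]; ring
  rw [this] at hfinal
  nlinarith

end

end Vale.Agent.Lib.P012
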