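import Vale.Agent.Lib.P012.Basic

namespace Vale.Agent.Lib.P012

open Finset

theorem two_pow_card_le_prod (P : Finset ℕ) (hP : ∀ p ∈ P, p.Prime) :
    2 ^ P.card ≤ ∏ p ∈ P, p := by
  classical
  induction P using Finset.induction_on with
  | empty => simp
  | insert p P hp ih =>
    rw [Finset.card_insert_of_notMem hp, Finset.prod_insert hp, pow_succ, mul_comm]
    exact Nat.mul_le_mul (hP p (Finset.mem_insert_self _ _)).two_le
      (ih (fun q hq => hP q (Finset.mem_insert_of_mem hq)))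

/-- Chebyshev-type lower bound for the number of primes up to `2 ^ m`. -/
theorem two_pow_le_primes (m : ℕ) : 2 ^ m ≤ m + 1 + m * (Nat.primesLE (2 ^ m)).card := by
  have h1 := Chebyshev.two_pow_le_mul_lcmUpto (2 ^ m)
  have h2 : Nat.lcmUpto (2 ^ m) ≤ (2 ^ m) ^ (Nat.primesLE (2 ^ m)).card := by
    rw [Nat.lcmUpto_eq_prod_pow_log]
    apply Finset.prod_le_pow_card
    intro p _
    exact Nat.pow_log_le_self p (by positivity)
  have h3 : 2 ^ m + 1 ≤ 2 ^ (m + 1) := by
    have : 1 ≤ 2 ^ m := Nat.one_le_two_pow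
    rw [pow_succ]
    omega
  have h4 : 2 ^ (2 ^ m) ≤ 2 ^ (m + 1 + m * (Nat.primesLE (2 ^ m)).card) := by
    calc 2 ^ (2 ^ m) ≤ (2 ^ m + 1) * Nat.lcmUpto (2 ^ m) := h1
      _ ≤ 2 ^ (m + 1) * (2 ^ m) ^ (Nat.primesLE (2 ^ m)).card := Nat.mul_le_mul h3 h2
      _ = 2 ^ (m + 1 + m * (Nat.primesLE (2 ^ m)).card) := by
        rw [pow_add 2 (m + 1), pow_mul]
  exact (Nat.pow_le_pow_iff_right (by norm_num)).1 h4

/-- A number at most `2 ^ v` has at most `v` prime factors in any set of primes. -/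
theorem card_filter_dvd_le {B : Finset ℕ} (hB : ∀ p ∈ B, p.Prime) {N v : ℕ} (hN : N ≠ 0)
    (hNv : N ≤ 2 ^ v) : (B.filter (fun p => p ∣ N)).card ≤ v := by
  have h1 : (∏ p ∈ B.filter (fun p => p ∣ N), p) ∣ N := by
    apply Finset.prod_primes_dvd
    · intro p hp
      exact (hB p (Finset.mem_filter.1 hp).1).prime
    · intro p hp
      exact (Finset.mem_filter.1 hp).2
  have h2 := two_pow_card_le_prod (B.filter (fun p => p ∣ N))
    (fun p hp => hB p (Finset.mem_filter.1 hp).1)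
  have h3 := Nat.le_of_dvd (Nat.pos_of_ne_zero hN) h1
  exact (Nat.pow_le_pow_iff_right (by norm_num)).1 (h2.trans (h3.trans hNv))

theorem card_primeFactors_le {V v : ℕ} (hV : V ≠ 0) (hVv : V ≤ 2 ^ v) :
    V.primeFactors.card ≤ v := by
  have h := card_filter_dvd_le (B := V.primeFactors) (fun p hp => Nat.prime_of_mem_primeFactors hp)
    hV hVv
  rwa [Finset.filter_true_of_mem (fun p hp => Nat.dvd_of_mem_primeFactors hp)] at h

end Vale.Agent.Lib.P012
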