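import Vale.Agent.Lib.P012.Level

namespace Vale.Agent.Lib.P012

open Finset

/-- Every `m < B` is a sum of at most `T` distinct divisors of `V`. -/
def RepB (V B T : ℕ) : Prop :=
  ∀ m < B, ∃ S : Finset ℕ, (∀ d ∈ S, d ∣ V) ∧ S.card ≤ T ∧ ∑ d ∈ S, d = m

theorem RepB.mono {V B T T' : ℕ} (h : RepB V B T) (hT : T ≤ T') : RepB V B T' := by
  intro m hm
  obtain ⟨S, h1, h2, h3⟩ := h m hm
  exact ⟨S, h1, h2.trans hT, h3⟩

/-- One level for the bounded representation property. -/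
theorem RepB.level {V B w T t : ℕ} (hw : 2 ≤ w) (hco : Nat.Coprime w V)
    (H : ∀ r < w, ∃ D : Finset ℕ, (∀ d ∈ D, d ∣ V) ∧ D.card ≤ t ∧ ∑ d ∈ D, d ≤ B ∧
        (∑ d ∈ D, d) % w = r)
    (hR : RepB V B T) : RepB (w * V) (w * B) (T + t) := by
  intro m hm
  by_cases hmV : m < B
  · obtain ⟨S, h1, h2, h3⟩ := hR m hmV
    exact ⟨S, fun d hd => (h1 d hd).trans (Dvd.intro_left _ rfl), by omega, h3⟩
  · replace hmV := not_lt.1 hmV
    obtain ⟨D, hD1, hD2, hD3, hD4⟩ := H (m % w) (Nat.mod_lt _ (by omega))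
    have hsum : ∑ d ∈ D, d ≤ m := hD3.trans hmV
    have hmod : w ∣ m - ∑ d ∈ D, d := by
      apply (Nat.modEq_iff_dvd' hsum).1
      exact hD4
    obtain ⟨m', hm'⟩ := hmod
    have hm'V : m' < B := by
      by_contra hcon
      replace hcon := not_lt.1 hcon
      have : w * B ≤ w * m' := Nat.mul_le_mul_left _ hcon
      omega
    obtain ⟨S, h1, h2, h3⟩ := hR m' hm'V
    have hinj : Set.InjOn (fun d => w * d) (S : Set ℕ) := by
      intro d _ d' _ hh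
      exact Nat.eq_of_mul_eq_mul_left (by omega) hh
    have hdisj : Disjoint D (S.image (fun d => w * d)) := by
      rw [Finset.disjoint_left]
      intro x hx hx'
      obtain ⟨d, _, rfl⟩ := Finset.mem_image.1 hx'
      have h1 : w ∣ V := (Dvd.intro _ rfl).trans (hD1 _ hx)
      have : w = 1 := Nat.Coprime.eq_one_of_dvd hco h1
      omega
    refine ⟨D ∪ S.image (fun d => w * d), ?_, ?_, ?_⟩
    · intro d hd
      rcases Finset.mem_union.1 hd with hd | hd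
      · exact (hD1 d hd).trans (Dvd.intro_left _ rfl)
      · obtain ⟨x, hx, rfl⟩ := Finset.mem_image.1 hd
        exact Nat.mul_dvd_mul_left _ (h1 x hx)
    · calc _ ≤ D.card + (S.image (fun d => w * d)).card := Finset.card_union_le _ _
        _ ≤ D.card + S.card := Nat.add_le_add_left Finset.card_image_le _
        _ ≤ T + t := by omega
    · rw [Finset.sum_union hdisj, Finset.sum_image hinj, ← Finset.mul_sum, h3, ← hm']
      omega

theorem card_primesLE_le (N : ℕ) : (Nat.primesLE N).card ≤ N := by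
  have hsub : Nat.primesLE N ⊆ Finset.Icc 1 N := by
    intro p hp
    rw [Finset.mem_Icc]
    exact ⟨(Nat.prime_of_mem_primesLE hp).one_le, Nat.le_of_mem_primesLE hp⟩
  simpa using Finset.card_le_card hsub

/-- One level: adjoin `c` new primes in `(2 ^ (2 r), 2 ^ (4 r)]` and pay five more divisors. -/
theorem one_levelB {V B T vV vx r c n : ℕ} (hV : 0 < V) (hVv : V ≤ 2 ^ vV) (hvx : 0 < vx)
    (hc : 0 < c)
    (X : Fin 5 × Bool → Finset ℕ) (P : Fin 5 × Bool → ℕ)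
    (hXn : ∀ j, (X j).card = n) (hn : 0 < n)
    (hXP : ∀ j, ∀ x ∈ X j, x ∣ P j ∧ 2 ≤ x ∧ x ≤ 2 ^ vx)
    (hPco : ∀ i i' : Fin 5, i ≠ i' →
      Nat.Coprime (P (i, false) * P (i, true)) (P (i', false) * P (i', true)))
    (hPV : ∏ i, (P (i, false) * P (i, true)) ∣ V)
    (hB : 5 * 2 ^ (2 * vx) ≤ B)
    (hnΓ : (2 ^ (3 * r)) ^ c ≤ n)
    (hr : 2 * c * 21 ^ 5 < 2 ^ r)
    (hπ : 2 * c * 2 ^ (3 * r) * vx + c + 2 ^ (2 * r) + vV + 1 ≤
      (Nat.primesLE (2 ^ (4 * r))).card)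
    (hR : RepB V B T) :
    ∃ L : Finset ℕ, L.card = c ∧
      (∀ ℓ ∈ L, ℓ.Prime ∧ ℓ ≠ 3 ∧ Nat.Coprime ℓ V ∧ 2 ^ (2 * r) < ℓ ∧ ℓ ≤ 2 ^ (4 * r)) ∧
      RepB ((∏ ℓ ∈ L, ℓ) * V) ((∏ ℓ ∈ L, ℓ) * B) (T + 5) := by
  classical
  set A := Nat.primesLE (2 ^ (4 * r)) \ (Nat.primesLE (2 ^ (2 * r)) ∪ insert 3 V.primeFactors)
    with hA
  have hAprime : ∀ p ∈ A, p.Prime :=
    fun p hp => Nat.prime_of_mem_primesLE (Finset.mem_sdiff.1 hp).1
  have hAcard : 2 * c * 2 ^ (3 * r) * vx + c ≤ A.card := by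
    have h1 : (Nat.primesLE (2 ^ (4 * r))).card -
        (Nat.primesLE (2 ^ (2 * r)) ∪ insert 3 V.primeFactors).card ≤ A.card :=
      Finset.le_card_sdiff _ _
    have h2 : (Nat.primesLE (2 ^ (2 * r)) ∪ insert 3 V.primeFactors).card ≤
        2 ^ (2 * r) + (vV + 1) := by
      refine (Finset.card_union_le _ _).trans (add_le_add (card_primesLE_le _) ?_)
      refine (Finset.card_insert_le _ _).trans ?_
      have := card_primeFactors_le hV.ne' hVv
      omega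
    omega
  have hXv : ∀ j, ∀ x ∈ X j, x ≤ 2 ^ vx := fun j x hx => (hXP j x hx).2.2
  obtain ⟨L, hLA, hLc, hLcoll⟩ := greedy_select hAprime X hXv hXn (by positivity) hvx hc hAcard
  have hcard10 : Fintype.card (Fin 5 × Bool) = 10 := by simp
  rw [hcard10] at hLcoll
  have hLprime : ∀ ℓ ∈ L, ℓ.Prime := fun ℓ hℓ => hAprime ℓ (hLA hℓ)
  have hLprops : ∀ ℓ ∈ L, ℓ.Prime ∧ ℓ ≠ 3 ∧ Nat.Coprime ℓ V ∧ 2 ^ (2 * r) < ℓ ∧
      ℓ ≤ 2 ^ (4 * r) := by
    intro ℓ hℓ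
    have h1 := Finset.mem_sdiff.1 (hLA hℓ)
    have h2 := hLprime ℓ hℓ
    have h3 : ℓ ∉ Nat.primesLE (2 ^ (2 * r)) := fun h => h1.2 (Finset.mem_union_left _ h)
    have h4 : ℓ ∉ insert 3 V.primeFactors := fun h => h1.2 (Finset.mem_union_right _ h)
    refine ⟨h2, ?_, ?_, ?_, Nat.le_of_mem_primesLE h1.1⟩
    · rintro rfl
      exact h4 (Finset.mem_insert_self _ _)
    · rw [Nat.Prime.coprime_iff_not_dvd h2]
      intro hd
      apply h4
      apply Finset.mem_insert_of_mem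
      exact Nat.mem_primeFactors.2 ⟨h2, hd, hV.ne'⟩
    · by_contra hle
      exact h3 (Nat.mem_primesLE.2 ⟨not_lt.1 hle, h2⟩)
  refine ⟨L, hLc, hLprops, ?_⟩
  set w := ∏ ℓ ∈ L, ℓ with hw
  have hLne : L.Nonempty := by
    rw [← Finset.card_pos]
    omega
  have hw2 : 2 ≤ w := by
    obtain ⟨ℓ, hℓ⟩ := hLne
    have h1 : ℓ ∣ w := Finset.dvd_prod_of_mem (fun ℓ => ℓ) hℓ
    have h2 : 0 < w := Finset.prod_pos (fun ℓ hℓ => (hLprime ℓ hℓ).pos)
    exact (hLprime ℓ hℓ).two_le.trans (Nat.le_of_dvd h2 h1)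
  have : NeZero w := ⟨by omega⟩
  have hco : Nat.Coprime w V := Nat.Coprime.prod_left (fun ℓ hℓ => (hLprops ℓ hℓ).2.2.1)
  apply RepB.level hw2 hco _ hR
  intro s hs
  obtain ⟨p, hp1, hp2⟩ := fourier_cover (w := w) hLprime hw
    (fun ℓ hℓ => (hLprops ℓ hℓ).2.2.2.2) hLc.le X hXn hn hnΓ hLcoll hr (s : ZMod w)
  set d : Fin 5 → ℕ := fun i => (p i).1 * (p i).2 with hd
  have hd1 : ∀ i, d i ∣ P (i, false) * P (i, true) := fun i =>
    Nat.mul_dvd_mul (hXP _ _ (hp1 i).1).1 (hXP _ _ (hp1 i).2).1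
  have hd2 : ∀ i, 2 ≤ d i := fun i => by
    have h1 := (hXP _ _ (hp1 i).1).2.1
    have h2 := (hXP _ _ (hp1 i).2).2.1
    calc 2 ≤ (p i).1 := h1
      _ ≤ (p i).1 * (p i).2 := Nat.le_mul_of_pos_right _ (by omega)
  have hd3 : ∀ i, d i ≤ 2 ^ (2 * vx) := fun i => by
    have h1 := (hXP _ _ (hp1 i).1).2.2
    have h2 := (hXP _ _ (hp1 i).2).2.2
    calc d i ≤ 2 ^ vx * 2 ^ vx := Nat.mul_le_mul h1 h2
      _ = 2 ^ (2 * vx) := by rw [← pow_add]; congr 1; ring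
  have hdinj : Function.Injective d := by
    intro i i' hii'
    by_contra hne
    have h1 := hPco i i' hne
    have h2 : d i ∣ P (i', false) * P (i', true) := hii' ▸ hd1 i'
    have h3 : d i ∣ 1 := by
      have := Nat.dvd_gcd (hd1 i) h2
      rwa [h1] at this
    have h4 := Nat.le_of_dvd (by norm_num) h3
    have h5 := hd2 i
    omega
  refine ⟨Finset.univ.image d, ?_, ?_, ?_, ?_⟩
  · intro x hx
    obtain ⟨i, _, rfl⟩ := Finset.mem_image.1 hx
    exact (hd1 i).trans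
      ((Finset.dvd_prod_of_mem (fun i => P (i, false) * P (i, true)) (Finset.mem_univ i)).trans hPV)
  · simpa using Finset.card_image_le (s := (Finset.univ : Finset (Fin 5))) (f := d)
  · rw [Finset.sum_image (fun i _ j _ h => hdinj h)]
    calc ∑ i, d i ≤ ∑ _i : Fin 5, 2 ^ (2 * vx) := Finset.sum_le_sum (fun i _ => hd3 i)
      _ = 5 * 2 ^ (2 * vx) := by simp
      _ ≤ B := hB
  · rw [Finset.sum_image (fun i _ j _ h => hdinj h)]
    have h1 : ((∑ i, d i : ℕ) : ZMod w) = (s : ZMod w) := by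
      rw [← hp2]
      simp only [hd, Nat.cast_sum, Nat.cast_mul]
    have h2 := (ZMod.natCast_eq_natCast_iff' _ _ _).1 h1
    rw [h2, Nat.mod_eq_of_lt hs]

end Vale.Agent.Lib.P012
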