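import Vale.Agent.Lib.P012.Blocks

namespace Vale.Agent.Lib.P012

open Finset

/-- The state carried along the construction. -/
def St (G : Finset ℕ) (V T v : ℕ) : Prop :=
  0 < V ∧ ¬ 3 ∣ V ∧ V ≤ 2 ^ v ∧ (∀ p ∈ G, p.Prime) ∧ (∏ p ∈ G, p) ∣ V ∧ Rep V T

/-- Iterating levels with fixed blocks. -/
theorem iterate_levels {vs r c n : ℕ} (hvs : 0 < vs) (hc : 0 < c)
    (X : Fin 5 × Bool → Finset ℕ) (P : Fin 5 × Bool → ℕ)
    (hXn : ∀ j, (X j).card = n) (hn : 0 < n)
    (hXP : ∀ j, ∀ x ∈ X j, x ∣ P j ∧ 2 ≤ x)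
    (hPco : ∀ i i' : Fin 5, i ≠ i' →
      Nat.Coprime (P (i, false) * P (i, true)) (P (i', false) * P (i', true)))
    (hnΓ : (2 ^ (3 * r)) ^ c ≤ n)
    (hr : 2 * c * 21 ^ 5 < 2 ^ r)
    (hπ : 2 * c * 2 ^ (3 * r) * vs + c + vs + 1 ≤ (Nat.primesLE (2 ^ (4 * r))).card)
    {G : Finset ℕ} {V T v : ℕ} (hst : St G V T v)
    (hPV : ∏ i, (P (i, false) * P (i, true)) ∣ V) (t : ℕ)
    (hvt : v + t * (4 * r * c) ≤ vs) :
    ∃ (G' : Finset ℕ) (V' : ℕ), St G' V' (T + 5 * t) (v + t * (4 * r * c)) ∧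
      G.card + t * c ≤ G'.card ∧ V ∣ V' := by
  classical
  induction t with
  | zero => exact ⟨G, V, by simpa using hst, by simp, dvd_rfl⟩
  | succ t ih =>
    obtain ⟨G', V', hst', hcard', hVV'⟩ := ih (by
      have : v + t * (4 * r * c) ≤ v + (t + 1) * (4 * r * c) := by
        apply Nat.add_le_add_left
        exact Nat.mul_le_mul_right _ (Nat.le_succ t)
      omega)
    obtain ⟨h1, h2, h3, h4, h5, h6⟩ := hst'
    have hV's : V' ≤ 2 ^ vs := by
      refine h3.trans (Nat.pow_le_pow_right (by norm_num) ?_)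
      have : v + t * (4 * r * c) ≤ v + (t + 1) * (4 * r * c) := by
        apply Nat.add_le_add_left
        exact Nat.mul_le_mul_right _ (Nat.le_succ t)
      omega
    obtain ⟨L, hLc, hLprops, hRep⟩ := one_level h1 hV's hvs hc X P hXn hn hXP hPco
      (hPV.trans hVV') hnΓ hr hπ h6
    have hdisj : Disjoint L G' := by
      rw [Finset.disjoint_left]
      intro ℓ hℓ hℓG
      obtain ⟨hp, _, hco, _⟩ := hLprops ℓ hℓ
      have hd : ℓ ∣ V' := (Finset.dvd_prod_of_mem (fun p => p) hℓG).trans h5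
      exact (Nat.Prime.coprime_iff_not_dvd hp).1 hco hd
    refine ⟨L ∪ G', (∏ ℓ ∈ L, ℓ) * V', ⟨?_, ?_, ?_, ?_, ?_, ?_⟩, ?_, ?_⟩
    · exact Nat.mul_pos (Finset.prod_pos (fun ℓ hℓ => (hLprops ℓ hℓ).1.pos)) h1
    · intro hd
      rcases (Nat.prime_three.dvd_mul).1 hd with h | h
      · obtain ⟨ℓ, hℓ, h7⟩ := (Prime.dvd_finsetProd_iff Nat.prime_three.prime _).1 h
        have := (Nat.prime_dvd_prime_iff_eq Nat.prime_three (hLprops ℓ hℓ).1).1 h7
        exact (hLprops ℓ hℓ).2.1 this.symm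
      · exact h2 h
    · have h7 : ∏ ℓ ∈ L, ℓ ≤ (2 ^ (4 * r)) ^ L.card :=
        Finset.prod_le_pow_card _ _ _ (fun ℓ hℓ => (hLprops ℓ hℓ).2.2.2)
      calc (∏ ℓ ∈ L, ℓ) * V' ≤ (2 ^ (4 * r)) ^ L.card * 2 ^ (v + t * (4 * r * c)) :=
            Nat.mul_le_mul h7 h3
        _ = 2 ^ (v + (t + 1) * (4 * r * c)) := by
            rw [hLc, ← pow_mul, ← pow_add]
            congr 1
            ring
    · intro p hp
      rcases Finset.mem_union.1 hp with hp | hp
      · exact (hLprops p hp).1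
      · exact h4 p hp
    · rw [Finset.prod_union hdisj]
      exact Nat.mul_dvd_mul_left _ h5
    · have : T + 5 * (t + 1) = T + 5 * t + 5 := by ring
      rw [this]
      exact hRep
    · rw [Finset.card_union_of_disjoint hdisj, hLc]
      have : G.card + (t + 1) * c = G.card + t * c + c := by ring
      omega
    · exact hVV'.trans (Dvd.intro_left _ rfl)

theorem le_two_pow_of_ge {i : ℕ} (hi : 12 ≤ i) : 288 * i ≤ 2 ^ i := by
  induction i, hi using Nat.le_induction with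
  | base => norm_num
  | succ i hi ih =>
    rw [pow_succ]
    omega

/-- The numerical inequality ensuring that enough primes are available. -/
theorem numeric_pi {i c P : ℕ} (hi : 12 ≤ i) (hP : P = 2 ^ i) (hc : c * (288 * i) ≤ P) :
    1 + 12 * i * (2 * c * P ^ 9 * (48 * i * P) + c + 48 * i * P + 1) < P ^ 12 := by
  have h1 : 288 * i ≤ P := hP ▸ le_two_pow_of_ge hi
  have hP2 : 4096 ≤ P := by
    have h : 2 ^ 12 ≤ P := hP ▸ Nat.pow_le_pow_right (by norm_num) hi
    omega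
  set Q := P ^ 12 with hQ
  have hPQ : P ≤ Q := by
    rw [hQ]
    exact Nat.le_self_pow (by norm_num) P
  have hP3Q : P ^ 3 ≤ Q := by
    rw [hQ]
    exact Nat.pow_le_pow_right (by omega) (by norm_num)
  have e : 12 * i * (2 * c * P ^ 9 * (48 * i * P) + c + 48 * i * P + 1) =
      (c * (288 * i)) * (4 * i) * P ^ 10 + 12 * i * c + 576 * i * i * P + 12 * i := by ring
  have t1 : 72 * ((c * (288 * i)) * (4 * i) * P ^ 10) ≤ Q := by
    calc 72 * ((c * (288 * i)) * (4 * i) * P ^ 10)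
        = (c * (288 * i)) * (288 * i) * P ^ 10 := by ring
      _ ≤ P * P * P ^ 10 := by gcongr
      _ = Q := by rw [hQ]; ring
  have t2 : 24 * (12 * i * c) ≤ P := by
    calc 24 * (12 * i * c) = c * (288 * i) := by ring
      _ ≤ P := hc
  have t3 : 144 * (576 * i * i * P) ≤ P ^ 3 := by
    calc 144 * (576 * i * i * P) = (288 * i) * (288 * i) * P := by ring
      _ ≤ P * P * P := by gcongr
      _ = P ^ 3 := by ring
  have t4 : 24 * (12 * i) ≤ P := by omega
  rw [e]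
  omega

/-- Lower bound for the number of primes in the range used at stage `i`. -/
theorem primes_enough {i c P : ℕ} (hi : 12 ≤ i) (hP : P = 2 ^ i) (hc : c * (288 * i) ≤ P) :
    2 * c * 2 ^ (3 * (3 * i)) * (48 * i * P) + c + 48 * i * P + 1 ≤
      (Nat.primesLE (2 ^ (4 * (3 * i)))).card := by
  have e1 : 2 ^ (3 * (3 * i)) = P ^ 9 := by
    rw [hP, ← pow_mul]
    congr 1
    ring
  have e2 : 2 ^ (4 * (3 * i)) = P ^ 12 := by
    rw [hP, ← pow_mul]
    congr 1
    ring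
  have h0 := numeric_pi hi hP hc
  have h1 := two_pow_le_primes (12 * i)
  have e3 : 2 ^ (12 * i) = P ^ 12 := by
    rw [hP, ← pow_mul]
    congr 1
    ring
  rw [e1, e2]
  rw [e3] at h1
  by_contra hcon
  replace hcon := not_le.1 hcon
  have h2 : 12 * i * ((Nat.primesLE (P ^ 12)).card + 1) ≤
      12 * i * (2 * c * P ^ 9 * (48 * i * P) + c + 48 * i * P + 1) :=
    Nat.mul_le_mul_left _ hcon
  have h3 : 12 * i * ((Nat.primesLE (P ^ 12)).card + 1) =
      12 * i + 12 * i * (Nat.primesLE (P ^ 12)).card := by ring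
  omega

/-- One stage: the number of primes doubles, at the cost of `2880 i` more divisors. -/
theorem stage {i : ℕ} (hi : 12 ≤ i) {G : Finset ℕ} {V T : ℕ} (hst : St G V T (24 * i * 2 ^ i))
    (hG : 2 ^ i ≤ G.card) :
    ∃ (G' : Finset ℕ) (V' : ℕ), St G' V' (T + 2880 * i) (24 * (i + 1) * 2 ^ (i + 1)) ∧
      2 ^ (i + 1) ≤ G'.card := by
  set P := 2 ^ i with hP
  have h288 : 288 * i ≤ P := le_two_pow_of_ge hi
  have hP4 : 4096 ≤ P := by
    have h : 2 ^ 12 ≤ P := hP ▸ Nat.pow_le_pow_right (by norm_num) hi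
    omega
  set K := P / 16 with hK
  set c := P / (288 * i) with hc
  have hcle : c * (288 * i) ≤ P := Nat.div_mul_le_self _ _
  have hcpos : 0 < c := Nat.div_pos h288 (by omega)
  have hcge : P ≤ 576 * i * c := by
    have h1 : P < (288 * i) * (c + 1) := by
      have := Nat.lt_mul_div_succ P (show 0 < 288 * i by omega)
      simpa [hc] using this
    have h2 : c + 1 ≤ 2 * c := by omega
    calc P ≤ (288 * i) * (c + 1) := h1.le
      _ ≤ (288 * i) * (2 * c) := Nat.mul_le_mul_left _ h2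
      _ = 576 * i * c := by ring
  have hK16 : 16 * K ≤ P := Nat.mul_div_le _ _
  have hK16' : P < 16 * K + 16 := by
    have := Nat.lt_mul_div_succ P (show 0 < 16 by norm_num)
    omega
  have h10K : 10 * K ≤ G.card := by omega
  obtain ⟨X, Q, hXn, hXP, hPco, hQG⟩ := exists_blocks hst.2.2.2.1 h10K
  have hKge : 2 ≤ K := by omega
  have hn : 0 < 2 ^ K - 1 := by
    have : 2 ^ 1 ≤ 2 ^ K := Nat.pow_le_pow_right (by norm_num) (by omega)
    omega
  have h18 : 18 * (i * c) ≤ K := by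
    have h1 : 16 * (18 * (i * c)) ≤ P := by
      calc 16 * (18 * (i * c)) = c * (288 * i) := by ring
        _ ≤ P := hcle
    rw [hK]
    apply (Nat.le_div_iff_mul_le (by norm_num)).2
    omega
  have hnΓ : (2 ^ (3 * (3 * i))) ^ c ≤ 2 ^ K - 1 := by
    rw [← pow_mul]
    have h1 : 3 * (3 * i) * c ≤ K - 1 := by
      have : 3 * (3 * i) * c = 9 * (i * c) := by ring
      omega
    have h2 : 2 ^ (3 * (3 * i) * c) ≤ 2 ^ (K - 1) := Nat.pow_le_pow_right (by norm_num) h1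
    have h3 : 2 ^ K = 2 * 2 ^ (K - 1) := by
      rw [← pow_succ']
      congr 1
      omega
    have h4 : 1 ≤ 2 ^ (K - 1) := Nat.one_le_two_pow
    omega
  have hr : 2 * c * 21 ^ 5 < 2 ^ (3 * i) := by
    have h1 : c ≤ P := by
      calc c ≤ c * (288 * i) := Nat.le_mul_of_pos_right _ (by omega)
        _ ≤ P := hcle
    have h2 : 2 ^ (3 * i) = P * P * P := by
      rw [hP, ← pow_add, ← pow_add]
      congr 1
      ring
    rw [h2]
    calc 2 * c * 21 ^ 5 ≤ 2 * P * 21 ^ 5 := by gcongr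
      _ < 4096 * 4096 * P := by nlinarith
      _ ≤ P * P * P := by gcongr
  have hπ := primes_enough hi hP hcle
  have hvs : 0 < 48 * i * P := by positivity
  have hbudget : 24 * i * P + 576 * i * (4 * (3 * i) * c) ≤ 48 * i * P := by
    have h1 : 576 * i * (4 * (3 * i) * c) = 24 * i * (c * (288 * i)) := by ring
    have h2 : 24 * i * (c * (288 * i)) ≤ 24 * i * P := Nat.mul_le_mul_left _ hcle
    have h3 : 48 * i * P = 24 * i * P + 24 * i * P := by ring
    omega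
  obtain ⟨G', V', hst', hcard', _⟩ := iterate_levels hvs hcpos X Q hXn hn hXP hPco hnΓ hr hπ hst
    (hQG.trans hst.2.2.2.2.1) (576 * i) hbudget
  refine ⟨G', V', ?_, ?_⟩
  · obtain ⟨h1, h2, h3, h4, h5, h6⟩ := hst'
    refine ⟨h1, h2, ?_, h4, h5, ?_⟩
    · refine h3.trans (Nat.pow_le_pow_right (by norm_num) (hbudget.trans ?_))
      have : 24 * (i + 1) * 2 ^ (i + 1) = 48 * (i + 1) * P := by
        rw [hP, pow_succ]
        ring
      rw [this]
      apply Nat.mul_le_mul_right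
      omega
    · have : T + 2880 * i = T + 5 * (576 * i) := by ring
      rw [this]
      exact h6
  · have : 2 ^ (i + 1) = P + P := by
      rw [hP, pow_succ]
      ring
    rw [this]
    omega

theorem St.mono {G : Finset ℕ} {V T T' v v' : ℕ} (h : St G V T v) (hT : T ≤ T') (hv : v ≤ v') :
    St G V T' v' := by
  obtain ⟨h1, h2, h3, h4, h5, h6⟩ := h
  exact ⟨h1, h2, h3.trans (Nat.pow_le_pow_right (by norm_num) hv), h4, h5, h6.mono hT⟩

/-- The base of the induction. -/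
theorem base_state {T v : ℕ} (hT : 17 * (2 ^ 12 + 1) ≤ T) (hv : 17 * 2 ^ 12 + 17 ≤ v) :
    ∃ (G : Finset ℕ) (V : ℕ), St G V T v ∧ 2 ^ 12 ≤ G.card := by
  classical
  have h1 := two_pow_le_primes 17
  have h2 : 4098 ≤ (Nat.primesLE (2 ^ 17)).card := by omega
  set B := (Nat.primesLE (2 ^ 17)).filter (fun p => p ≠ 2 ∧ p ≠ 3) with hB
  have h3 : (Nat.primesLE (2 ^ 17)).card ≤ B.card + 2 := by
    have hsub : Nat.primesLE (2 ^ 17) ⊆ B ∪ {2, 3} := by
      intro p hp
      rw [Finset.mem_union]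
      by_cases h : p ≠ 2 ∧ p ≠ 3
      · exact Or.inl (Finset.mem_filter.2 ⟨hp, h⟩)
      · right
        simp only [Finset.mem_insert, Finset.mem_singleton]
        omega
    calc _ ≤ _ := Finset.card_le_card hsub
      _ ≤ _ := Finset.card_union_le _ _
      _ ≤ _ := by
        apply Nat.add_le_add_left
        exact Finset.card_le_two
  have h4 : 2 ^ 12 ≤ B.card := by omega
  obtain ⟨G, hGB, hGc⟩ := Finset.exists_subset_card_eq h4
  have hGp : ∀ p ∈ G, p.Prime ∧ p ≠ 2 ∧ p ≠ 3 ∧ p < 2 ^ 17 := by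
    intro p hp
    have h5 := Finset.mem_filter.1 (hGB hp)
    have h6 := Nat.prime_of_mem_primesLE h5.1
    have h7 := Nat.le_of_mem_primesLE h5.1
    refine ⟨h6, h5.2.1, h5.2.2, ?_⟩
    have h8 : p ≠ 2 ^ 17 := by
      intro h9
      have h10 : 2 ∣ p := by
        rw [h9]
        exact dvd_pow_self 2 (by norm_num)
      exact h5.2.1 ((Nat.prime_dvd_prime_iff_eq Nat.prime_two h6).1 h10).symm
    omega
  have hrep := rep_base 17 G (fun p hp => ⟨(hGp p hp).1, (hGp p hp).2.1, (hGp p hp).2.2.2⟩)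
  rw [hGc] at hrep
  have hprodpos : 0 < ∏ p ∈ G, p := Finset.prod_pos (fun p hp => (hGp p hp).1.pos)
  refine ⟨G, (∏ p ∈ G, p) * 2 ^ 17, ?_, hGc.ge⟩
  refine ⟨Nat.mul_pos hprodpos (Nat.two_pow_pos 17), ?_, ?_, fun p hp => (hGp p hp).1,
    Dvd.intro _ rfl, hrep.mono hT⟩
  · intro hd
    rcases (Nat.prime_three.dvd_mul).1 hd with h | h
    · obtain ⟨ℓ, hℓ, h7⟩ := (Prime.dvd_finsetProd_iff Nat.prime_three.prime _).1 h
      have := (Nat.prime_dvd_prime_iff_eq Nat.prime_three (hGp ℓ hℓ).1).1 h7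
      exact (hGp ℓ hℓ).2.2.1 this.symm
    · have := Nat.prime_three.dvd_of_dvd_pow h
      omega
  · have h5 : ∏ p ∈ G, p ≤ (2 ^ 17) ^ G.card :=
      Finset.prod_le_pow_card _ _ _ (fun p hp => (hGp p hp).2.2.2.le)
    calc (∏ p ∈ G, p) * 2 ^ 17 ≤ (2 ^ 17) ^ G.card * 2 ^ 17 := Nat.mul_le_mul_right _ h5
      _ = 2 ^ (17 * 2 ^ 12 + 17) := by
        rw [hGc, ← pow_mul, ← pow_add]
      _ ≤ 2 ^ v := Nat.pow_le_pow_right (by norm_num) hv

/-- The states at all stages. -/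
theorem exists_state {i : ℕ} (hi : 12 ≤ i) : ∃ (G : Finset ℕ) (V : ℕ),
    St G V (69649 + 2880 * i ^ 2) (24 * i * 2 ^ i) ∧ 2 ^ i ≤ G.card := by
  induction i, hi using Nat.le_induction with
  | base => exact base_state (by norm_num) (by norm_num)
  | succ i hi ih =>
    obtain ⟨G, V, h1, h2⟩ := ih
    obtain ⟨G', V', h3, h4⟩ := stage hi h1 h2
    exact ⟨G', V', h3.mono (by nlinarith) le_rfl, h4⟩

/-- Final natural-number form. -/
theorem egyptian_of_stage {i b a : ℕ} (hi : 12 ≤ i) (hb : 3 * b ≤ 2 ^ (2 ^ i)) (ha : 0 < a)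
    (hab : a < b) :
    ∃ S : Finset ℕ, (∀ n ∈ S, 2 ≤ n) ∧ ∑ n ∈ S, (1 / (n : ℚ)) = (a : ℚ) / b ∧
      S.card ≤ 2 * (69649 + 2880 * i ^ 2) := by
  obtain ⟨G, V, ⟨h1, h2, _, h4, h5, h6⟩, hG⟩ := exists_state hi
  have h7 : 2 ^ (2 ^ i) ≤ V := by
    calc 2 ^ (2 ^ i) ≤ 2 ^ G.card := Nat.pow_le_pow_right (by norm_num) hG
      _ ≤ ∏ p ∈ G, p := two_pow_card_le_prod G h4
      _ ≤ V := Nat.le_of_dvd h1 h5
  exact egyptian_of_rep h1 h2 (hb.trans h7) h6 ha hab

end Vale.Agent.Lib.P012
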