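import Vale.Agent.Lib.P012.ChainA

namespace Vale.Agent.Lib.P012

open Finset

theorem cube_le_two_pow {g : ℕ} (hg : 30 ≤ g) : 32000 * g ^ 3 ≤ 2 ^ g := by
  induction g, hg using Nat.le_induction with
  | base => norm_num
  | succ g hg ih =>
    rw [pow_succ 2 g]
    nlinarith [sq_nonneg g, mul_self_nonneg g, Nat.zero_le (g * g), Nat.mul_le_mul hg hg,
      Nat.mul_le_mul (Nat.mul_le_mul hg hg) hg]

theorem primes_big {g : ℕ} (hg : 30 ≤ g) :
    1000 * g ^ 2 * 2 ^ (15 * g) ≤ (Nat.primesLE (2 ^ (16 * g))).card := by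
  have h0 := two_pow_le_primes (16 * g)
  have h1 := cube_le_two_pow hg
  have e : 2 ^ (16 * g) = 2 ^ g * 2 ^ (15 * g) := by
    rw [← pow_add]
    congr 1
    ring
  set Q := 2 ^ (15 * g) with hQ
  have hQpos : 1 ≤ Q := Nat.one_le_two_pow
  by_contra hcon
  replace hcon := not_le.1 hcon
  have h2 : 16 * g * (Nat.primesLE (2 ^ (16 * g))).card ≤ 16 * g * (1000 * g ^ 2 * Q) :=
    Nat.mul_le_mul_left _ hcon.le
  have h3 : 32000 * g ^ 3 * Q ≤ 2 ^ g * Q := Nat.mul_le_mul_right _ h1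
  have e1 : 16 * g * (1000 * g ^ 2 * Q) = 16000 * g ^ 3 * Q := by ring
  have e2 : 32000 * g ^ 3 * Q = 16000 * g ^ 3 * Q + 16000 * g ^ 3 * Q := by ring
  have h4 : 16000 * g ^ 3 * 1 ≤ 16000 * g ^ 3 * Q := Nat.mul_le_mul_left _ hQpos
  have h5 : g ≤ g ^ 3 := Nat.le_self_pow (by norm_num) g
  omega

theorem numeric1 {g P J : ℕ} (hg : 30 ≤ g) (hP : 1 ≤ P) (hJ : 16 * J ≤ P) :
    2 * (160 * (J * P)) * P ^ 12 * (2 * g * (384 * g * J)) + 160 * (J * P) ≤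
      1000 * g ^ 2 * P ^ 15 := by
  have hJ2 : 256 * J ^ 2 ≤ P ^ 2 := by
    have := Nat.pow_le_pow_left hJ 2
    calc 256 * J ^ 2 = (16 * J) ^ 2 := by ring
      _ ≤ P ^ 2 := this
  have t1 : 2 * (160 * (J * P)) * P ^ 12 * (2 * g * (384 * g * J)) ≤ 960 * g ^ 2 * P ^ 15 := by
    calc _ = 960 * g ^ 2 * P ^ 13 * (256 * J ^ 2) := by ring
      _ ≤ 960 * g ^ 2 * P ^ 13 * P ^ 2 := Nat.mul_le_mul_left _ hJ2
      _ = _ := by ring
  have t2 : 160 * (J * P) ≤ 10 * P ^ 2 := by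
    calc 160 * (J * P) = 10 * (16 * J) * P := by ring
      _ ≤ 10 * P * P := Nat.mul_le_mul_right _ (Nat.mul_le_mul_left _ hJ)
      _ = _ := by ring
  have t3 : P ^ 2 ≤ P ^ 15 := Nat.pow_le_pow_right hP (by norm_num)
  have hg2 : 1 ≤ g ^ 2 := Nat.one_le_pow _ _ (by omega)
  have t4 : 1 * P ^ 15 ≤ g ^ 2 * P ^ 15 := Nat.mul_le_mul_right _ hg2
  have e1 : 1000 * g ^ 2 * P ^ 15 = 960 * (g ^ 2 * P ^ 15) + 40 * (g ^ 2 * P ^ 15) := by ring
  have e2 : 960 * g ^ 2 * P ^ 15 = 960 * (g ^ 2 * P ^ 15) := by ring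
  omega

theorem numeric2 {g P J : ℕ} (hg : 30 ≤ g) (hP : 10000 ≤ P) (hJ : 16 * J ≤ P) :
    2 * J * P ^ 12 * (16 * g * (16 * J) + 4) + J + P ^ 8 + 5000 * g ^ 2 * P ≤
      1000 * g ^ 2 * P ^ 15 := by
  have hP1 : 1 ≤ P := by omega
  have hJ2 : 256 * J ^ 2 ≤ P ^ 2 := by
    have := Nat.pow_le_pow_left hJ 2
    calc 256 * J ^ 2 = (16 * J) ^ 2 := by ring
      _ ≤ P ^ 2 := this
  have hgg : g ≤ g ^ 2 := Nat.le_self_pow (by norm_num) g
  have hg2 : 1 ≤ g ^ 2 := Nat.one_le_pow _ _ (by omega)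
  have hPQ : ∀ k, k ≤ 15 → P ^ k ≤ g ^ 2 * P ^ 15 := by
    intro k hk
    calc P ^ k ≤ P ^ 15 := Nat.pow_le_pow_right hP1 hk
      _ = 1 * P ^ 15 := by ring
      _ ≤ g ^ 2 * P ^ 15 := Nat.mul_le_mul_right _ hg2
  have t1 : 2 * J * P ^ 12 * (16 * g * (16 * J)) ≤ 2 * (g ^ 2 * P ^ 15) := by
    calc _ = 2 * g * P ^ 12 * (256 * J ^ 2) := by ring
      _ ≤ 2 * g * P ^ 12 * P ^ 2 := Nat.mul_le_mul_left _ hJ2
      _ = 2 * (g * P ^ 14) := by ring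
      _ ≤ 2 * (g ^ 2 * P ^ 15) := by
          apply Nat.mul_le_mul_left
          exact Nat.mul_le_mul hgg (Nat.pow_le_pow_right hP1 (by norm_num))
  have t2 : 2 * J * P ^ 12 * 4 ≤ g ^ 2 * P ^ 15 := by
    calc 2 * J * P ^ 12 * 4 ≤ (16 * J) * P ^ 12 := by nlinarith [Nat.zero_le (J * P ^ 12)]
      _ ≤ P * P ^ 12 := Nat.mul_le_mul_right _ hJ
      _ = P ^ 13 := by ring
      _ ≤ _ := hPQ 13 (by norm_num)
  have t3 : J ≤ g ^ 2 * P ^ 15 := by
    have := hPQ 1 (by norm_num)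
    rw [pow_one] at this
    omega
  have t4 := hPQ 8 (by norm_num)
  have t5 : 5000 * g ^ 2 * P ≤ g ^ 2 * P ^ 15 := by
    calc 5000 * g ^ 2 * P = g ^ 2 * (5000 * P) := by ring
      _ ≤ g ^ 2 * (P * P) := Nat.mul_le_mul_left _ (Nat.mul_le_mul_right _ (by omega))
      _ = g ^ 2 * P ^ 2 := by ring
      _ ≤ g ^ 2 * P ^ 15 := Nat.mul_le_mul_left _ (Nat.pow_le_pow_right hP1 (by norm_num))
  have e : 2 * J * P ^ 12 * (16 * g * (16 * J) + 4) =
      2 * J * P ^ 12 * (16 * g * (16 * J)) + 2 * J * P ^ 12 * 4 := by ring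
  have e1 : 1000 * g ^ 2 * P ^ 15 = 1000 * (g ^ 2 * P ^ 15) := by ring
  rw [e, e1]
  omega

/-- One stage at scale `J = 2 ^ j`. -/
theorem stageA {g j : ℕ} (hg : 30 ≤ g) (hj : j + 4 ≤ g) {G : Finset ℕ} (hG : ∀ p ∈ G, p.Prime)
    (hGodd : ∀ p ∈ G, Odd p) (hGb : ∀ p ∈ G, p ≤ 2 ^ (2 * g)) (hGc : G.card = 480 * g * 2 ^ g)
    {O E B T lam : ℕ} (hst : StA (∏ p ∈ G, p) O E B T lam)
    (hlam : 512 * g * 2 ^ j + 5 ≤ lam) (t : ℕ)
    (hcap : lam + t * (5 + 8 * g * 2 ^ j) ≤ 2000 * g ^ 2 * 2 ^ g) :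
    ∃ O' B', StA (∏ p ∈ G, p) O' (E + 5 * t) B' (T + 30 * t) (lam + t * (5 + 8 * g * 2 ^ j)) := by
  classical
  have hgpos : 0 < g := by omega
  set V := ∏ p ∈ G, p with hV
  have hVpos : 0 < V := Finset.prod_pos (fun p hp => (hG p hp).pos)
  have hVodd : Odd V := Finset.prod_induction _ Odd (fun _ _ => Odd.mul) odd_one hGodd
  set P := 2 ^ g with hP
  set J := 2 ^ j with hJ
  have hJpos : 0 < J := Nat.two_pow_pos j
  have hPpos : 0 < P := Nat.two_pow_pos g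
  have hJP : 16 * J ≤ P := by
    have : 2 ^ (j + 4) ≤ 2 ^ g := Nat.pow_le_pow_right (by norm_num) hj
    rw [pow_add] at this
    rw [hP, hJ]
    omega
  have hP30 : 2 ^ 30 ≤ P := Nat.pow_le_pow_right (by norm_num) hg
  have hVv : V ≤ 2 ^ (960 * g ^ 2 * P) := by
    have := Finset.prod_le_pow_card G (fun p => p) (2 ^ (2 * g)) hGb
    rw [hGc, ← pow_mul] at this
    have e : 2 * g * (480 * g * 2 ^ g) = 960 * g ^ 2 * P := by
      rw [hP]
      ring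
    rw [e] at this
    exact this
  -- the powers
  have e12 : 2 ^ (3 * (4 * g)) = P ^ 12 := by
    rw [hP, ← pow_mul]
    congr 1
    ring
  have e8 : 2 ^ (2 * (4 * g)) = P ^ 8 := by
    rw [hP, ← pow_mul]
    congr 1
    ring
  have e4 : 2 ^ (4 * g) = P ^ 4 := by
    rw [hP, ← pow_mul]
    congr 1
    ring
  have e15 : 2 ^ (15 * g) = P ^ 15 := by
    rw [hP, ← pow_mul]
    congr 1
    ring
  have hprimes : 1000 * g ^ 2 * P ^ 15 ≤ (Nat.primesLE (2 ^ (4 * (4 * g)))).card := by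
    have := primes_big hg
    rw [e15, show 16 * g = 4 * (4 * g) by ring] at this
    exact this
  have hr₀ : 2 * (32 * J) * 21 ^ 5 < 2 ^ (4 * g) := by
    rw [e4]
    have h1 : 2 * (32 * J) * 21 ^ 5 ≤ 2 * (32 * P) * 21 ^ 5 := by
      apply Nat.mul_le_mul_right
      apply Nat.mul_le_mul_left
      apply Nat.mul_le_mul_left
      omega
    have h2 : 2 * (32 * P) * 21 ^ 5 = 261382464 * P := by ring
    have h3 : P ^ 4 = P ^ 3 * P := by ring
    have h4 : 2 ^ 30 ≤ P ^ 3 := by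
      calc 2 ^ 30 ≤ P := hP30
        _ ≤ P ^ 3 := Nat.le_self_pow (by norm_num) P
    have h5 : 261382464 * P < P ^ 3 * P := Nat.mul_lt_mul_of_pos_right (by omega) hPpos
    omega
  -- first tier: blocks from the rich primes
  have hcard₀ : 10 * (384 * g * J * 2) ≤ G.card := by
    rw [hGc]
    calc 10 * (384 * g * J * 2) = 480 * g * (16 * J) := by ring
      _ ≤ 480 * g * P := Nat.mul_le_mul_left _ hJP
  obtain ⟨X₀, P₀, hXn₀, hXP₀, hPco₀, hPG₀, _⟩ := exists_blocksP hG hGb (k := 384 * g * J) (q := 2)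
    (by positivity) hcard₀
  have hXodd₀ : ∀ j, ∀ x ∈ X₀ j, Odd x := by
    rintro ⟨i, b⟩ x hx
    have h1 : x ∣ P₀ (i, b) := (hXP₀ _ x hx).1
    have h2 : P₀ (i, b) ∣ P₀ (i, false) * P₀ (i, true) := by
      cases b
      · exact Dvd.intro _ rfl
      · exact Dvd.intro_left _ rfl
    have h3 : P₀ (i, false) * P₀ (i, true) ∣ ∏ i, (P₀ (i, false) * P₀ (i, true)) :=
      Finset.dvd_prod_of_mem (fun i => P₀ (i, false) * P₀ (i, true)) (Finset.mem_univ i)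
    exact hVodd.of_dvd_nat (h1.trans (h2.trans (h3.trans hPG₀)))
  have hnΓ₀ : (2 ^ (3 * (4 * g))) ^ (32 * J) ≤ 2 ^ (384 * g * J) := by
    rw [← pow_mul]
    apply Nat.pow_le_pow_right (by norm_num)
    apply le_of_eq
    ring
  have hπ₀ : 2 * (160 * (J * P)) * 2 ^ (3 * (4 * g)) * (2 * g * (384 * g * J)) + 160 * (J * P) ≤
      (Nat.primesLE (2 ^ (4 * (4 * g)))).card := by
    rw [e12]
    exact (numeric1 hg (by omega) hJP).trans hprimes
  obtain ⟨L, hLc, hLp, hLa⟩ := exists_atoms (V := V) (n := 2 ^ (384 * g * J))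
    (vx := 2 * g * (384 * g * J)) (r := 4 * g) (t := 32 * J) (cp := 160 * (J * P)) hVpos X₀ P₀ hXn₀
    (by positivity) hXP₀ hXodd₀ hPco₀ hPG₀ (by positivity) (by positivity) hnΓ₀ hr₀ hπ₀
  -- second tier: blocks from the primes of the atoms
  have hLprime : ∀ ℓ ∈ L, ℓ.Prime := fun ℓ hℓ => (hLp ℓ hℓ).1
  have hLb : ∀ ℓ ∈ L, ℓ ≤ 2 ^ (16 * g) := fun ℓ hℓ => by
    have := (hLp ℓ hℓ).2
    rwa [show 4 * (4 * g) = 16 * g by ring] at this
  have hcard₁ : 10 * (16 * J * P) ≤ L.card := by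
    rw [hLc]
    apply le_of_eq
    ring
  obtain ⟨X, Q, hXn, hXP, _, _, hXprod⟩ := exists_blocksP hLprime hLb (k := 16 * J) (q := P)
    (by positivity) hcard₁
  have hXv : ∀ j, ∀ x ∈ X j, x ≤ 2 ^ (16 * g * (16 * J)) := fun j x hx => (hXP j x hx).2.2
  have hXatom : ∀ i, ∀ x ∈ X (i, false), ∀ y ∈ X (i, true), Atom V (x * y) := by
    intro i x hx y hy
    obtain ⟨I, hI, hIc, e⟩ := hXprod i x hx y hy
    rw [e]
    exact hLa I hI (by omega)
  have hB : 31 * 2 ^ (2 * (16 * g * (16 * J))) ≤ B := by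
    have h1 : 2 ^ (512 * g * J + 5) ≤ B :=
      (Nat.pow_le_pow_right (by norm_num) hlam).trans hst.2.2.2.1
    have h2 : 2 ^ (512 * g * J + 5) = 32 * 2 ^ (2 * (16 * g * (16 * J))) := by
      rw [pow_add]
      have : 512 * g * J = 2 * (16 * g * (16 * J)) := by ring
      rw [this]
      ring
    omega
  have hnΓ : (2 ^ (3 * (4 * g))) ^ J ≤ P ^ (16 * J) := by
    rw [hP, ← pow_mul, ← pow_mul]
    apply Nat.pow_le_pow_right (by norm_num)
    calc 3 * (4 * g) * J ≤ 16 * (g * J) := by nlinarith [Nat.zero_le (g * J)]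
      _ = g * (16 * J) := by ring
  have hr : 2 * J * 21 ^ 5 < 2 ^ (4 * g) := by
    refine lt_of_le_of_lt ?_ hr₀
    apply Nat.mul_le_mul_right
    apply Nat.mul_le_mul_left
    omega
  have hπ : 2 * J * 2 ^ (3 * (4 * g)) * (16 * g * (16 * J) + 4) + J + 2 ^ (2 * (4 * g)) +
      5000 * g ^ 2 * P ≤ (Nat.primesLE (2 ^ (4 * (4 * g)))).card := by
    rw [e12, e8]
    exact (numeric2 hg (by omega) hJP).trans hprimes
  have e8gJ : 2 * (4 * g) * J = 8 * g * J := by ring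
  have hcap' : 2 * (lam + t * (5 + 2 * (4 * g) * J)) + 960 * g ^ 2 * P ≤ 5000 * g ^ 2 * P := by
    rw [e8gJ]
    have e : 5000 * g ^ 2 * P = 2 * (2000 * g ^ 2 * P) + 960 * g ^ 2 * P + 40 * g ^ 2 * P := by
      ring
    omega
  obtain ⟨O', B', hst', _⟩ := iterate_levelsA hVpos hVv hst (r := 4 * g) (c := J) (by omega) hJpos
    X hXn (by positivity) hXv hXatom hB hnΓ hr hπ t hcap'
  rw [e8gJ] at hst'
  exact ⟨O', B', hst'⟩

end Vale.Agent.Lib.P012
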